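import Vale.Agent.P168.CavBound.Mix

/-!
P168: the clauses at new sites give the first cavity factor.
-/

open MeasureTheory ProbabilityTheory Filter Topology
open scoped NNReal ENNReal

noncomputable section

namespace Vale.Agent.P168.CavBound

open P157.Casc (mlev casW casX)

variable {Kc N K n M : ℕ}

theorem fT_app {L : ℝ} (hL : 0 ≤ L) (p q : PL (TU Kc N M)) (h : Fin M → ℝ) (σ : Fin N → Bool) :
    |fT L (PL.app p q) h σ - fT L p h σ| ≤ L * q.1 := by
  have h1 := log_sum_shift (w := fun _ : Fin M → Bool => (1 : ℝ))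
    (f := fun e => (∑ s, cl (-L) L (h s) * sgn (e s)) + ∑ j, oneE L ((PL.app p q).2 j) e σ)
    (g := fun e => (∑ s, cl (-L) L (h s) * sgn (e s)) + ∑ j, oneE L (p.2 j) e σ)
    (fun _ => one_pos) (D := L * q.1) fun e => by
      rw [sum_app (fun _ t => oneE L t e σ) p q, add_sub_add_left_eq_sub, add_sub_cancel_left]
      exact (Finset.abs_sum_le_sum_abs _ _).trans ((Finset.sum_le_sum fun j _ => abs_cl hL _).trans_eq
        (show ∑ _j : Fin q.1, L = L * q.1 by simp [mul_comm]))
  simpa [fT] using h1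

theorem fT_perm (L : ℝ) {k : ℕ} (e : Equiv.Perm (Fin k)) (v : Fin k → TU Kc N M) (h : Fin M → ℝ) :
    fT L (⟨k, v ∘ e⟩ : PL (TU Kc N M)) h = fT L ⟨k, v⟩ h := by
  funext σ
  refine congrArg Real.log (Finset.sum_congr rfl fun t _ => congrArg Real.exp ?_)
  congr 1
  exact Equiv.sum_comp e fun j => oneE L (v j) t σ

/-- The union of the lists of the new sites gives the first cavity factor. -/
theorem fT_tags (L : ℝ) (u : CavU Kc M) (S : ℕ → Fin N) :
    fT L (tags M fun s => attach (u.1 s, sitesU Kc M S s)) u.2 = fU L (u, S) := by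
  funext σ
  rw [fT, fU, cavU]
  refine congrArg Real.log ?_
  rw [Fintype.prod_sum]
  refine Finset.sum_congr rfl fun e _ => ?_
  rw [sum_tags M (fun s => attach (u.1 s, sitesU Kc M S s)) fun t => oneE L t e σ,
    ← Finset.sum_add_distrib, Real.exp_sum]
  refine Finset.prod_congr rfl fun s _ => ?_
  rw [Real.exp_add, ← Real.exp_sum]
  rfl

theorem measurable_cavU2 :
    Measurable fun w : CavU Kc M × (ℕ → Bool) => cavU w.1 w.2 := by
  refine Finset.measurable_prod _ fun s _ => Finset.measurable_sum Finset.univ fun e _ => ?_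
  refine (Real.measurable_exp.comp
    (((measurable_pi_apply s).comp (measurable_snd.comp measurable_fst)).mul_const _)).mul ?_
  refine (measurable_pl_prod (f := fun p : PL (Clause Kc × Fin Kc) × (ℕ → Bool) => ∏ j : Fin p.1.1,
    Real.exp ((p.1.2 j).1 fun q =>
      if q = (p.1.2 j).2 then e else p.2 (2 * Nat.pair s (Nat.pair j q)))) fun k => ?_).comp
    (f := fun a : CavU Kc M × (ℕ → Bool) => (a.1.1 s, a.2))
    (((measurable_pi_apply s).comp (measurable_fst.comp measurable_fst)).prodMk measurable_snd)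
  show Measurable fun q : (Fin k → Clause Kc × Fin Kc) × (ℕ → Bool) => ∏ j : Fin k,
    Real.exp ((q.1 j).1 fun l =>
      if l = (q.1 j).2 then e else q.2 (2 * Nat.pair s (Nat.pair j l)))
  refine Finset.measurable_prod Finset.univ
    (f := fun (j : Fin k) (q : (Fin k → Clause Kc × Fin Kc) × (ℕ → Bool)) =>
      Real.exp ((q.1 j).1 fun l =>
        if l = (q.1 j).2 then e else q.2 (2 * Nat.pair s (Nat.pair j l)))) fun j _ =>
    Real.measurable_exp.comp ?_
  have h1 : Measurable fun u : Clause Kc × (Fin Kc × (Fin Kc → Bool)) =>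
      u.1 fun l => if l = u.2.1 then e else u.2.2 l :=
    measurable_from_prod_countable_left fun w =>
      measurable_pi_apply (X := fun _ : Fin Kc → Bool => ℝ) fun l => if l = w.1 then e else w.2 l
  exact h1.comp (f := fun q : (Fin k → Clause Kc × Fin Kc) × (ℕ → Bool) =>
      ((q.1 j).1, ((q.1 j).2, fun l : Fin Kc => q.2 (2 * Nat.pair s (Nat.pair j l)))))
    ((measurable_fst.comp ((measurable_pi_apply j).comp measurable_fst)).prodMk
      ((measurable_snd.comp ((measurable_pi_apply j).comp measurable_fst)).prodMk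
        (measurable_pi_lambda _ fun l => (measurable_pi_apply _).comp measurable_snd)))

theorem measurable_cavV2 : Measurable fun w : PL (Clause Kc) × (ℕ → Bool) => cavV w.1 w.2 :=
  measurable_pl_prod fun k => by
    show Measurable fun q : (Fin k → Clause Kc) × (ℕ → Bool) => ∏ j : Fin k,
      Real.exp ((q.1 j) fun l => q.2 (2 * Nat.pair j l + 1))
    refine Finset.measurable_prod Finset.univ
      (f := fun (j : Fin k) (q : (Fin k → Clause Kc) × (ℕ → Bool)) =>
        Real.exp ((q.1 j) fun l => q.2 (2 * Nat.pair j l + 1))) fun j _ => Real.measurable_exp.comp ?_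
    have h1 : Measurable fun u : Clause Kc × (Fin Kc → Bool) => u.1 u.2 :=
      measurable_from_prod_countable_left fun w => measurable_pi_apply (X := fun _ => ℝ) w
    exact h1.comp (f := fun q : (Fin k → Clause Kc) × (ℕ → Bool) =>
        (q.1 j, fun l : Fin Kc => q.2 (2 * Nat.pair j l + 1)))
      (((measurable_pi_apply j).comp measurable_fst).prodMk
        (measurable_pi_lambda _ fun l => (measurable_pi_apply _).comp measurable_snd))

theorem measurable_fU (L : ℝ) (σ : Fin N → Bool) :
    Measurable fun t : CavU Kc M × (ℕ → Fin N) => fU L t σ :=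
  Real.measurable_log.comp (measurable_cavU2.comp
    (f := fun t : CavU Kc M × (ℕ → Fin N) => (clU L t.1, fun i => σ (t.2 i)))
    (((measurable_clU L).comp measurable_fst).prodMk (measurable_pi_lambda _ fun i =>
      (measurable_of_countable σ).comp ((measurable_pi_apply i).comp measurable_snd))))

theorem measurable_fV (L : ℝ) (σ : Fin N → Bool) :
    Measurable fun t : PL (Clause Kc) × (ℕ → Fin N) => fV L t σ :=
  Real.measurable_log.comp (measurable_cavV2.comp
    (f := fun t : PL (Clause Kc) × (ℕ → Fin N) => (clV L t.1, fun i => σ (t.2 i)))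
    (((measurable_lmap (measurable_clT L)).comp measurable_fst).prodMk (measurable_pi_lambda _ fun i =>
      (measurable_of_countable σ).comp ((measurable_pi_apply i).comp measurable_snd))))

variable [NeZero N] [NeZero n] (μ : Measure (Clause Kc)) (ν : Measure ℝ) [IsProbabilityMeasure μ]
  [IsProbabilityMeasure ν]

theorem gain_eq_rest {L : ℝ} (hL : 0 ≤ L) (a s : ℝ≥0) (x : ℕ → ℝ) {f : (Fin N → Bool) → ℝ}
    {B : ℝ} (hf : ∀ σ, |f σ| ≤ B) :
    gain μ ν L a s K n x f = ∫ p, ∫ r, (lext L x f (mkEnv (p, r)) - lsum L x (mkEnv (p, r)))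
      ∂rstLaw ν (kindLaw.prod (unif (Fin N))) s K n ∂plaw a (μ.prod (unif (Fin Kc → Fin N))) := by
  have h := mkEnv_mp (K := K) (n := n) μ ν (N := N) a s
  have hi := (integrable_lext μ ν hL a s x hf (K := K) (n := n)).sub
    (integrable_fix (K := K) (n := n) μ ν (N := N) hL a s x).1
  unfold gain
  rw [← h.map_eq, integral_map measurable_mkEnv.aemeasurable (h.map_eq ▸ hi).aestronglyMeasurable,
    integral_prod]
  exact h.integrable_comp_of_integrable hi

/-- The gain of the clauses at new sites, averaged over the new fields. -/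
def gainT (L : ℝ) (a s : ℝ≥0) (K n : ℕ) (x : ℕ → ℝ) (q : PL (TU Kc N M)) : ℝ :=
  ∫ h, gain μ ν L a s K n x (fT L q h) ∂(Measure.pi fun _ : Fin M => ν)

theorem measurable_gainT {L : ℝ} (a s : ℝ≥0) (x : ℕ → ℝ) :
    Measurable (gainT (M := M) (N := N) μ ν L a s K n x) := by
  have h : Measurable fun t : PL (TU Kc N M) × (Fin M → ℝ) => gain μ ν L a s K n x (fT L t.1 t.2) :=
    measurable_gain μ ν (measurable_fT L) L a s x
  exact h.stronglyMeasurable.integral_prod_right'.measurable

theorem abs_gainT_le {L : ℝ} (hL : 0 ≤ L) (a s : ℝ≥0) (x : ℕ → ℝ) (q : PL (TU Kc N M)) :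
    |gainT μ ν L a s K n x q| ≤ bdT L M q.1 :=
  abs_mean_le fun h => abs_gain_le μ ν L a s x (abs_fT hL q h)

theorem abs_gainT_pow {L : ℝ} (hL : 0 ≤ L) (a s : ℝ≥0) (x : ℕ → ℝ) (q : PL (TU Kc N M)) :
    |gainT μ ν L a s K n x q| ≤ (M * (L + Real.log 2) + L) * ((q.1 : ℝ) + 1) ^ 1 := by
  refine (abs_gainT_le μ ν hL a s x q).trans ?_
  have h : 0 ≤ (M : ℝ) * (L + Real.log 2) * q.1 := by
    have := Real.log_nonneg (show (1 : ℝ) ≤ 2 by norm_num)
    positivity
  rw [bdT, pow_one]
  linarith

theorem gainT_app {L : ℝ} (hL : 0 ≤ L) (a s : ℝ≥0) (x : ℕ → ℝ) (p q : PL (TU Kc N M)) :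
    |gainT μ ν L a s K n x (PL.app p q) - gainT μ ν L a s K n x p| ≤ L * q.1 := by
  have hi : ∀ q : PL (TU Kc N M), Integrable (fun h => gain μ ν L a s K n x (fT L q h))
      (Measure.pi fun _ : Fin M => ν) := fun q =>
    (integrable_const (bdT L M q.1)).mono'
      (measurable_gain μ ν (fun σ => (measurable_fT L σ).comp measurable_prodMk_left) L a s x).aestronglyMeasurable
      (ae_of_all _ fun h => abs_gain_le μ ν L a s x (abs_fT hL q h))
  unfold gainT
  rw [← integral_sub (hi _) (hi _)]
  exact abs_mean_le fun h =>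
    gain_sub_le μ ν hL a s x (abs_fT hL _ h) (abs_fT hL p h) (fT_app hL p q h)

theorem gainT_sym (L : ℝ) (a s : ℝ≥0) (x : ℕ → ℝ) :
    PL.Sym (gainT (M := M) (N := N) μ ν L a s K n x) := fun k e v => by
  simp only [gainT, fT_perm]

/-- Old clauses and clauses with one new site: the larger system is the old one plus the gain. -/
theorem pair_eq {L : ℝ} (hL : 0 ≤ L) (a o s : ℝ≥0) (x : ℕ → ℝ) [NeZero M] [NeZero Kc] :
    ∫ p, ∫ q, Fl ν (pertOld N M) s K n L x (PL.app (lmap (oldT M) p) (lmap oneT q))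
        ∂plaw o (oneLaw μ N M) ∂plaw a (μ.prod (unif (Fin Kc → Fin N))) =
      (∫ e, lsum L x e ∂sysLaw μ ν N a s K n) +
        ∫ q, gainT μ ν L a s K n x q ∂plaw o (oneLaw μ N M) := by
  have : IsProbabilityMeasure (unif (Fin N)) := unif_prob
  have : IsProbabilityMeasure (unif (Fin Kc → Fin N)) := unif_prob
  have : IsProbabilityMeasure (unif (Fin M)) := unif_prob
  have : IsProbabilityMeasure (unif (Fin Kc)) := unif_prob
  have : IsProbabilityMeasure (oneLaw μ N M) := by unfold oneLaw; infer_instance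
  have : IsProbabilityMeasure (pertOld N M) := by
    unfold pertOld; exact Measure.isProbabilityMeasure_map measurable_liftP.aemeasurable
  set τp := kindLaw.prod (unif (Fin N)) with hτp
  let D : PL (Term Kc N) → PL (TU Kc N M) × (Fin M → ℝ) → ℝ := fun p t =>
    ∫ r, (lext L x (fT L t.1 t.2) (mkEnv (p, r)) - lsum L x (mkEnv (p, r))) ∂rstLaw ν τp s K n
  have hDm : Measurable fun u : PL (Term Kc N) × (PL (TU Kc N M) × (Fin M → ℝ)) => D u.1 u.2 := by
    have h : Measurable fun w : (PL (Term Kc N) × (PL (TU Kc N M) × (Fin M → ℝ))) × Rst N K n =>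
        lext L x (fT L w.1.2.1 w.1.2.2) (mkEnv (w.1.1, w.2)) - lsum L x (mkEnv (w.1.1, w.2)) :=
      (Measurable.comp
        (g := fun p : ((ℕ → ℝ) × (PL (TU Kc N M) × (Fin M → ℝ))) × Env Kc N K n =>
          lext L p.1.1 (fT L p.1.2.1 p.1.2.2) p.2)
        (f := fun w : (PL (Term Kc N) × (PL (TU Kc N M) × (Fin M → ℝ))) × Rst N K n =>
          ((x, w.1.2), mkEnv (w.1.1, w.2))) (measurable_lext (measurable_fT L) L)
        ((measurable_const.prodMk (measurable_snd.comp measurable_fst)).prodMk
          (measurable_mkEnv.comp ((measurable_fst.comp measurable_fst).prodMk measurable_snd)))).sub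
      (Measurable.comp (g := fun q : PL (Term Kc N) × Rst N K n => lsum L x (mkEnv q))
        (f := fun w : (PL (Term Kc N) × (PL (TU Kc N M) × (Fin M → ℝ))) × Rst N K n => (w.1.1, w.2))
        (measurable_lsum_mk L x) ((measurable_fst.comp measurable_fst).prodMk measurable_snd))
    exact h.stronglyMeasurable.integral_prod_right'.measurable
  have hDb : ∀ p t, |D p t| ≤ bdT L M t.1.1 := fun p t =>
    abs_mean_le fun r => abs_lext_sub (L := L) x (abs_fT hL t.1 t.2) _
  have key : ∀ p q, Fl ν (pertOld N M) s K n L x (PL.app (lmap (oldT M) p) (lmap oneT q)) =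
      Fl ν τp s K n L x p + ∫ h, D p (q, h) ∂(Measure.pi fun _ : Fin M => ν) := by
    intro p q
    have hmp := psiR_mp (K := K) (n := n) (M := M) ν (N := N) s
    have hi0 := integrable_mk (K := K) (n := n) hL ν (pertOld N M) s x
      (PL.app (lmap (oldT M) p) (lmap oneT q))
    have hi1 : Integrable (fun z => lsum L x
        (mkEnv (PL.app (lmap (oldT M) p) (lmap oneT q), psiR M z)))
        ((Measure.pi fun _ : Fin M => ν).prod (rstLaw ν τp s K n)) :=
      hmp.integrable_comp_of_integrable hi0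
    unfold Fl
    rw [← hmp.map_eq, integral_map hmp.measurable.aemeasurable (hmp.map_eq ▸ hi0).aestronglyMeasurable,
      integral_prod _ hi1]
    have hh : ∀ h, ∫ r, lsum L x (mkEnv (PL.app (lmap (oldT M) p) (lmap oneT q), psiR M (h, r)))
        ∂rstLaw ν τp s K n = (∫ r, lsum L x (mkEnv (p, r)) ∂rstLaw ν τp s K n) + D p (q, h) := by
      intro h
      have hle : Integrable (fun r => lext L x (fT L q h) (mkEnv (p, r))) (rstLaw ν τp s K n) := by
        refine ((integrable_mk hL ν τp s x p).norm.add (integrable_const (bdT L M q.1))).mono' ?_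
          (ae_of_all _ fun r => ?_)
        · exact (Measurable.comp (g := fun u : ((ℕ → ℝ) × Unit) × Env Kc N K n =>
              lext L u.1.1 (fT L q h) u.2)
            (f := fun r : Rst N K n => ((x, ()), mkEnv (p, r)))
            (measurable_lext (f := fun (_ : Unit) => fT L q h) (fun _ => measurable_const) L)
            (measurable_const.prodMk (measurable_mkEnv.comp measurable_prodMk_left))).aestronglyMeasurable
        · simp only [Pi.add_apply, Real.norm_eq_abs]
          linarith [abs_sub_abs_le_abs_sub (lext L x (fT L q h) (mkEnv (p, r))) (lsum L x (mkEnv (p, r))),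
            abs_lext_sub (L := L) x (abs_fT hL q h) (mkEnv (p, r))]
      simp only [lsum_full, D]
      rw [integral_sub hle (integrable_mk hL ν τp s x p)]
      ring
    simp only [hh]
    rw [integral_add (integrable_const _), integral_const, probReal_univ, one_smul]
    exact (integrable_const (bdT L M q.1)).mono' (hDm.comp (measurable_const.prodMk
      (measurable_const.prodMk measurable_id))).aestronglyMeasurable (ae_of_all _ fun h => hDb _ _)
  simp only [key]
  set ρ := plaw o (oneLaw μ N M) with hρ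
  set π := Measure.pi fun _ : Fin M => ν with hπ
  have hbi : Integrable (fun q : PL (TU Kc N M) => bdT L M q.1) ρ :=
    (integrable_const _).add ((integrable_len o (oneLaw μ N M)).const_mul L)
  have hDi : Integrable (fun u : PL (Term Kc N) × (PL (TU Kc N M) × (Fin M → ℝ)) => D u.1 u.2)
      ((plaw a (μ.prod (unif (Fin Kc → Fin N)))).prod (ρ.prod π)) :=
    ((hbi.comp_fst π).comp_snd _).mono' hDm.aestronglyMeasurable (ae_of_all _ fun u => hDb _ _)
  obtain ⟨A, hA⟩ := abs_Fl_le (Kc := Kc) (K := K) (n := n) hL ν τp s x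
  have hFi := integrable_plaw (c := a) (τ := μ.prod (unif (Fin Kc → Fin N)))
    (measurable_Fl (Kc := Kc) (K := K) (n := n) ν τp s L x) hA
  have hrow : ∀ p, Integrable (fun t => D p t) (ρ.prod π) := fun p =>
    (hbi.comp_fst π).mono' (hDm.comp measurable_prodMk_left).aestronglyMeasurable
      (ae_of_all _ fun t => hDb _ _)
  have e1 : ∀ p, ∫ q, (Fl ν τp s K n L x p + ∫ h, D p (q, h) ∂π) ∂ρ =
      Fl ν τp s K n L x p + ∫ t, D p t ∂ρ.prod π := fun p => by
    rw [integral_add (integrable_const _) (hrow p).integral_prod_left, integral_const, probReal_univ,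
      one_smul, integral_prod _ (hrow p)]
  simp only [e1]
  rw [integral_add hFi hDi.integral_prod_left, sysLaw_eq_Fl μ ν hL, ← hτp]
  congr 1
  rw [integral_integral_swap (f := fun p t => D p t) hDi]
  have hgi : Integrable (fun t : PL (TU Kc N M) × (Fin M → ℝ) =>
      gain μ ν L a s K n x (fT L t.1 t.2)) (ρ.prod π) :=
    (hbi.comp_fst π).mono' (measurable_gain μ ν (measurable_fT L) L a s x).aestronglyMeasurable
      (ae_of_all _ fun t => abs_gain_le μ ν L a s x (abs_fT hL t.1 t.2))
  calc ∫ t, ∫ p, D p t ∂plaw a (μ.prod (unif (Fin Kc → Fin N))) ∂ρ.prod π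
      = ∫ t, gain μ ν L a s K n x (fT L t.1 t.2) ∂ρ.prod π :=
        integral_congr_ae (ae_of_all _ fun t => (gain_eq_rest μ ν hL a s x (abs_fT hL t.1 t.2)).symm)
    _ = _ := integral_prod _ hgi

/-- The gain at the exact mean number is the first cavity functional. -/
theorem gainT_objF {L : ℝ} (hL : 0 ≤ L) (a s : ℝ≥0) (x : ℕ → ℝ) (lam : ℝ) (m : ℕ) [NeZero Kc] :
    ∫ q, gainT μ ν L a s K n x q
        ∂plaw (((m + 1 : ℕ) : ℝ≥0) * ((Kc : ℝ) * lam).toNNReal) (oneLaw μ N (m + 1)) =
      objF ((uLaw μ ν lam (m + 1)).prod (siteLaw N)) μ ν N a s K n L (fU L) x := by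
  have : IsProbabilityMeasure (unif (Fin N)) := unif_prob
  have : IsProbabilityMeasure (unif (Fin Kc → Fin N)) := unif_prob
  have : IsProbabilityMeasure (unif (Fin Kc)) := unif_prob
  have : IsProbabilityMeasure (siteLaw N) := by unfold siteLaw; infer_instance
  set kl := ((Kc : ℝ) * lam).toNNReal with hkl
  set M := m + 1 with hM
  set π := Measure.pi fun _ : Fin M => ν with hπ
  set pu := Measure.pi fun _ : Fin M => plaw kl (μ.prod (unif (Fin Kc))) with hpu
  rw [oneLaw, plaw_tags m kl ((M : ℝ) * (L + Real.log 2) + L) 1 _ (measurable_gainT μ ν a s x)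
    (gainT_sym μ ν L a s x) (abs_gainT_pow μ ν hL a s x)]
  let Ψ : (Fin M → PL (Clause Kc × Fin Kc)) × (ℕ → Fin N) →
      Fin M → PL ((Clause Kc × Fin Kc) × (Fin Kc → Fin N)) :=
    fun w i => attach (w.1 i, sitesU Kc M w.2 i)
  have hΨ : MeasurePreserving Ψ (pu.prod (siteLaw N))
      (Measure.pi fun _ : Fin M => plaw kl ((μ.prod (unif (Fin Kc))).prod (unif (Fin Kc → Fin N)))) := by
    have h1 := (MeasurePreserving.id pu).prod
      (⟨measurable_sitesU, sitesU_law⟩ : MeasurePreserving (sitesU Kc M) (siteLaw N)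
        (Measure.pi fun _ : Fin M => Measure.infinitePi fun _ : ℕ => unif (Fin Kc → Fin N)))
    have h2 := (measurePreserving_arrowProdEquivProdArrow (PL (Clause Kc × Fin Kc))
      (ℕ → Fin Kc → Fin N) (Fin M) (fun _ => plaw kl (μ.prod (unif (Fin Kc))))
      (fun _ => Measure.infinitePi fun _ : ℕ => unif (Fin Kc → Fin N))).symm
    have h3 := measurePreserving_pi
      (fun _ : Fin M => (plaw kl (μ.prod (unif (Fin Kc)))).prod
        (Measure.infinitePi fun _ : ℕ => unif (Fin Kc → Fin N)))
      (fun _ => plaw kl ((μ.prod (unif (Fin Kc))).prod (unif (Fin Kc → Fin N))))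
      (f := fun _ => attach) fun _ => ⟨measurable_attach, plaw_attach kl _ _⟩
    exact (h3.comp h2).comp h1
  have hmg := (measurable_gainT (N := N) (M := M) (K := K) (n := n) μ ν (L := L) a s x).comp
    (measurable_tags M)
  rw [← hΨ.map_eq, integral_map (f := fun p => gainT μ ν L a s K n x (tags (m + 1) p))
    hΨ.measurable.aemeasurable hmg.aestronglyMeasurable]
  have hbu : Integrable (fun u : CavU Kc M => bdU L u) (pu.prod π) := by
    have hsum : Integrable (fun u : Fin M → PL (Clause Kc × Fin Kc) =>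
        ∑ i, (L + Real.log 2 + L * ((u i).1 : ℝ))) pu :=
      integrable_finsetSum _ fun i _ => (integrable_const _).add
        (((measurePreserving_eval (μ := fun _ : Fin M => plaw kl (μ.prod (unif (Fin Kc)))) i).integrable_comp_of_integrable
          (integrable_len kl (μ.prod (unif (Fin Kc))))).const_mul L)
    exact hsum.comp_fst π
  have hfm : ∀ σ, Measurable fun t : CavU Kc M × (ℕ → Fin N) => fU L t σ := measurable_fU L
  have hi : Integrable (fun t : CavU Kc M × (ℕ → Fin N) => gain μ ν L a s K n x (fU L t))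
      ((pu.prod π).prod (siteLaw N)) :=
    (hbu.comp_fst _).mono' (measurable_gain μ ν hfm L a s x).aestronglyMeasurable
      (ae_of_all _ fun t => abs_gain_le μ ν L a s x fun σ => abs_log_cavU hL t.1 _)
  let σ' : ((Fin M → PL (Clause Kc × Fin Kc)) × (ℕ → Fin N)) × (Fin M → ℝ) →
      CavU Kc M × (ℕ → Fin N) := fun w => ((w.1.1, w.2), w.1.2)
  have hσ : MeasurePreserving σ' ((pu.prod (siteLaw N)).prod π) ((pu.prod π).prod (siteLaw N)) := by
    have h1 := measurePreserving_prodAssoc pu (siteLaw N) π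
    have h2 := (MeasurePreserving.id pu).prod
      (Measure.measurePreserving_swap (μ := siteLaw N) (ν := π))
    have h3 := (measurePreserving_prodAssoc pu π (siteLaw N)).symm
    exact h3.comp (h2.comp h1)
  show ∫ w, gainT μ ν L a s K n x (tags M (Ψ w)) ∂pu.prod (siteLaw N) = _
  rw [show objF ((uLaw μ ν lam M).prod (siteLaw N)) μ ν N a s K n L (fU L) x =
      ∫ t, gain μ ν L a s K n x (fU L t) ∂(pu.prod π).prod (siteLaw N) from rfl,
    ← hσ.map_eq, integral_map hσ.measurable.aemeasurable (hσ.map_eq ▸ hi).aestronglyMeasurable,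
    integral_prod (fun z => gain μ ν L a s K n x (fU L (σ' z))) (hσ.integrable_comp_of_integrable hi)]
  refine integral_congr_ae (ae_of_all _ fun w => integral_congr_ae (ae_of_all _ fun h => ?_))
  show gain μ ν L a s K n x (fT L (tags M (Ψ w)) h) = gain μ ν L a s K n x (fU L ((w.1, h), w.2))
  rw [← fT_tags L (w.1, h) w.2]

/-- The first cavity factor. -/
theorem decU {L : ℝ} (hL : 0 ≤ L) {lam : ℝ} (hlam : 0 < lam) (s' s : ℝ≥0) (x : ℕ → ℝ) (m : ℕ)
    [NeZero Kc] :
    |(∫ e, lsum L x e ∂sysLaw μ ν (N + (m + 1)) (lam * (N + (m + 1 : ℕ))).toNNReal s' K n) -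
        (∫ e, lsum L x e ∂sysLaw μ ν N (cOld lam Kc N (m + 1)).toNNReal s K n) -
        objF ((uLaw μ ν lam (m + 1)).prod (siteLaw N)) μ ν N (cOld lam Kc N (m + 1)).toNNReal s K n L
          (fU L) x| ≤
      2 * L * (lam * (Kc * (m + 1 : ℕ)) ^ 2 / N) +
        (6 * s' * (((m + 1 : ℕ) : ℝ) / (N + (m + 1 : ℕ))) + 3 * |(s' : ℝ) - s|) := by
  set M := m + 1 with hM
  have : NeZero (N + M) := ⟨by omega⟩
  have : IsProbabilityMeasure (unif (Fin N)) := unif_prob
  have : IsProbabilityMeasure (unif (Fin (N + M))) := unif_prob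
  have : IsProbabilityMeasure (unif (Fin Kc → Fin (N + M))) := unif_prob
  have : IsProbabilityMeasure (pertOld N M) := by
    unfold pertOld; exact Measure.isProbabilityMeasure_map measurable_liftP.aemeasurable
  set a := (cOld lam Kc N M).toNNReal with ha
  set o := (cOne lam Kc N M).toNNReal with ho
  set C := (lam * ((N : ℝ) + (M : ℕ))).toNNReal with hC
  rw [sysLaw_eq_Fl (N := N + M) μ ν hL]
  obtain ⟨A, hA⟩ := abs_Fl_le (Kc := Kc) (K := K) (n := n) hL ν (pertOld N M) s x
  obtain ⟨A', hA'⟩ := abs_Fl_le (Kc := Kc) (N := N + M) (K := K) (n := n) hL ν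
    (kindLaw.prod (unif (Fin (N + M)))) s' x
  have hF := measurable_Fl (Kc := Kc) (K := K) (n := n) ν (pertOld N M) s L x
  have hF' := measurable_Fl (Kc := Kc) (N := N + M) (K := K) (n := n) ν
    (kindLaw.prod (unif (Fin (N + M)))) s' L x
  have h0 : |∫ p, Fl ν (kindLaw.prod (unif (Fin (N + M)))) s' K n L x p
        ∂plaw C (μ.prod (unif (Fin Kc → Fin (N + M)))) -
      ∫ p, Fl ν (pertOld N M) s K n L x p ∂plaw C (μ.prod (unif (Fin Kc → Fin (N + M))))| ≤
      6 * s' * ((M : ℝ) / (N + M)) + 3 * |(s' : ℝ) - s| := by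
    rw [← integral_sub (integrable_plaw hF' hA') (integrable_plaw hF hA)]
    exact abs_mean_le fun p => Fl_step hL ν x p s' s
  have h1 := full_split (N := N) (M := M) μ hlam hF (Fl_sym ν (pertOld N M) s L x) hA hL
    fun p q => Fl_app_le hL ν (pertOld N M) s x p q
  have : IsProbabilityMeasure (unif (Fin M)) := unif_prob
  have : IsProbabilityMeasure (unif (Fin Kc → Fin N)) := unif_prob
  have : IsProbabilityMeasure (unif (Fin Kc)) := unif_prob
  have : IsProbabilityMeasure (oneLaw μ N M) := by unfold oneLaw; infer_instance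
  rw [pair_eq μ ν hL a o s x] at h1
  have h2 := plaw_mean_le (τ := oneLaw μ N M) o (((M : ℕ) : ℝ≥0) * ((Kc : ℝ) * lam).toNNReal)
    (measurable_gainT μ ν a s x) (gainT_sym μ ν L a s x) (abs_gainT_pow (K := K) (n := n) μ ν hL a s x)
    (gainT_app (K := K) (n := n) μ ν hL a s x)
  rw [gainT_objF μ ν hL a s x lam m] at h2
  obtain ⟨-, ⟨ho0, hod⟩, -, -⟩ := counts (Kc := Kc) (N := N) (M := M) hlam.le (NeZero.pos Kc)
  have hd : |(o : ℝ) - ((((M : ℕ) : ℝ≥0) * ((Kc : ℝ) * lam).toNNReal : ℝ≥0) : ℝ)| ≤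
      lam * (Kc * M) ^ 2 / N := by
    rw [ho, NNReal.coe_mul, Real.coe_toNNReal _ ho0, Real.coe_toNNReal _ (by positivity),
      NNReal.coe_natCast]
    convert hod using 2
    ring
  have h3 := mul_le_mul_of_nonneg_left hd hL
  rw [abs_le] at h0 h1 h2 ⊢
  constructor <;> linarith [h0.1, h0.2, h1.1, h1.2, h2.1, h2.2]

end Vale.Agent.P168.CavBound
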