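import Vale.Agent.P168.CavBound.Gen

/-!
P168: more clauses with old sites give the second cavity factor.
-/

open MeasureTheory ProbabilityTheory Filter Topology
open scoped NNReal ENNReal

noncomputable section

namespace Vale.Agent.P168.CavBound

open P157.Casc (mlev Node casW casX)

variable {Kc N K n M : ℕ}

/-- The factor of additional clauses. -/
def fq (L : ℝ) (q : PL (Term Kc N)) (σ : Fin N → Bool) : ℝ :=
  ∑ j, cl (-L) L ((q.2 j).1 fun i => σ ((q.2 j).2 i))

theorem measurable_fq (L : ℝ) (σ : Fin N → Bool) : Measurable fun q : PL (Term Kc N) => fq L q σ :=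
  measurable_pl fun k => by
    have ht : Measurable fun t : Term Kc N => cl (-L) L (t.1 fun i => σ (t.2 i)) :=
      measurable_from_prod_countable_left fun s => by
        have hc : Measurable (cl (-L) L) := by unfold cl; fun_prop
        exact hc.comp (measurable_pi_apply (X := fun _ : Fin Kc → Bool => ℝ) fun i => σ (s i))
    show Measurable fun v : Fin k → Term Kc N => ∑ j : Fin k, cl (-L) L ((v j).1 fun i => σ ((v j).2 i))
    exact Finset.measurable_sum Finset.univ
      (f := fun (j : Fin k) (v : Fin k → Term Kc N) => cl (-L) L ((v j).1 fun i => σ ((v j).2 i)))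
      fun j _ => ht.comp (measurable_pi_apply j)

theorem fq_app (L : ℝ) (p q : PL (Term Kc N)) (σ : Fin N → Bool) :
    fq L (PL.app p q) σ = fq L p σ + fq L q σ :=
  sum_app (fun _ (t : Term Kc N) => cl (-L) L (t.1 fun i => σ (t.2 i))) p q

theorem fq_perm (L : ℝ) {k : ℕ} (e : Equiv.Perm (Fin k)) (v : Fin k → Term Kc N) :
    fq L (⟨k, v ∘ e⟩ : PL (Term Kc N)) = fq L ⟨k, v⟩ :=
  funext fun σ => Equiv.sum_comp e fun j => cl (-L) L ((v j).1 fun i => σ ((v j).2 i))

variable [NeZero N] [NeZero n] (μ : Measure (Clause Kc)) (ν : Measure ℝ) [IsProbabilityMeasure μ]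
  [IsProbabilityMeasure ν]

/-- The gain of a list of additional clauses. -/
def gain (L : ℝ) (a s : ℝ≥0) (K n : ℕ) (x : ℕ → ℝ) (f : (Fin N → Bool) → ℝ) : ℝ :=
  ∫ e, (lext L x f e - lsum L x e) ∂sysLaw μ ν N a s K n

theorem integrable_lext {L : ℝ} (hL : 0 ≤ L) (a s : ℝ≥0) (x : ℕ → ℝ) {f : (Fin N → Bool) → ℝ}
    {B : ℝ} (h : ∀ σ, |f σ| ≤ B) :
    Integrable (fun e => lext L x f e) (sysLaw μ ν N a s K n) := by
  have hi := (integrable_fix (K := K) (n := n) μ ν (N := N) hL a s x).1
  refine (hi.norm.add (integrable_const B)).mono' ?_ (ae_of_all _ fun e => ?_)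
  · exact (Measurable.comp
      (g := fun p : ((ℕ → ℝ) × Unit) × Env Kc N K n => lext L p.1.1 f p.2)
      (f := fun e : Env Kc N K n => ((x, ()), e))
      (measurable_lext (f := fun (_ : Unit) => f) (fun _ => measurable_const) L)
      (measurable_const.prodMk measurable_id)).aestronglyMeasurable
  · simp only [Pi.add_apply, Real.norm_eq_abs]
    linarith [abs_sub_abs_le_abs_sub (lext L x f e) (lsum L x e), abs_lext_sub (L := L) x h e]

theorem abs_gain_le (L : ℝ) (a s : ℝ≥0) (x : ℕ → ℝ) {f : (Fin N → Bool) → ℝ}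
    {B : ℝ} (h : ∀ σ, |f σ| ≤ B) : |gain μ ν L a s K n x f| ≤ B :=
  abs_mean_le fun e => abs_lext_sub x h e

theorem gain_sub_le {L : ℝ} (hL : 0 ≤ L) (a s : ℝ≥0) (x : ℕ → ℝ) {f g : (Fin N → Bool) → ℝ}
    {B B' D : ℝ} (hf : ∀ σ, |f σ| ≤ B) (hg : ∀ σ, |g σ| ≤ B') (h : ∀ σ, |f σ - g σ| ≤ D) :
    |gain μ ν L a s K n x f - gain μ ν L a s K n x g| ≤ D := by
  have hi := (integrable_fix (K := K) (n := n) μ ν (N := N) hL a s x).1
  unfold gain
  have i1 : Integrable (fun e => lext L x f e - lsum L x e) (sysLaw μ ν N a s K n) :=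
    (integrable_lext μ ν hL a s x hf).sub hi
  have i2 : Integrable (fun e => lext L x g e - lsum L x e) (sysLaw μ ν N a s K n) :=
    (integrable_lext μ ν hL a s x hg).sub hi
  rw [← integral_sub i1 i2]
  refine abs_mean_le fun e => ?_
  rw [sub_sub_sub_cancel_right]
  exact lext_sub_le x h e

theorem measurable_gain {A : Type*} [MeasurableSpace A] {f : A → (Fin N → Bool) → ℝ}
    (hf : ∀ σ, Measurable fun t => f t σ) (L : ℝ) (a s : ℝ≥0) (x : ℕ → ℝ) :
    Measurable fun t => gain μ ν L a s K n x (f t) := by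
  have h : Measurable fun p : A × Env Kc N K n => lext L x (f p.1) p.2 - lsum L x p.2 :=
    (Measurable.comp (g := fun p : ((ℕ → ℝ) × A) × Env Kc N K n => lext L p.1.1 (f p.1.2) p.2)
      (f := fun p : A × Env Kc N K n => ((x, p.1), p.2)) (measurable_lext hf L)
      ((measurable_const.prodMk measurable_fst).prodMk measurable_snd)).sub
    (Measurable.comp (g := fun p : (ℕ → ℝ) × Env Kc N K n => lsum L p.1 p.2)
      (f := fun p : A × Env Kc N K n => (x, p.2)) (measurable_lsum L)
      (measurable_const.prodMk measurable_snd))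
  exact h.stronglyMeasurable.integral_prod_right'.measurable

theorem gain_eq {L : ℝ} (hL : 0 ≤ L) (a s : ℝ≥0) (x : ℕ → ℝ) (q : PL (Term Kc N)) :
    gain μ ν L a s K n x (fq L q) =
      ∫ p, (Fl ν (kindLaw.prod (unif (Fin N))) s K n L x (PL.app p q) -
        Fl ν (kindLaw.prod (unif (Fin N))) s K n L x p) ∂plaw a (μ.prod (unif (Fin Kc → Fin N))) := by
  have h := mkEnv_mp (K := K) (n := n) μ ν (N := N) a s
  have hi := (integrable_lext μ ν hL a s x (abs_sum_cl hL q) (K := K) (n := n)).sub
    (integrable_fix (K := K) (n := n) μ ν (N := N) hL a s x).1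
  unfold gain
  rw [← h.map_eq, integral_map measurable_mkEnv.aemeasurable (h.map_eq ▸ hi).aestronglyMeasurable,
    integral_prod]
  · refine integral_congr_ae (ae_of_all _ fun p => ?_)
    unfold Fl
    dsimp only
    rw [← integral_sub (integrable_mk hL ν _ s x _) (integrable_mk hL ν _ s x _)]
    simp only [lsum_app]
    rfl
  · exact h.integrable_comp_of_integrable hi

/-- More clauses among old sites: the second cavity factor. -/
theorem decV {L : ℝ} (hL : 0 ≤ L) (a d s : ℝ≥0) (lam : ℝ) (x : ℕ → ℝ) :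
    |(∫ e, lsum L x e ∂sysLaw μ ν N (a + d) s K n) - (∫ e, lsum L x e ∂sysLaw μ ν N a s K n) -
        objF ((vLaw μ lam M).prod (siteLaw N)) μ ν N a s K n L (fV L) x| ≤
      L * |(d : ℝ) - (((M : ℝ) * (((Kc : ℝ) - 1) * lam)).toNNReal : ℝ)| := by
  set τ := μ.prod (unif (Fin Kc → Fin N)) with hτ
  set τp := kindLaw.prod (unif (Fin N)) with hτp
  obtain ⟨A, hA⟩ := abs_Fl_le (Kc := Kc) (K := K) (n := n) hL ν τp s x
  have hF := measurable_Fl (Kc := Kc) (K := K) (n := n) ν τp s L x
  have hFs := Fl_sym (Kc := Kc) (K := K) (n := n) ν τp s L x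
  have hG : Measurable fun q : PL (Term Kc N) => gain μ ν L a s K n x (fq L q) :=
    measurable_gain μ ν (measurable_fq L) L a s x
  have hGb : ∀ q : PL (Term Kc N), |gain μ ν L a s K n x (fq L q)| ≤ L * ((q.1 : ℝ) + 1) ^ 1 :=
    fun q => (abs_gain_le μ ν L a s x (abs_sum_cl hL q)).trans (by rw [pow_one]; nlinarith)
  have h1 : (∫ e, lsum L x e ∂sysLaw μ ν N (a + d) s K n) - (∫ e, lsum L x e ∂sysLaw μ ν N a s K n) =
      ∫ q, gain μ ν L a s K n x (fq L q) ∂plaw d τ := by
    rw [sysLaw_eq_Fl μ ν hL, sysLaw_eq_Fl μ ν hL, ← hτ, ← hτp, plaw_add (A := A) (n := 1) a d hF hFs hA]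
    have hm : Measurable fun u : PL (Term Kc N) × PL (Term Kc N) =>
        Fl ν τp s K n L x (PL.app u.1 u.2) - Fl ν τp s K n L x u.1 :=
      (hF.comp measurable_app).sub (hF.comp measurable_fst)
    have hi : Integrable (fun u : PL (Term Kc N) × PL (Term Kc N) =>
        Fl ν τp s K n L x (PL.app u.1 u.2) - Fl ν τp s K n L x u.1) ((plaw a τ).prod (plaw d τ)) :=
      (((integrable_len d τ).const_mul L).comp_snd _).mono' hm.aestronglyMeasurable
        (ae_of_all _ fun u => Fl_app_le hL ν τp s x u.1 u.2)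
    have hiF := integrable_plaw (c := a) (τ := τ) hF hA
    have hi2 : Integrable (fun u : PL (Term Kc N) × PL (Term Kc N) =>
        Fl ν τp s K n L x (PL.app u.1 u.2)) ((plaw a τ).prod (plaw d τ)) := by
      refine (hi.add (hiF.comp_fst _)).congr (ae_of_all _ fun u => ?_)
      simp
    calc (∫ p, ∫ q, Fl ν τp s K n L x (PL.app p q) ∂plaw d τ ∂plaw a τ) -
          ∫ p, Fl ν τp s K n L x p ∂plaw a τ
        = ∫ u, (Fl ν τp s K n L x (PL.app u.1 u.2) - Fl ν τp s K n L x u.1)
            ∂(plaw a τ).prod (plaw d τ) := by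
          rw [integral_sub hi2 (hiF.comp_fst _), integral_prod _ hi2, integral_fun_fst]
          simp
      _ = _ := by
          rw [integral_prod_symm _ hi]
          exact integral_congr_ae (ae_of_all _ fun q => (gain_eq μ ν hL a s x q).symm)
  have h2 := plaw_mean_le (τ := τ) (A := L) (n := 1) d ((M : ℝ) * (((Kc : ℝ) - 1) * lam)).toNNReal
    hG (fun k e v => by simp only [fq_perm]) hGb (C := L) fun p q =>
      gain_sub_le μ ν hL a s x (abs_sum_cl hL _) (abs_sum_cl hL p) fun σ => by
        show |fq L (PL.app p q) σ - fq L p σ| ≤ _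
        rw [fq_app, add_sub_cancel_left]
        exact abs_sum_cl hL q σ
  have : IsProbabilityMeasure (unif (Fin N)) := unif_prob
  have : IsProbabilityMeasure (siteLaw N) := by unfold siteLaw; infer_instance
  have : IsProbabilityMeasure (vLaw μ lam M) := by unfold vLaw; infer_instance
  have h3 : ∫ q, gain μ ν L a s K n x (fq L q) ∂plaw ((M : ℝ) * (((Kc : ℝ) - 1) * lam)).toNNReal τ =
      objF ((vLaw μ lam M).prod (siteLaw N)) μ ν N a s K n L (fV L) x := by
    rw [hτ, ← plaw_attach, integral_map measurable_attach.aemeasurable hG.aestronglyMeasurable,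
      ← sitesV_law]
    have e := Measure.map_prod_map (vLaw μ lam M) (siteLaw N) (f := id) (g := sitesV Kc)
      measurable_id measurable_sitesV
    rw [Measure.map_id] at e
    rw [show plaw ((M : ℝ) * (((Kc : ℝ) - 1) * lam)).toNNReal μ = vLaw μ lam M from rfl, e,
      integral_map (f := fun u : PL (Clause Kc) × (ℕ → Fin Kc → Fin N) =>
        gain μ ν L a s K n x (fq L (attach u))) (measurable_id.prodMap measurable_sitesV).aemeasurable
        (Measurable.comp (g := fun q : PL (Term Kc N) => gain μ ν L a s K n x (fq L q)) hG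
          measurable_attach).aestronglyMeasurable]
    refine integral_congr_ae (ae_of_all _ fun t => ?_)
    show gain μ ν L a s K n x (fq L (attach (t.1, sitesV Kc t.2))) = gain μ ν L a s K n x (fV L t)
    congr 1
    funext σ
    rw [fV, cavV, ← Real.exp_sum, Real.log_exp]
    rfl
  rw [h1, ← h3]
  exact h2

end Vale.Agent.P168.CavBound
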