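import Vale.Agent.P168.CavBound.Split
import Vale.Agent.P168.Conc.Sys

/-!
P168: the free energy of the perturbed system with an additional factor of the configuration, and
the additional factors of the cavity.
-/

open MeasureTheory ProbabilityTheory Filter Topology
open scoped NNReal ENNReal

noncomputable section

namespace Vale.Agent.P168.CavBound

open P157.Casc (mlev wgt Node Leaf casW casX)

variable {Kc N K n M : ℕ}

/-- Sums with weights whose energies differ by at most `D` have logarithms within `D`. -/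
theorem log_sum_shift {T : Type*} [Fintype T] [Nonempty T] {w f g : T → ℝ} (hw : ∀ t, 0 < w t)
    {D : ℝ} (h : ∀ t, |f t - g t| ≤ D) :
    |Real.log (∑ t, w t * Real.exp (f t)) - Real.log (∑ t, w t * Real.exp (g t))| ≤ D := by
  have hpos : ∀ g : T → ℝ, 0 < ∑ t, w t * Real.exp (g t) := fun g =>
    Finset.sum_pos (fun t _ => mul_pos (hw t) (Real.exp_pos _)) Finset.univ_nonempty
  have key : ∀ f g : T → ℝ, (∀ t, f t ≤ g t + D) →
      Real.log (∑ t, w t * Real.exp (f t)) ≤ Real.log (∑ t, w t * Real.exp (g t)) + D := by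
    intro f g h
    rw [← Real.log_exp D, ← Real.log_mul (hpos g).ne' (Real.exp_pos _).ne', Finset.sum_mul]
    refine Real.log_le_log (hpos f) (Finset.sum_le_sum fun t _ => ?_)
    rw [mul_assoc, ← Real.exp_add]
    exact mul_le_mul_of_nonneg_left (Real.exp_le_exp.2 (h t)) (hw t).le
  have h1 := key f g fun t => by linarith [(abs_le.1 (h t)).2]
  have h2 := key g f fun t => by linarith [(abs_le.1 (h t)).1]
  exact abs_le.2 ⟨by linarith, by linarith⟩

/-- The logarithm of the weight of all leaves. -/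
def wlog (W : Node K n → ℝ) : ℝ := Real.log (∑ α : Leaf K n, wgt (mlev K) (posW W) α)

theorem measurable_wlog : Measurable (wlog (K := K) (n := n)) :=
  Real.measurable_log.comp (Finset.measurable_sum Finset.univ
    (f := fun (α : Leaf K n) (W : Node K n → ℝ) => wgt (mlev K) (posW W) α) fun α _ =>
      (P157.Casc.measurable_wgt_leaf (mlev K) α).comp measurable_posW)

theorem abs_lsum_wlog [NeZero n] {L : ℝ} (hL : 0 ≤ L) (x : ℕ → ℝ) (q : Env Kc N K n) :
    |lsum L x q - wlog q.2.1| ≤ env L q.1 := by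
  have h := log_sum_shift (w := fun α : Leaf K n => wgt (mlev K) (posW q.2.1) α)
    (f := fun α => Real.log (Y0 (clX x) (clZ L q.1) (P157.Casc.path q.2.2 α))) (g := fun _ => 0)
    (fun α => P157.Casc.wgt_pos _ (posW_pos _) _) (D := env L q.1) fun α => by
      simpa using abs_log_Y0_le hL x q.1 (P157.Casc.path q.2.2 α)
  simp only [Real.exp_log (Y0_pos _ _ _), Real.exp_zero, mul_one] at h
  rwa [lsum_eq, P157.Casc.logS]

theorem integrable_wlog [NeZero n] : Integrable (wlog (K := K) (n := n)) (casW (mlev K) n) := by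
  have h1 : Integrable (fun q : Env 1 1 K n => lsum 0 (fun _ => 0) q)
      (sysLaw (Measure.dirac fun _ => 0) (Measure.dirac 0) 1 0 0 K n) :=
    (integrable_fix _ _ le_rfl 0 0 _).1
  have h2 : Integrable (fun q : Env 1 1 K n => env 0 q.1)
      (sysLaw (Measure.dirac fun _ => 0) (Measure.dirac 0) 1 0 0 K n) :=
    (integrable_env _ _ 0 0).comp_fst _
  have h3 : Integrable (fun q : Env 1 1 K n => wlog q.2.1)
      (sysLaw (Measure.dirac fun _ => 0) (Measure.dirac 0) 1 0 0 K n) := by
    refine (h1.norm.add h2).mono' (measurable_wlog.comp (measurable_fst.comp measurable_snd)).aestronglyMeasurable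
      (ae_of_all _ fun q => ?_)
    have := abs_lsum_wlog le_rfl (fun _ => 0) q
    simp only [Pi.add_apply, Real.norm_eq_abs]
    linarith [abs_sub_abs_le_abs_sub (wlog q.2.1) (lsum 0 (fun _ => 0) q),
      abs_sub_comm (wlog q.2.1) (lsum 0 (fun _ => 0) q)]
  exact (((measurePreserving_fst (μ := casW (mlev K) n) (ν := casX K n labLaw)).comp
    (measurePreserving_snd (μ := rootLaw (Kc := 1) (Measure.dirac fun _ => 0) (Measure.dirac 0) 1 0 0))
    ).integrable_comp measurable_wlog.aestronglyMeasurable).1 h3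

/-- The logarithm of the total weight with an additional factor `exp f` of the configuration. -/
def lext (L : ℝ) (x : ℕ → ℝ) (f : (Fin N → Bool) → ℝ) (q : Env Kc N K n) : ℝ :=
  Real.log (∑ st, sW L x q st * Real.exp (f st.2))

theorem lext_zero (L : ℝ) (x : ℕ → ℝ) (q : Env Kc N K n) : lext L x (fun _ => 0) q = lsum L x q := by
  simp [lext, lsum]

theorem lext_sub_le [NeZero n] {L : ℝ} (x : ℕ → ℝ) {f g : (Fin N → Bool) → ℝ} {D : ℝ}
    (h : ∀ σ, |f σ - g σ| ≤ D) (q : Env Kc N K n) : |lext L x f q - lext L x g q| ≤ D :=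
  log_sum_shift (sW_pos L x q) fun st => h st.2

theorem abs_lext_sub [NeZero n] {L : ℝ} (x : ℕ → ℝ) {f : (Fin N → Bool) → ℝ} {D : ℝ}
    (h : ∀ σ, |f σ| ≤ D) (q : Env Kc N K n) : |lext L x f q - lsum L x q| ≤ D := by
  rw [← lext_zero]
  exact lext_sub_le x (fun σ => by simpa using h σ) q

theorem measurable_lext {A : Type*} [MeasurableSpace A] {f : A → (Fin N → Bool) → ℝ}
    (hf : ∀ σ, Measurable fun a => f a σ) (L : ℝ) :
    Measurable fun p : ((ℕ → ℝ) × A) × Env Kc N K n => lext L p.1.1 (f p.1.2) p.2 :=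
  Real.measurable_log.comp (Finset.measurable_sum Finset.univ
    (f := fun (st : St N K n) (p : ((ℕ → ℝ) × A) × Env Kc N K n) =>
      sW L p.1.1 p.2 st * Real.exp (f p.1.2 st.2)) fun st _ =>
    (Measurable.comp (g := fun p : (ℕ → ℝ) × Env Kc N K n => sW L p.1 p.2 st)
      (f := fun p : ((ℕ → ℝ) × A) × Env Kc N K n => (p.1.1, p.2)) (measurable_sW L st)
      ((measurable_fst.comp measurable_fst).prodMk measurable_snd)).mul
      (Real.measurable_exp.comp ((hf st.2).comp (measurable_snd.comp measurable_fst))))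

/-- The change of the free energy by a random additional factor. -/
def objF {A : Type*} [MeasurableSpace A] (ρ : Measure A) (μ : Measure (Clause Kc)) (ν : Measure ℝ)
    (N : ℕ) (c s : ℝ≥0) (K n : ℕ) (L : ℝ) (f : A → (Fin N → Bool) → ℝ) (x : ℕ → ℝ) : ℝ :=
  ∫ a, ∫ q, (lext L x (f a) q - lsum L x q) ∂sysLaw μ ν N c s K n ∂ρ

theorem measurable_objF {A : Type*} [MeasurableSpace A] {ρ : Measure A} [SFinite ρ]
    (μ : Measure (Clause Kc)) (ν : Measure ℝ) [IsProbabilityMeasure μ] [IsProbabilityMeasure ν]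
    [NeZero N] (c s : ℝ≥0) (L : ℝ) {f : A → (Fin N → Bool) → ℝ}
    (hf : ∀ σ, Measurable fun a => f a σ) :
    Measurable (objF ρ μ ν N c s K n L f) := by
  have hm : Measurable fun p : ((ℕ → ℝ) × A) × Env Kc N K n =>
      lext L p.1.1 (f p.1.2) p.2 - lsum L p.1.1 p.2 :=
    (measurable_lext hf L).sub (Measurable.comp (g := fun p : (ℕ → ℝ) × Env Kc N K n => lsum L p.1 p.2)
      (f := fun p : ((ℕ → ℝ) × A) × Env Kc N K n => (p.1.1, p.2)) (measurable_lsum L)
      ((measurable_fst.comp measurable_fst).prodMk measurable_snd))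
  exact hm.stronglyMeasurable.integral_prod_right'.integral_prod_right'.measurable

theorem abs_objF_le {A : Type*} [MeasurableSpace A] {ρ : Measure A}
    (μ : Measure (Clause Kc)) (ν : Measure ℝ) [IsProbabilityMeasure μ] [IsProbabilityMeasure ν]
    [NeZero N] [NeZero n] (c s : ℝ≥0) (L : ℝ) {f : A → (Fin N → Bool) → ℝ} {B : A → ℝ}
    (hB : Integrable B ρ) (h : ∀ a σ, |f a σ| ≤ B a) (x : ℕ → ℝ) :
    |objF ρ μ ν N c s K n L f x| ≤ ∫ a, B a ∂ρ :=
  abs_integral_le_integral_abs.trans (integral_mono_of_nonneg (ae_of_all _ fun _ => abs_nonneg _) hB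
    (ae_of_all _ fun a => abs_mean_le fun q => abs_lext_sub x (h a) q))

/-- Truncated clause. -/
def clT (L : ℝ) (θ : Clause Kc) : Clause Kc := fun σ => cl (-L) L (θ σ)

theorem measurable_clT (L : ℝ) : Measurable (clT (Kc := Kc) L) :=
  measurable_pi_lambda _ fun σ => by
    have hc : Measurable (cl (-L) L) := by unfold cl; fun_prop
    exact hc.comp (measurable_pi_apply σ)

/-- The truncated data of the first cavity factor. -/
def clU (L : ℝ) (u : CavU Kc M) : CavU Kc M :=
  (fun s => lmap (fun e : Clause Kc × Fin Kc => (clT L e.1, e.2)) (u.1 s), fun s => cl (-L) L (u.2 s))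

/-- The truncated data of the second cavity factor. -/
def clV (L : ℝ) (v : PL (Clause Kc)) : PL (Clause Kc) := lmap (clT L) v

/-- The bound of the first factor. -/
def bdU (L : ℝ) (u : CavU Kc M) : ℝ := ∑ s, (L + Real.log 2 + L * (u.1 s).1)

theorem sum_exp_bound {L : ℝ} {k : ℕ} {h : ℝ} (hh : |h| ≤ L) {g : Bool → Fin k → ℝ}
    (hg : ∀ e j, |g e j| ≤ L) :
    |Real.log (∑ e : Bool, Real.exp (h * sgn e) * ∏ j, Real.exp (g e j))| ≤
      L + Real.log 2 + L * k := by
  simp only [← Real.exp_sum, ← Real.exp_add]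
  refine (abs_log_sum_exp_le fun e => (abs_add_le _ _).trans (add_le_add
    (show |h * sgn e| ≤ L by cases e <;> simpa [sgn] using hh)
    ((Finset.abs_sum_le_sum_abs _ _).trans ((Finset.sum_le_sum fun j _ => hg e j).trans_eq
      (show ∑ _j : Fin k, L = L * k by simp [mul_comm]))))).trans_eq ?_
  simp
  ring

theorem abs_log_cavU {L : ℝ} (hL : 0 ≤ L) (u : CavU Kc M) (τ : ℕ → Bool) :
    |Real.log (cavU (clU L u) τ)| ≤ bdU L u := by
  rw [cavU, Real.log_prod]
  · refine (Finset.abs_sum_le_sum_abs _ _).trans (Finset.sum_le_sum fun s _ => ?_)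
    exact sum_exp_bound (k := (u.1 s).1) (abs_cl hL _) fun e j => abs_cl hL _
  · exact fun s _ => (Finset.sum_pos (fun e _ => mul_pos (Real.exp_pos _)
      (Finset.prod_pos fun j _ => Real.exp_pos _)) Finset.univ_nonempty).ne'

theorem cavU_pos (u : CavU Kc M) (τ : ℕ → Bool) : 0 < cavU u τ :=
  Finset.prod_pos fun s _ => Finset.sum_pos (fun e _ => mul_pos (Real.exp_pos _)
    (Finset.prod_pos fun j _ => Real.exp_pos _)) Finset.univ_nonempty

theorem cavV_pos (v : PL (Clause Kc)) (τ : ℕ → Bool) : 0 < cavV v τ :=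
  Finset.prod_pos fun j _ => Real.exp_pos _

theorem abs_log_cavV {L : ℝ} (hL : 0 ≤ L) (v : PL (Clause Kc)) (τ : ℕ → Bool) :
    |Real.log (cavV (clV L v) τ)| ≤ L * v.1 := by
  rw [cavV, ← Real.exp_sum, Real.log_exp]
  exact (Finset.abs_sum_le_sum_abs _ _).trans ((Finset.sum_le_sum fun j _ => abs_cl hL _).trans_eq
    (show ∑ _j : Fin v.1, L = L * v.1 by simp [mul_comm]))

theorem measurable_cavU (τ : ℕ → Bool) : Measurable fun u : CavU Kc M => cavU u τ := by
  refine Finset.measurable_prod _ fun s _ => Finset.measurable_sum Finset.univ fun e _ => ?_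
  refine (Real.measurable_exp.comp (((measurable_pi_apply s).comp measurable_snd).mul_const _)).mul ?_
  refine (measurable_pl (f := fun p : PL (Clause Kc × Fin Kc) => ∏ j : Fin p.1,
    Real.exp ((p.2 j).1 fun q => if q = (p.2 j).2 then e else τ (2 * Nat.pair s (Nat.pair j q))))
    fun k => ?_).comp ((measurable_pi_apply s).comp measurable_fst)
  show Measurable fun v : Fin k → Clause Kc × Fin Kc => ∏ j : Fin k,
    Real.exp ((v j).1 fun q => if q = (v j).2 then e else τ (2 * Nat.pair s (Nat.pair j q)))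
  refine Finset.measurable_prod Finset.univ
    (f := fun (j : Fin k) (v : Fin k → Clause Kc × Fin Kc) =>
      Real.exp ((v j).1 fun q => if q = (v j).2 then e else τ (2 * Nat.pair s (Nat.pair j q))))
    fun j _ => Real.measurable_exp.comp ?_
  exact (measurable_from_prod_countable_left (f := fun t : Clause Kc × Fin Kc =>
    t.1 fun q => if q = t.2 then e else τ (2 * Nat.pair s (Nat.pair j q)))
    fun pos => measurable_pi_apply (X := fun _ : Fin Kc → Bool => ℝ)
      (fun q : Fin Kc => if q = pos then e else τ (2 * Nat.pair s (Nat.pair j q)))).comp (measurable_pi_apply j)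

theorem measurable_cavV (τ : ℕ → Bool) : Measurable fun v : PL (Clause Kc) => cavV v τ :=
  measurable_pl fun k => by
    show Measurable fun v : Fin k → Clause Kc => ∏ j : Fin k,
      Real.exp ((v j) fun p => τ (2 * Nat.pair j p + 1))
    exact Finset.measurable_prod Finset.univ
      (f := fun (j : Fin k) (v : Fin k → Clause Kc) =>
        Real.exp ((v j) fun p => τ (2 * Nat.pair j p + 1))) fun j _ =>
      Real.measurable_exp.comp ((measurable_pi_apply _).comp (measurable_pi_apply j))

theorem measurable_clU (L : ℝ) : Measurable (clU (Kc := Kc) (M := M) L) := by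
  have hc : Measurable (cl (-L) L) := by unfold cl; fun_prop
  exact (measurable_pi_lambda _ fun s => (measurable_lmap
    (((measurable_clT L).comp measurable_fst).prodMk measurable_snd)).comp
      ((measurable_pi_apply s).comp measurable_fst)).prodMk
    (measurable_pi_lambda _ fun s => hc.comp ((measurable_pi_apply s).comp measurable_snd))

/-- The law of the data of the first factor. -/
def uLaw (μ : Measure (Clause Kc)) (ν : Measure ℝ) (lam : ℝ) (M : ℕ) : Measure (CavU Kc M) :=
  (Measure.pi fun _ => plaw ((Kc : ℝ) * lam).toNNReal (μ.prod (unif (Fin Kc)))).prod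
    (Measure.pi fun _ => ν)

/-- The law of the data of the second factor. -/
def vLaw (μ : Measure (Clause Kc)) (lam : ℝ) (M : ℕ) : Measure (PL (Clause Kc)) :=
  plaw ((M : ℝ) * (((Kc : ℝ) - 1) * lam)).toNNReal μ

/-- The first factor on configurations of `N` sites. -/
def fU (L : ℝ) {N : ℕ} (a : CavU Kc M × (ℕ → Fin N)) (σ : Fin N → Bool) : ℝ :=
  Real.log (cavU (clU L a.1) fun i => σ (a.2 i))

/-- The second factor on configurations of `N` sites. -/
def fV (L : ℝ) {N : ℕ} (a : PL (Clause Kc) × (ℕ → Fin N)) (σ : Fin N → Bool) : ℝ :=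
  Real.log (cavV (clV L a.1) fun i => σ (a.2 i))

end Vale.Agent.P168.CavBound
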