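import Vale.Agent.P168.CavBound.Ext

/-!
P168: the free energy as a symmetric function of the list of clauses and of the list of perturbing
clauses.
-/

open MeasureTheory ProbabilityTheory Filter Topology
open scoped NNReal ENNReal

noncomputable section

namespace Vale.Agent.P168.CavBound

open P157.Casc (mlev wgt Node Leaf casW casX path)

variable {Kc N K n : ℕ}

/-- Fields, perturbing clauses, weights and labels. -/
abbrev Rst (N K n : ℕ) : Type :=
  ((Fin N → ℝ) × Pert N) × ((Node K n → ℝ) × (Node K n → Lab))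

/-- The law of fields, perturbing clauses of site law `τp`, weights and labels. -/
def rstLaw (ν : Measure ℝ) (τp : Measure (ℕ × Fin N)) (s : ℝ≥0) (K n : ℕ) : Measure (Rst N K n) :=
  ((Measure.pi fun _ => ν).prod (plaw s τp)).prod ((casW (mlev K) n).prod (casX K n labLaw))

/-- The environment of a list of clauses. -/
def mkEnv (q : PL (Term Kc N) × Rst N K n) : Env Kc N K n := (((q.1, q.2.1.1), q.2.1.2), q.2.2)

theorem measurable_mkEnv : Measurable (mkEnv (Kc := Kc) (N := N) (K := K) (n := n)) :=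
  ((measurable_fst.prodMk (measurable_fst.comp (measurable_fst.comp measurable_snd))).prodMk
    (measurable_snd.comp (measurable_fst.comp measurable_snd))).prodMk
    (measurable_snd.comp measurable_snd)

instance rstLaw_prob (ν : Measure ℝ) [IsProbabilityMeasure ν] (τp : Measure (ℕ × Fin N))
    [IsProbabilityMeasure τp] (s : ℝ≥0) : IsProbabilityMeasure (rstLaw ν τp s K n) := by
  unfold rstLaw; infer_instance

theorem mkEnv_mp (μ : Measure (Clause Kc)) (ν : Measure ℝ) [IsProbabilityMeasure μ]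
    [IsProbabilityMeasure ν] [NeZero N] (c s : ℝ≥0) :
    MeasurePreserving (mkEnv (Kc := Kc) (K := K) (n := n))
      ((plaw c (μ.prod (unif (Fin Kc → Fin N)))).prod
        (rstLaw ν (kindLaw.prod (unif (Fin N))) s K n)) (sysLaw μ ν N c s K n) := by
  unfold rstLaw sysLaw rootLaw
  have h1 := (measurePreserving_prodAssoc (plaw c (μ.prod (unif (Fin Kc → Fin N))))
    ((Measure.pi fun _ : Fin N => ν).prod (plaw s (kindLaw.prod (unif (Fin N)))))
    ((casW (mlev K) n).prod (casX K n labLaw))).symm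
  have h2 := ((measurePreserving_prodAssoc (plaw c (μ.prod (unif (Fin Kc → Fin N))))
    (Measure.pi fun _ : Fin N => ν) (plaw s (kindLaw.prod (unif (Fin N))))).symm).prod
    (MeasurePreserving.id ((casW (mlev K) n).prod (casX K n labLaw)))
  exact h2.comp h1

theorem abs_lsum_env [NeZero n] {L : ℝ} (hL : 0 ≤ L) (x : ℕ → ℝ) (q : Env Kc N K n) :
    |lsum L x q| ≤ |wlog q.2.1| + env L q.1 := by
  linarith [abs_sub_abs_le_abs_sub (lsum L x q) (wlog q.2.1), abs_lsum_wlog hL x q]

/-- The free energy as a function of the clauses. -/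
def Fl (ν : Measure ℝ) (τp : Measure (ℕ × Fin N)) (s : ℝ≥0) (K n : ℕ) (L : ℝ) (x : ℕ → ℝ)
    (p : PL (Term Kc N)) : ℝ :=
  ∫ r, lsum L x (mkEnv (p, r)) ∂rstLaw ν τp s K n

theorem measurable_lsum_mk (L : ℝ) (x : ℕ → ℝ) :
    Measurable fun q : PL (Term Kc N) × Rst N K n => lsum L x (mkEnv q) :=
  Measurable.comp (g := fun p : (ℕ → ℝ) × Env Kc N K n => lsum L p.1 p.2)
    (f := fun q : PL (Term Kc N) × Rst N K n => (x, mkEnv q)) (measurable_lsum L)
    (measurable_const.prodMk measurable_mkEnv)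

theorem measurable_Fl (ν : Measure ℝ) [IsProbabilityMeasure ν] (τp : Measure (ℕ × Fin N))
    [IsProbabilityMeasure τp] (s : ℝ≥0) (L : ℝ) (x : ℕ → ℝ) :
    Measurable (Fl (Kc := Kc) ν τp s K n L x) :=
  (measurable_lsum_mk L x).stronglyMeasurable.integral_prod_right'.measurable

/-- A bound of the free energy at given clauses. -/
def rstB (L : ℝ) (k : ℕ) (r : Rst N K n) : ℝ :=
  |wlog r.2.1| + (N * Real.log 2 + (L * ((k : ℝ) + N) + 3 * r.1.2.1))

theorem abs_lsum_mk [NeZero n] {L : ℝ} (hL : 0 ≤ L) (x : ℕ → ℝ) (p : PL (Term Kc N))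
    (r : Rst N K n) : |lsum L x (mkEnv (p, r))| ≤ rstB L p.1 r :=
  abs_lsum_env hL x _

theorem integrable_rstB [NeZero n] (ν : Measure ℝ) [IsProbabilityMeasure ν]
    (τp : Measure (ℕ × Fin N)) [IsProbabilityMeasure τp] (s : ℝ≥0) (L : ℝ) (k : ℕ) :
    Integrable (rstB (K := K) (n := n) L k) (rstLaw ν τp s K n) :=
  ((integrable_wlog.norm.comp_fst (casX K n labLaw)).comp_snd _).add
    ((integrable_const _).add ((integrable_const _).add
      ((((integrable_len s τp).comp_snd (Measure.pi fun _ : Fin N => ν)).comp_fst _).const_mul 3)))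

theorem integrable_mk [NeZero n] {L : ℝ} (hL : 0 ≤ L) (ν : Measure ℝ) [IsProbabilityMeasure ν]
    (τp : Measure (ℕ × Fin N)) [IsProbabilityMeasure τp] (s : ℝ≥0) (x : ℕ → ℝ)
    (p : PL (Term Kc N)) :
    Integrable (fun r => lsum L x (mkEnv (p, r))) (rstLaw ν τp s K n) :=
  (integrable_rstB ν τp s L p.1).mono'
    ((measurable_lsum_mk L x).comp measurable_prodMk_left).aestronglyMeasurable
    (ae_of_all _ (abs_lsum_mk hL x p))

theorem abs_Fl_le [NeZero n] {L : ℝ} (hL : 0 ≤ L) (ν : Measure ℝ) [IsProbabilityMeasure ν]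
    (τp : Measure (ℕ × Fin N)) [IsProbabilityMeasure τp] (s : ℝ≥0) (x : ℕ → ℝ) :
    ∃ A, ∀ p : PL (Term Kc N), |Fl ν τp s K n L x p| ≤ A * ((p.1 : ℝ) + 1) ^ 1 := by
  set B0 := ∫ r, rstB (K := K) (n := n) L 0 r ∂rstLaw ν τp s K n with hB0
  refine ⟨|B0| + L, fun p => ?_⟩
  refine (abs_integral_le_integral_abs.trans (integral_mono_of_nonneg
    (ae_of_all _ fun _ => abs_nonneg _) (integrable_rstB ν τp s L p.1)
    (ae_of_all _ (abs_lsum_mk hL x p)))).trans ?_
  have e : ∀ r : Rst N K n, rstB L p.1 r = rstB L 0 r + L * p.1 := fun r => by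
    simp only [rstB, Nat.cast_zero]; ring
  simp only [e]
  rw [integral_add (integrable_rstB ν τp s L 0) (integrable_const _), integral_const,
    probReal_univ, one_smul, pow_one]
  nlinarith [le_abs_self B0, abs_nonneg B0, Nat.cast_nonneg (α := ℝ) p.1]

theorem sum_app {T : Type} (g : ℕ → T → ℝ) (p q : PL T) :
    ∑ a : Fin (PL.app p q).1, g a ((PL.app p q).2 a) =
      (∑ a : Fin p.1, g a (p.2 a)) + ∑ a : Fin q.1, g (p.1 + a) (q.2 a) := by
  obtain ⟨i, v⟩ := p
  obtain ⟨j, u⟩ := q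
  show ∑ a : Fin (i + j), g a (Fin.append v u a) = _
  rw [Fin.sum_univ_add]
  simp

theorem ham_app {k l : ℕ} (v : Fin k → Term Kc N) (w : Fin l → Term Kc N) (h : Fin N → ℝ)
    (σ : Fin N → Bool) :
    ham (Fin.append v w) h σ = ham v h σ + ∑ j, (w j).1 fun p => σ ((w j).2 p) := by
  simp only [ham, Fin.sum_univ_add, Fin.append_left, Fin.append_right]
  ring

theorem clZ_app (L : ℝ) (p q : PL (Term Kc N)) (h : Fin N → ℝ) (w : Pert N) :
    (clZ L ((PL.app p q, h), w)).1.1 =
      PL.app (lmap (fun t : Term Kc N => (clT L t.1, t.2)) p)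
        (lmap (fun t : Term Kc N => (clT L t.1, t.2)) q) := by
  obtain ⟨i, v⟩ := p
  obtain ⟨j, u⟩ := q
  simp only [clZ, clB, PL.app, lmap, Sigma.mk.injEq, heq_eq_eq, true_and]
  funext a
  induction a using Fin.addCases <;> simp <;> rfl

/-- The weights of the states of a union of lists. -/
theorem sW_app (L : ℝ) (x : ℕ → ℝ) (p q : PL (Term Kc N)) (r : Rst N K n) (st : St N K n) :
    sW L x (mkEnv (PL.app p q, r)) st = sW L x (mkEnv (p, r)) st *
      Real.exp (∑ j, cl (-L) L ((q.2 j).1 fun i => st.2 ((q.2 j).2 i))) := by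
  obtain ⟨i, v⟩ := p
  obtain ⟨j, u⟩ := q
  have e : ham (clZ L ((PL.app ⟨i, v⟩ ⟨j, u⟩, r.1.1), r.1.2)).1.1.2
      (clZ L ((PL.app (T := Term Kc N) ⟨i, v⟩ ⟨j, u⟩, r.1.1), r.1.2)).1.2 st.2 =
      ham (clZ L ((⟨i, v⟩, r.1.1), r.1.2)).1.1.2 (clZ L ((⟨i, v⟩, r.1.1), r.1.2)).1.2 st.2 +
        ∑ a, cl (-L) L ((u a).1 fun l => st.2 ((u a).2 l)) := by
    simp only [clZ, clB, ham]
    erw [sum_app (fun _ (t : Term Kc N) => cl (-L) L (t.1 fun p => st.2 (t.2 p))) ⟨i, v⟩ ⟨j, u⟩]
    exact add_right_comm (∑ a : Fin i, cl (-L) L ((v a).1 fun p => st.2 ((v a).2 p))) _ _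
  simp only [sW, sysW, sysY, mkEnv, e, mul_assoc, ← Real.exp_add]
  congr 2
  simp only [clZ]
  ring_nf

theorem lsum_app (L : ℝ) (x : ℕ → ℝ) (p q : PL (Term Kc N)) (r : Rst N K n) :
    lsum L x (mkEnv (PL.app p q, r)) = lext L x
      (fun σ => ∑ j, cl (-L) L ((q.2 j).1 fun i => σ ((q.2 j).2 i))) (mkEnv (p, r)) := by
  simp only [lsum, lext, sW_app]

theorem abs_sum_cl {L : ℝ} (hL : 0 ≤ L) (q : PL (Term Kc N)) (σ : Fin N → Bool) :
    |∑ j, cl (-L) L ((q.2 j).1 fun i => σ ((q.2 j).2 i))| ≤ L * q.1 :=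
  (Finset.abs_sum_le_sum_abs _ _).trans ((Finset.sum_le_sum fun j _ => abs_cl hL _).trans_eq
    (show ∑ _j : Fin q.1, L = L * q.1 by simp [mul_comm]))

theorem Fl_app_le [NeZero n] {L : ℝ} (hL : 0 ≤ L) (ν : Measure ℝ) [IsProbabilityMeasure ν]
    (τp : Measure (ℕ × Fin N)) [IsProbabilityMeasure τp] (s : ℝ≥0) (x : ℕ → ℝ)
    (p q : PL (Term Kc N)) :
    |Fl ν τp s K n L x (PL.app p q) - Fl ν τp s K n L x p| ≤ L * q.1 := by
  unfold Fl
  rw [← integral_sub (integrable_mk hL ν τp s x _) (integrable_mk hL ν τp s x _)]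
  exact abs_mean_le fun r => by
    rw [lsum_app]
    exact abs_lext_sub x (abs_sum_cl hL q) _

theorem Fl_sym (ν : Measure ℝ) (τp : Measure (ℕ × Fin N)) (s : ℝ≥0) (L : ℝ) (x : ℕ → ℝ) :
    PL.Sym (Fl (Kc := Kc) ν τp s K n L x) := by
  intro k e v
  refine integral_congr_ae (ae_of_all _ fun r => congrArg Real.log (Finset.sum_congr rfl fun st _ => ?_))
  simp only [sW, sysW, sysY, mkEnv, clZ, clB, ham, Function.comp]
  congr 3
  congr 1
  exact Equiv.sum_comp e fun j => cl (-L) L ((v j).1 fun p => st.2 ((v j).2 p))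

theorem sysLaw_eq_Fl (μ : Measure (Clause Kc)) (ν : Measure ℝ) [IsProbabilityMeasure μ]
    [IsProbabilityMeasure ν] [NeZero N] [NeZero n] {L : ℝ} (hL : 0 ≤ L) (c s : ℝ≥0) (x : ℕ → ℝ) :
    ∫ q, lsum L x q ∂sysLaw μ ν N c s K n =
      ∫ p, Fl ν (kindLaw.prod (unif (Fin N))) s K n L x p
        ∂plaw c (μ.prod (unif (Fin Kc → Fin N))) := by
  have hi := (integrable_fix (K := K) (n := n) μ ν (N := N) hL c s x).1
  have h := mkEnv_mp (K := K) (n := n) μ ν (N := N) c s
  rw [← h.map_eq, integral_map measurable_mkEnv.aemeasurable (h.map_eq ▸ hi).aestronglyMeasurable,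
    integral_prod]
  · rfl
  · exact h.integrable_comp_of_integrable hi

/-- The free energy as a function of the perturbing clauses. -/
def Gp (K n : ℕ) (L : ℝ) (x : ℕ → ℝ) (b : Base Kc N) (p : Pert N) : ℝ :=
  ∫ wx, lsum L x ((b, p), wx) ∂(casW (mlev K) n).prod (casX K n labLaw)

theorem measurable_Gp (L : ℝ) (x : ℕ → ℝ) (b : Base Kc N) : Measurable (Gp K n L x b) := by
  have h : Measurable fun q : Pert N × ((Node K n → ℝ) × (Node K n → Lab)) =>
      lsum L x ((b, q.1), q.2) :=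
    Measurable.comp (g := fun p : (ℕ → ℝ) × Env Kc N K n => lsum L p.1 p.2)
      (f := fun q : Pert N × ((Node K n → ℝ) × (Node K n → Lab)) => (x, ((b, q.1), q.2)))
      (measurable_lsum L)
      (measurable_const.prodMk ((measurable_const.prodMk measurable_fst).prodMk measurable_snd))
  exact h.stronglyMeasurable.integral_prod_right'.measurable

theorem integrable_Gp [NeZero n] {L : ℝ} (hL : 0 ≤ L) (x : ℕ → ℝ) (b : Base Kc N) (p : Pert N) :
    Integrable (fun wx => lsum L x ((b, p), wx)) ((casW (mlev K) n).prod (casX K n labLaw)) :=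
  ((integrable_wlog.norm.comp_fst (casX K n labLaw)).add (integrable_const (env L (b, p)))).mono'
    (Measurable.comp (g := fun p : (ℕ → ℝ) × Env Kc N K n => lsum L p.1 p.2)
      (f := fun wx => (x, ((b, p), wx))) (measurable_lsum L)
      (measurable_const.prodMk (measurable_const.prodMk measurable_id))).aestronglyMeasurable
    (ae_of_all _ fun wx => abs_lsum_env hL x _)

theorem abs_Gp_le [NeZero n] {L : ℝ} (hL : 0 ≤ L) (x : ℕ → ℝ) (b : Base Kc N) :
    ∃ A, ∀ p : Pert N, |Gp K n L x b p| ≤ A * ((p.1 : ℝ) + 1) ^ 1 := by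
  set B0 := ∫ wx : (Node K n → ℝ) × (Node K n → Lab), |wlog wx.1|
    ∂(casW (mlev K) n).prod (casX K n labLaw) with hB0
  refine ⟨|B0| + |N * Real.log 2 + L * ((b.1.1 : ℝ) + N)| + 3, fun p => ?_⟩
  refine (abs_integral_le_integral_abs.trans (integral_mono_of_nonneg
    (ae_of_all _ fun _ => abs_nonneg _)
    ((integrable_wlog.norm.comp_fst (casX K n labLaw)).add (integrable_const (env L (b, p))))
    (ae_of_all _ fun wx => abs_lsum_env hL x ((b, p), wx)))).trans ?_
  simp only [Pi.add_apply, Real.norm_eq_abs]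
  rw [integral_add (show Integrable (fun wx : (Node K n → ℝ) × (Node K n → Lab) => |wlog wx.1|) _
      from integrable_wlog.norm.comp_fst (casX K n labLaw)) (integrable_const _),
    integral_const, probReal_univ, one_smul, pow_one, env]
  nlinarith [le_abs_self B0, abs_nonneg B0, Nat.cast_nonneg (α := ℝ) p.1,
    le_abs_self ((N : ℝ) * Real.log 2 + L * ((b.1.1 : ℝ) + N)),
    abs_nonneg ((N : ℝ) * Real.log 2 + L * ((b.1.1 : ℝ) + N))]

/-- Energies of perturbed states that differ by at most `D` give free energies within `D`. -/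
theorem lsum_pert_le [NeZero n] (L : ℝ) (x : ℕ → ℝ) (b : Base Kc N) (p p' : Pert N)
    (wx : (Node K n → ℝ) × (Node K n → Lab)) {D : ℝ}
    (h : ∀ (y : Fin K → Lab) σ, |pertE (clX x) p y σ - pertE (clX x) p' y σ| ≤ D) :
    |lsum L x ((b, p), wx) - lsum L x ((b, p'), wx)| ≤ D := by
  have := log_sum_shift (w := fun st : St N K n => wgt (mlev K) (posW wx.1) st.1)
    (f := fun st => ham (clB L b).1.2 (clB L b).2 st.2 + pertE (clX x) p (path wx.2 st.1) st.2)
    (g := fun st => ham (clB L b).1.2 (clB L b).2 st.2 + pertE (clX x) p' (path wx.2 st.1) st.2)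
    (fun st => P157.Casc.wgt_pos _ (posW_pos _) _) (D := D) fun st => by
      simpa using h (path wx.2 st.1) st.2
  exact this

theorem Gp_app_le [NeZero n] {L : ℝ} (hL : 0 ≤ L) (x : ℕ → ℝ) (b : Base Kc N) (p q : Pert N) :
    |Gp K n L x b (PL.app p q) - Gp K n L x b p| ≤ 3 * q.1 := by
  unfold Gp
  rw [← integral_sub (integrable_Gp hL x b _) (integrable_Gp hL x b _)]
  refine abs_mean_le fun wx => lsum_pert_le L x b _ _ wx fun y σ => ?_
  obtain ⟨i, v⟩ := p
  obtain ⟨j, u⟩ := q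
  rw [pertE_eq, pertE_eq]
  rw [sum_app (fun a (t : ℕ × Fin N) => clX x t.1 * (beta t.1 * kS t.1 a t.2 y σ)) ⟨i, v⟩ ⟨j, u⟩,
    add_sub_cancel_left]
  exact (Finset.abs_sum_le_sum_abs _ _).trans ((Finset.sum_le_sum fun a _ =>
    abs_pert_summand x _ _ _ y σ).trans_eq (show ∑ _a : Fin j, (3 : ℝ) = 3 * j by simp [mul_comm]))

theorem Gp_sym (L : ℝ) (x : ℕ → ℝ) (b : Base Kc N) : PL.Sym (Gp K n L x b) := by
  intro k e v
  let f : ℕ → ℕ := fun a => Nat.pair
    (if h : a.unpair.1 < k then (e.symm ⟨a.unpair.1, h⟩ : ℕ) else a.unpair.1) a.unpair.2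
  have hf : Function.Injective f := fun a c h => by
    have h' := Nat.pair_eq_pair.1 h
    rw [← Nat.pair_unpair a, ← Nat.pair_unpair c, h'.2]
    congr 1
    have h1 := h'.1
    split_ifs at h1 with ha hc hc
    · simpa using congrArg Fin.val (e.symm.injective (Fin.ext h1))
    · exact absurd ((e.symm ⟨_, ha⟩).isLt) (by omega)
    · exact absurd ((e.symm ⟨_, hc⟩).isLt) (by omega)
    · exact h1
  have hl : MeasurePreserving (fun (ξ : Node K n → Lab) v a => ξ v (f a))
      (casX K n labLaw) (casX K n labLaw) :=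
    measurePreserving_pi (fun _ : Node K n => labLaw) (fun _ => labLaw)
      (f := fun _ (l : Lab) a => l (f a)) fun _ => labLaw_reindex hf
  have key : ∀ wx : (Node K n → ℝ) × (Node K n → Lab),
      lsum L x ((b, ⟨k, v ∘ e⟩), wx) = lsum L x ((b, ⟨k, v⟩), (wx.1, fun u a => wx.2 u (f a))) := by
    intro wx
    refine congrArg Real.log (Finset.sum_congr rfl fun st _ => ?_)
    simp only [sW, sysW, sysY, clZ]
    congr 3
    rw [pertE_eq, pertE_eq]
    refine Fintype.sum_equiv e _ _ fun i => ?_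
    have hi : ∀ c, f (Nat.pair (e i : ℕ) c) = Nat.pair i c := fun c => by simp [f]
    simp only [Function.comp, kS, flag, P157.Casc.path, hi]
    rfl
  unfold Gp
  simp only [key]
  have hm := (MeasurePreserving.id (casW (mlev K) n)).prod hl
  have hmeas : Measurable fun wx : (Node K n → ℝ) × (Node K n → Lab) =>
      lsum L x ((b, (⟨k, v⟩ : Pert N)), wx) :=
    Measurable.comp (g := fun p : (ℕ → ℝ) × Env Kc N K n => lsum L p.1 p.2)
      (f := fun wx => (x, ((b, (⟨k, v⟩ : Pert N)), wx))) (measurable_lsum L)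
      (measurable_const.prodMk (measurable_const.prodMk measurable_id))
  conv_rhs => rw [← hm.map_eq, integral_map hm.measurable.aemeasurable hmeas.aestronglyMeasurable]
  rfl

end Vale.Agent.P168.CavBound
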