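import Vale.Agent.P168.Conc.Palm

/-!
P168: Poisson lists of mixed laws are unions of independent lists.
-/

open MeasureTheory ProbabilityTheory Filter Topology
open scoped NNReal ENNReal

noncomputable section

namespace Vale.Agent.P168.CavBound

variable {T T' : Type} [MeasurableSpace T] [MeasurableSpace T']

/-- A mean is bounded by a bound of the function. -/
theorem abs_mean_le {S : Type*} [MeasurableSpace S] {ρ : Measure S} [IsProbabilityMeasure ρ]
    {f : S → ℝ} {C : ℝ} (h : ∀ x, |f x| ≤ C) : |∫ x, f x ∂ρ| ≤ C :=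
  (norm_integral_le_of_norm_le_const (μ := ρ) (f := f) (C := C) (ae_of_all _ h)).trans_eq (by rw [probReal_univ, mul_one])

theorem add_one_le_mul (i j : ℕ) : ((i + j : ℕ) : ℝ) + 1 ≤ ((i : ℝ) + 1) * ((j : ℝ) + 1) := by
  push_cast
  nlinarith [mul_nonneg (Nat.cast_nonneg (α := ℝ) i) (Nat.cast_nonneg (α := ℝ) j)]

/-- The uniform law is a probability measure. -/
theorem unif_prob {S : Type*} [Fintype S] [Nonempty S] [MeasurableSpace S]
    [MeasurableSingletonClass S] : IsProbabilityMeasure (unif S) := by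
  constructor
  rw [unif, Measure.smul_apply, Measure.count_univ, ENat.card_eq_coe_fintype_card]
  simp [ENNReal.smul_def, ENNReal.inv_mul_cancel]

/-- The list of the images. -/
def lmap (g : T → T') (p : PL T) : PL T' := ⟨p.1, g ∘ p.2⟩

omit [MeasurableSpace T] in
/-- A symmetric function of lists does not see a relabelling of the positions. -/
theorem Sym.eq_equiv {F : PL T → ℝ} (hF : PL.Sym F) {k l : ℕ} (e : Fin k ≃ Fin l)
    {v : Fin k → T} {w : Fin l → T} (h : ∀ i, v i = w (e i)) : F ⟨k, v⟩ = F ⟨l, w⟩ := by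
  obtain rfl : k = l := by simpa using Fintype.card_congr e
  rw [show v = w ∘ e from funext h, hF]

omit [MeasurableSpace T] in
theorem Sym.add {F : PL T → ℝ} (hF : PL.Sym F) (t : T) : PL.Sym fun p => F (PL.add t p) := by
  intro k e v
  refine Sym.eq_equiv hF ((finSuccEquiv k).trans (e.optionCongr.trans (finSuccEquiv k).symm))
    fun i => ?_
  cases i using Fin.cases <;> simp

omit [MeasurableSpace T] in
theorem app_add_left {F : PL T → ℝ} (hF : PL.Sym F) (t : T) (p q : PL T) :
    F (PL.app (PL.add t p) q) = F (PL.add t (PL.app p q)) := by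
  obtain ⟨i, v⟩ := p
  obtain ⟨j, w⟩ := q
  refine Sym.eq_equiv hF (finCongr (Nat.succ_add i j)) fun a => ?_
  show Fin.append (Fin.cons t v) w a = (Fin.cons t (Fin.append v w) : Fin (i + j + 1) → T) _
  rw [Fin.append_cons]
  rfl

omit [MeasurableSpace T] in
theorem app_add_right {F : PL T → ℝ} (hF : PL.Sym F) (t : T) (p q : PL T) :
    F (PL.app p (PL.add t q)) = F (PL.add t (PL.app p q)) := by
  obtain ⟨i, v⟩ := p
  obtain ⟨j, w⟩ := q
  let f : Fin (i + (j + 1)) → Fin (i + j + 1) := Fin.addCases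
    (fun a => (Fin.castAdd j a).succ) (Fin.cases 0 fun b => (Fin.natAdd i b).succ)
  have hv : ∀ a, (f a : ℕ) = if (a : ℕ) < i then (a : ℕ) + 1 else if (a : ℕ) = i then 0 else a := by
    intro a
    induction a using Fin.addCases with
    | left a => simp [f, a.isLt]
    | right a => cases a using Fin.cases <;> simp [f] <;> omega
  have hf : Function.Injective f := fun a b hab => Fin.ext (by
    have h := congrArg Fin.val hab
    simp only [hv] at h
    split_ifs at h <;> omega)
  refine Sym.eq_equiv hF (Equiv.ofBijective f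
    ((Fintype.bijective_iff_injective_and_card f).2 ⟨hf, by simp [add_assoc]⟩)) fun a => ?_
  show Fin.append v (Fin.cons t w) a = (Fin.cons t (Fin.append v w) : Fin (i + j + 1) → T) (f a)
  induction a using Fin.addCases with
  | left a => simp [f]
  | right a => cases a using Fin.cases <;> simp [f]

theorem measurable_app : Measurable fun q : PL T × PL T => PL.app q.1 q.2 :=
  measurable_pl_prod fun k => measurable_prod_pl
    (f := fun q : (Fin k → T) × PL T => PL.app ⟨k, q.1⟩ q.2) fun j =>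
      (measurable_mk (k + j)).comp (measurable_pi_lambda _ fun i => by
        induction i using Fin.addCases with
        | left a => simp only [Fin.append_left]; exact (measurable_pi_apply a).comp measurable_fst
        | right a => simp only [Fin.append_right]; exact (measurable_pi_apply a).comp measurable_snd)

theorem measurable_lmap {g : T → T'} (hg : Measurable g) : Measurable (lmap g) :=
  measurable_pl fun k => (measurable_mk k).comp
    (measurable_pi_lambda _ fun i => hg.comp (measurable_pi_apply i))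

/-- The law of the images. -/
theorem plaw_map {g : T → T'} (hg : Measurable g) (c : ℝ≥0) (τ : Measure T)
    [IsProbabilityMeasure τ] : plaw c (τ.map g) = (plaw c τ).map (lmap g) := by
  have : IsProbabilityMeasure (τ.map g) := Measure.isProbabilityMeasure_map hg.aemeasurable
  unfold plaw
  rw [Measure.map_sum (measurable_lmap hg).aemeasurable]
  congr 1
  funext k
  rw [Measure.map_smul, Measure.map_map (measurable_lmap hg) (measurable_mk k),
    ← Measure.pi_map_pi (μ := fun _ : Fin k => τ) (f := fun _ => g) fun _ => hg.aemeasurable,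
    Measure.map_map (g := Sigma.mk (β := fun k => Fin k → T') k) (f := fun (x : Fin k → T) i => g (x i))
      (measurable_mk k) (measurable_pi_lambda _ fun i => hg.comp (measurable_pi_apply i))]
  rfl

/-- The mean of a function of the union of two lists of given lengths. -/
def appMean (τ₁ τ₂ : Measure T) (F : PL T → ℝ) (i j : ℕ) : ℝ :=
  ∫ v : Fin i → T, ∫ w : Fin j → T, F (PL.app ⟨i, v⟩ ⟨j, w⟩)
    ∂(Measure.pi fun _ => τ₂) ∂(Measure.pi fun _ => τ₁)

variable {τ τ₁ τ₂ : Measure T} [IsProbabilityMeasure τ] [IsProbabilityMeasure τ₁]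
  [IsProbabilityMeasure τ₂] {a b : ℝ≥0} {F : PL T → ℝ} {A : ℝ} {n : ℕ}

omit [IsProbabilityMeasure τ] [IsProbabilityMeasure τ₁] [IsProbabilityMeasure τ₂] in
/-- The mixture equation for integrals. -/
theorem integral_mix (hmix : ((a + b : ℝ≥0) : ℝ≥0∞) • τ = (a : ℝ≥0∞) • τ₁ + (b : ℝ≥0∞) • τ₂)
    {g : T → ℝ} (h1 : Integrable g τ₁) (h2 : Integrable g τ₂) :
    ((a + b : ℝ≥0) : ℝ) * ∫ t, g t ∂τ = a * ∫ t, g t ∂τ₁ + b * ∫ t, g t ∂τ₂ := by
  have h := congrArg (fun m => ∫ t, g t ∂m) hmix
  simp only [integral_smul_measure, integral_add_measure (h1.smul_measure ENNReal.coe_ne_top)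
    (h2.smul_measure ENNReal.coe_ne_top), smul_eq_mul, ENNReal.coe_toReal] at h
  exact h

theorem integrable_pi_of_bound {k : ℕ} {G : (Fin k → T) → ℝ} {C : ℝ} (ρ : Measure T)
    [IsProbabilityMeasure ρ] (hG : Measurable G) (hb : ∀ v, |G v| ≤ C) :
    Integrable G (Measure.pi fun _ => ρ) :=
  (integrable_const C).mono' hG.aestronglyMeasurable (ae_of_all _ hb)

omit [IsProbabilityMeasure τ] [IsProbabilityMeasure τ₁] [IsProbabilityMeasure τ₂] in
/-- The integral over the first element and the others. -/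
theorem integral_pi_cons (ρ : Measure T) [IsProbabilityMeasure ρ] {k : ℕ}
    {G : (Fin (k + 1) → T) → ℝ} {C : ℝ} (hG : Measurable G) (hb : ∀ v, |G v| ≤ C) :
    ∫ v, G v ∂(Measure.pi fun _ => ρ) =
      ∫ t, ∫ v : Fin k → T, G (Fin.cons t v) ∂(Measure.pi fun _ => ρ) ∂ρ := by
  have hmp := (measurePreserving_piFinSuccAbove (fun _ : Fin (k + 1) => ρ) 0).symm
  rw [← hmp.integral_comp']
  rw [integral_prod]
  · simp [MeasurableEquiv.piFinSuccAbove_symm_apply, Fin.consEquiv]
  · exact (integrable_const C).mono'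
      (hG.comp (MeasurableEquiv.measurable _)).aestronglyMeasurable (ae_of_all _ fun q => hb _)

omit [IsProbabilityMeasure τ] [IsProbabilityMeasure τ₁] [IsProbabilityMeasure τ₂] [MeasurableSpace T] in
theorem bound_len {C : ℕ → ℝ} (hb : ∀ p, |F p| ≤ C p.1) (i j : ℕ) (v : Fin i → T)
    (w : Fin j → T) : |F (PL.app ⟨i, v⟩ ⟨j, w⟩)| ≤ C (i + j) := hb _

theorem measurable_appMean (hF : Measurable F) (i j : ℕ) :
    Measurable fun q : (Fin i → T) × (Fin j → T) => F (PL.app ⟨i, q.1⟩ ⟨j, q.2⟩) :=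
  hF.comp (measurable_app.comp
    (((measurable_mk i).comp measurable_fst).prodMk ((measurable_mk j).comp measurable_snd)))

omit [IsProbabilityMeasure τ] in
theorem abs_appMean_le {C : ℕ → ℝ} (hb : ∀ p, |F p| ≤ C p.1) (i j : ℕ) :
    |appMean τ₁ τ₂ F i j| ≤ C (i + j) :=
  abs_mean_le fun v => abs_mean_le fun w => bound_len hb i j v w

omit [IsProbabilityMeasure τ] in
theorem appMean_add_left (hF : Measurable F) (hs : PL.Sym F) {C : ℕ → ℝ}
    (hb : ∀ p, |F p| ≤ C p.1) (i j : ℕ) :
    appMean τ₁ τ₂ F (i + 1) j =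
      ∫ t, appMean τ₁ τ₂ (fun p => F (PL.add t p)) i j ∂τ₁ := by
  unfold appMean
  rw [integral_pi_cons τ₁ (C := C (i + 1 + j))
    (measurable_appMean hF _ _).stronglyMeasurable.integral_prod_right'.measurable
    fun v => abs_mean_le fun w => bound_len hb _ _ v w]
  exact integral_congr_ae (ae_of_all _ fun t => integral_congr_ae (ae_of_all _ fun v =>
    integral_congr_ae (ae_of_all _ fun w => app_add_left hs t ⟨i, v⟩ ⟨j, w⟩)))

omit [IsProbabilityMeasure τ] in
theorem appMean_add_right (hF : Measurable F) (hs : PL.Sym F) {C : ℕ → ℝ}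
    (hb : ∀ p, |F p| ≤ C p.1) (i j : ℕ) :
    appMean τ₁ τ₂ F i (j + 1) =
      ∫ t, appMean τ₁ τ₂ (fun p => F (PL.add t p)) i j ∂τ₂ := by
  unfold appMean
  have hmeas : Measurable fun q : ((Fin i → T) × T) × (Fin j → T) =>
      F (PL.app ⟨i, q.1.1⟩ (PL.add q.1.2 ⟨j, q.2⟩)) :=
    hF.comp (measurable_app.comp (((measurable_mk i).comp (measurable_fst.comp measurable_fst)).prodMk
      (measurable_add.comp ((measurable_snd.comp measurable_fst).prodMk
        ((measurable_mk j).comp measurable_snd)))))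
  calc ∫ v : Fin i → T, ∫ w : Fin (j + 1) → T, F (PL.app ⟨i, v⟩ ⟨j + 1, w⟩)
          ∂(Measure.pi fun _ => τ₂) ∂(Measure.pi fun _ => τ₁)
      = ∫ v : Fin i → T, ∫ t, ∫ w : Fin j → T, F (PL.app ⟨i, v⟩ (PL.add t ⟨j, w⟩))
          ∂(Measure.pi fun _ => τ₂) ∂τ₂ ∂(Measure.pi fun _ => τ₁) := by
        refine integral_congr_ae (ae_of_all _ fun v => ?_)
        exact integral_pi_cons τ₂ ((measurable_appMean hF _ _).comp measurable_prodMk_left)
          fun w => bound_len hb _ _ v w
    _ = ∫ t, ∫ v : Fin i → T, ∫ w : Fin j → T, F (PL.app ⟨i, v⟩ (PL.add t ⟨j, w⟩))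
          ∂(Measure.pi fun _ => τ₂) ∂(Measure.pi fun _ => τ₁) ∂τ₂ := by
        refine integral_integral_swap ?_
        exact (integrable_const (C (i + (j + 1)))).mono'
          hmeas.stronglyMeasurable.integral_prod_right'.aestronglyMeasurable
          (ae_of_all _ fun q => abs_mean_le fun w => bound_len hb _ (j + 1) q.1 (Fin.cons q.2 w))
    _ = _ := integral_congr_ae (ae_of_all _ fun t => integral_congr_ae (ae_of_all _ fun v =>
          integral_congr_ae (ae_of_all _ fun w => app_add_right hs t ⟨i, v⟩ ⟨j, w⟩)))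

open Finset in
/-- Expansion of the mean over lists of a given length of a mixed law. -/
theorem pow_mul_mean (hmix : ((a + b : ℝ≥0) : ℝ≥0∞) • τ = (a : ℝ≥0∞) • τ₁ + (b : ℝ≥0∞) • τ₂) :
    ∀ (k : ℕ) (F : PL T → ℝ), Measurable F → PL.Sym F → ∀ C : ℕ → ℝ, (∀ p, |F p| ≤ C p.1) →
      ((a + b : ℝ≥0) : ℝ) ^ k * ∫ v : Fin k → T, F ⟨k, v⟩ ∂(Measure.pi fun _ => τ) =
        ∑ ij ∈ antidiagonal k,
          (k.choose ij.1 : ℝ) * ((a : ℝ) ^ ij.1 * (b : ℝ) ^ ij.2 * appMean τ₁ τ₂ F ij.1 ij.2)
  | 0, F, hF, hs, C, hb => by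
    have e : ∀ v : Fin 0 → T, F ⟨0, v⟩ = F ⟨0, Fin.elim0⟩ := fun v =>
      congrArg (fun w : Fin 0 → T => F ⟨0, w⟩) (funext fun i => i.elim0)
    simp [appMean, PL.app, e]
  | k + 1, F, hF, hs, C, hb => by
    have hFt : ∀ t, Measurable fun p => F (PL.add t p) := fun t =>
      hF.comp (measurable_add.comp measurable_prodMk_left)
    have hg : Measurable fun t => ∫ v : Fin k → T, F (PL.add t ⟨k, v⟩) ∂(Measure.pi fun _ => τ) :=
      ((hF.comp (measurable_add.comp (measurable_fst.prodMk
        ((measurable_mk k).comp measurable_snd)))).stronglyMeasurable.integral_prod_right').measurable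
    have hgb : ∀ t, |∫ v : Fin k → T, F (PL.add t ⟨k, v⟩) ∂(Measure.pi fun _ => τ)| ≤ C (k + 1) :=
      fun t => abs_mean_le fun v => hb (PL.add t ⟨k, v⟩)
    have hint : ∀ (ρ : Measure T) [IsProbabilityMeasure ρ], Integrable
        (fun t => ∫ v : Fin k → T, F (PL.add t ⟨k, v⟩) ∂(Measure.pi fun _ => τ)) ρ :=
      fun ρ _ => (integrable_const _).mono' hg.aestronglyMeasurable (ae_of_all _ hgb)
    rw [integral_pi_cons τ (G := fun v => F ⟨k + 1, v⟩) (C := C (k + 1))
      (hF.comp (measurable_mk _)) fun v => hb _, pow_succ,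
      mul_assoc]
    change _ * (_ * ∫ t, ∫ v : Fin k → T, F (PL.add t ⟨k, v⟩) ∂(Measure.pi fun _ => τ) ∂τ) = _
    have hi : ∀ (ρ : Measure T) [IsProbabilityMeasure ρ] (i j : ℕ),
        Integrable (fun t => appMean τ₁ τ₂ (fun p => F (PL.add t p)) i j) ρ := by
      intro ρ _ i j
      refine (integrable_const (C (i + j + 1))).mono' ?_ (ae_of_all _ fun t =>
        abs_appMean_le (C := fun m => C (m + 1)) (fun p => hb (PL.add t p)) i j)
      have hm : Measurable fun q : (T × (Fin i → T)) × (Fin j → T) =>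
          F (PL.add q.1.1 (PL.app ⟨i, q.1.2⟩ ⟨j, q.2⟩)) :=
        hF.comp (measurable_add.comp ((measurable_fst.comp measurable_fst).prodMk
          (measurable_app.comp (((measurable_mk i).comp (measurable_snd.comp measurable_fst)).prodMk
            ((measurable_mk j).comp measurable_snd)))))
      exact hm.stronglyMeasurable.integral_prod_right'.integral_prod_right'.aestronglyMeasurable
    have E : ∀ (ρ : Measure T) [IsProbabilityMeasure ρ], ((a + b : ℝ≥0) : ℝ) ^ k *
        (∫ t, ∫ v : Fin k → T, F (PL.add t ⟨k, v⟩) ∂(Measure.pi fun _ => τ) ∂ρ) =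
        ∑ ij ∈ antidiagonal k, (k.choose ij.1 : ℝ) * ((a : ℝ) ^ ij.1 * (b : ℝ) ^ ij.2 *
          ∫ t, appMean τ₁ τ₂ (fun p => F (PL.add t p)) ij.1 ij.2 ∂ρ) := by
      intro ρ _
      rw [← integral_const_mul]
      simp only [fun t => pow_mul_mean hmix k _ (hFt t) (Sym.add hs t) (fun m => C (m + 1))
        fun p => hb (PL.add t p)]
      rw [integral_finsetSum _ fun ij _ => ((hi ρ _ _).const_mul _).const_mul _]
      simp only [integral_const_mul]
    rw [integral_mix hmix (hint τ₁) (hint τ₂), mul_add, mul_left_comm _ (a : ℝ),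
      mul_left_comm _ (b : ℝ), E τ₁, E τ₂, Finset.sum_antidiagonal_choose_succ_mul
      (fun i j => (a : ℝ) ^ i * (b : ℝ) ^ j * appMean τ₁ τ₂ F i j) k,
      Finset.mul_sum, Finset.mul_sum, add_comm]
    congr 1 <;> refine Finset.sum_congr rfl fun ij hij => ?_
    · rw [appMean_add_right hF hs hb]
      ring
    · rw [appMean_add_left hF hs hb,
        Nat.choose_symm_of_eq_add (Finset.HasAntidiagonal.mem_antidiagonal.1 hij).symm]
      ring

open Finset in
/-- A Poisson list of a mixed law is the union of independent lists, for functions that ignore the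
order. -/
theorem plaw_mix (hmix : ((a + b : ℝ≥0) : ℝ≥0∞) • τ = (a : ℝ≥0∞) • τ₁ + (b : ℝ≥0∞) • τ₂)
    (hF : Measurable F) (hs : PL.Sym F) (hb : ∀ p, |F p| ≤ A * ((p.1 : ℝ) + 1) ^ n) :
    ∫ p, F p ∂plaw (a + b) τ = ∫ p, ∫ q, F (PL.app p q) ∂plaw b τ₂ ∂plaw a τ₁ := by
  set f : ℕ × ℕ → ℝ := fun ij => pw a ij.1 * (pw b ij.2 * appMean τ₁ τ₂ F ij.1 ij.2) with hfdef
  have hA : 0 ≤ A := nonneg_of_mul_nonneg_left ((abs_nonneg _).trans (hb ⟨0, Fin.elim0⟩)) (by positivity)
  have hfb : ∀ ij, ‖f ij‖ ≤ A * ((pw a ij.1 * ((ij.1 : ℝ) + 1) ^ n) *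
      (pw b ij.2 * ((ij.2 : ℝ) + 1) ^ n)) := by
    intro ij
    have h1 := abs_appMean_le (τ₁ := τ₁) (τ₂ := τ₂) (C := fun m => A * ((m : ℝ) + 1) ^ n) hb ij.1 ij.2
    have h2 : (((ij.1 + ij.2 : ℕ) : ℝ) + 1) ^ n ≤ ((ij.1 : ℝ) + 1) ^ n * ((ij.2 : ℝ) + 1) ^ n := by
      rw [← mul_pow]
      push_cast
      exact pow_le_pow_left₀ (by positivity) (by simpa using add_one_le_mul ij.1 ij.2) _
    rw [hfdef]
    simp only [norm_mul, Real.norm_eq_abs, abs_of_nonneg (pw_nonneg _ _)]
    refine (mul_le_mul_of_nonneg_left (mul_le_mul_of_nonneg_left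
      (h1.trans (mul_le_mul_of_nonneg_left h2 hA)) (pw_nonneg _ _)) (pw_nonneg _ _)).trans_eq ?_
    ring
  have hf : Summable f := Summable.of_norm_bounded
    (((summable_pw_pow a n).mul_of_nonneg (summable_pw_pow b n)
      (fun i => mul_nonneg (pw_nonneg _ _) (by positivity))
      (fun i => mul_nonneg (pw_nonneg _ _) (by positivity))).mul_left A) hfb
  have hl : ∫ p, F p ∂plaw (a + b) τ = ∑' k, ∑ ij ∈ antidiagonal k, f ij := by
    rw [← (hasSum_plaw hF (integrable_plaw hF hb)).tsum_eq]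
    refine tsum_congr fun k => ?_
    have h := pow_mul_mean hmix k F hF hs (fun m => A * ((m : ℝ) + 1) ^ n) hb
    have hk : (k.factorial : ℝ) ≠ 0 := by positivity
    rw [pw_eq, show Real.exp (-((a + b : ℝ≥0) : ℝ)) * ((a + b : ℝ≥0) : ℝ) ^ k / k.factorial *
        ∫ v : Fin k → T, F ⟨k, v⟩ ∂(Measure.pi fun _ => τ) =
      Real.exp (-((a + b : ℝ≥0) : ℝ)) / k.factorial * (((a + b : ℝ≥0) : ℝ) ^ k *
        ∫ v : Fin k → T, F ⟨k, v⟩ ∂(Measure.pi fun _ => τ)) by ring, h, Finset.mul_sum]
    refine Finset.sum_congr rfl fun ij hij => ?_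
    have hsum := Finset.HasAntidiagonal.mem_antidiagonal.1 hij
    rw [hfdef, Nat.cast_choose ℝ (show ij.1 ≤ k by omega), show k - ij.1 = ij.2 by omega]
    simp only [pw_eq, NNReal.coe_add, neg_add, Real.exp_add]
    field_simp
  have hr : ∫ p, ∫ q, F (PL.app p q) ∂plaw b τ₂ ∂plaw a τ₁ = ∑' i, ∑' j, f (i, j) := by
    have hm : Measurable fun q : PL T × PL T => F (PL.app q.1 q.2) := hF.comp measurable_app
    have hmI : Measurable fun p => ∫ q, F (PL.app p q) ∂plaw b τ₂ :=
      hm.stronglyMeasurable.integral_prod_right'.measurable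
    have hbb : ∀ p q : PL T, |F (PL.app p q)| ≤ A * ((p.1 : ℝ) + 1) ^ n * ((q.1 : ℝ) + 1) ^ n :=
      fun p q => by
        refine (hb _).trans ?_
        rw [mul_assoc, ← mul_pow]
        exact mul_le_mul_of_nonneg_left (pow_le_pow_left₀ (by positivity) (add_one_le_mul p.1 q.1) _) hA
    have hq : ∀ B : ℝ, Integrable (fun q : PL T => B * ((q.1 : ℝ) + 1) ^ n) (plaw b τ₂) := fun B =>
      integrable_plaw (A := |B|) (measurable_pl fun k => measurable_const (a := B * ((k : ℝ) + 1) ^ n)) fun q => by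
        rw [abs_mul, abs_of_nonneg (by positivity : (0 : ℝ) ≤ ((q.1 : ℝ) + 1) ^ n)]
    have hIb : ∀ p, |∫ q, F (PL.app p q) ∂plaw b τ₂| ≤
        (A * ∫ q : PL T, 1 * ((q.1 : ℝ) + 1) ^ n ∂plaw b τ₂) * ((p.1 : ℝ) + 1) ^ n := fun p => by
      refine (abs_integral_le_integral_abs.trans (integral_mono_of_nonneg
        (ae_of_all _ fun _ => abs_nonneg _) (hq _) (ae_of_all _ (hbb p)))).trans_eq ?_
      rw [mul_right_comm, ← integral_const_mul]
      simp
    rw [← (hasSum_plaw hmI (integrable_plaw hmI hIb)).tsum_eq]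
    refine tsum_congr fun i => ?_
    have hmi : Measurable fun u : (Fin i → T) × PL T => F (PL.app ⟨i, u.1⟩ u.2) :=
      hm.comp (((measurable_mk i).comp measurable_fst).prodMk measurable_snd)
    have hint : Integrable (fun u : (Fin i → T) × PL T => F (PL.app ⟨i, u.1⟩ u.2))
        ((Measure.pi fun _ => τ₁).prod (plaw b τ₂)) :=
      ((hq (A * ((i : ℝ) + 1) ^ n)).comp_snd _).mono' hmi.aestronglyMeasurable
        (ae_of_all _ fun u => hbb _ _)
    rw [integral_integral_swap hint,
      ← (hasSum_plaw hmi.stronglyMeasurable.integral_prod_left'.measurable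
        hint.integral_prod_right).tsum_eq, ← tsum_mul_left]
    refine tsum_congr fun j => ?_
    simp only [hfdef, appMean]
    rw [integral_integral_swap]
    exact (integrable_const (A * ((i : ℝ) + 1) ^ n * ((j : ℝ) + 1) ^ n)).mono'
      ((measurable_appMean hF i j).comp measurable_swap).aestronglyMeasurable
      (ae_of_all _ fun u => hbb _ _)
  rw [hl, hr, ← hf.tsum_prod, ← Finset.HasAntidiagonal.sigmaAntidiagonalEquivProd.tsum_eq f,
    Summable.tsum_sigma (f := fun c => f (Finset.HasAntidiagonal.sigmaAntidiagonalEquivProd c))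
      (Finset.HasAntidiagonal.sigmaAntidiagonalEquivProd.summable_iff.2 hf)]
  refine tsum_congr fun k => ?_
  rw [tsum_fintype, ← Finset.sum_coe_sort]
  rfl

/-- The mean number of elements. -/
theorem integral_len (c : ℝ≥0) (τ : Measure T) [IsProbabilityMeasure τ] :
    ∫ p : PL T, (p.1 : ℝ) ∂plaw c τ = c := by
  simpa [cnt] using mean_cnt (c := c) (τ := τ) MeasurableSet.univ

theorem integrable_len (c : ℝ≥0) (τ : Measure T) [IsProbabilityMeasure τ] :
    Integrable (fun p : PL T => (p.1 : ℝ)) (plaw c τ) :=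
  integrable_plaw (A := 1) (n := 1) (measurable_pl fun k => measurable_const (a := (k : ℝ))) fun p => by simp

/-- The part of a mixed list may be dropped at the cost of its mean length. -/
theorem plaw_mix_le (hmix : ((a + b : ℝ≥0) : ℝ≥0∞) • τ = (a : ℝ≥0∞) • τ₁ + (b : ℝ≥0∞) • τ₂)
    (hF : Measurable F) (hs : PL.Sym F) (hb : ∀ p, |F p| ≤ A * ((p.1 : ℝ) + 1) ^ n) {C : ℝ}
    (hC : ∀ p q, |F (PL.app p q) - F p| ≤ C * q.1) :
    |∫ p, F p ∂plaw (a + b) τ - ∫ p, F p ∂plaw a τ₁| ≤ C * b := by
  rw [plaw_mix hmix hF hs hb]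
  have hm : Measurable fun q : PL T × PL T => F (PL.app q.1 q.2) := hF.comp measurable_app
  have hi : ∀ p, Integrable (fun q => F (PL.app p q)) (plaw b τ₂) := fun p =>
    (((integrable_len b τ₂).const_mul C).add (integrable_const |F p|)).mono'
      (hm.comp measurable_prodMk_left).aestronglyMeasurable (ae_of_all _ fun q => by
        have := hC p q
        simp only [Pi.add_apply, Real.norm_eq_abs]
        linarith [abs_sub_abs_le_abs_sub (F (PL.app p q)) (F p)])
  have hp : ∀ p, |∫ q, F (PL.app p q) ∂plaw b τ₂ - F p| ≤ C * b := fun p => by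
    have e : ∫ q, F (PL.app p q) ∂plaw b τ₂ - F p = ∫ q, (F (PL.app p q) - F p) ∂plaw b τ₂ := by
      rw [integral_sub (hi p) (integrable_const _)]
      simp
    rw [e]
    refine (abs_integral_le_integral_abs.trans (integral_mono_of_nonneg
      (ae_of_all _ fun _ => abs_nonneg _) ((integrable_len b τ₂).const_mul C)
      (ae_of_all _ (hC p)))).trans_eq ?_
    rw [integral_const_mul, integral_len]
  have hiF := integrable_plaw (c := a) (τ := τ₁) hF hb
  have hiI : Integrable (fun p => ∫ q, F (PL.app p q) ∂plaw b τ₂) (plaw a τ₁) :=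
    (hiF.norm.add (integrable_const (C * b))).mono'
      hm.stronglyMeasurable.integral_prod_right'.aestronglyMeasurable (ae_of_all _ fun p => by
        have := hp p
        simp only [Pi.add_apply, Real.norm_eq_abs]
        linarith [abs_sub_abs_le_abs_sub (∫ q, F (PL.app p q) ∂plaw b τ₂) (F p)])
  rw [← integral_sub hiI hiF]
  exact abs_mean_le hp

/-- Independent lists of the same law unite to one list. -/
theorem plaw_add (a b : ℝ≥0) (hF : Measurable F) (hs : PL.Sym F)
    (hb : ∀ p, |F p| ≤ A * ((p.1 : ℝ) + 1) ^ n) :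
    ∫ p, F p ∂plaw (a + b) τ = ∫ p, ∫ q, F (PL.app p q) ∂plaw b τ ∂plaw a τ :=
  plaw_mix (by rw [← add_smul, ENNReal.coe_add]) hF hs hb

/-- A change of the mean changes the integral by the mean number of the elements added. -/
theorem plaw_mean_le (a b : ℝ≥0) (hF : Measurable F) (hs : PL.Sym F)
    (hb : ∀ p, |F p| ≤ A * ((p.1 : ℝ) + 1) ^ n) {C : ℝ}
    (hC : ∀ p q, |F (PL.app p q) - F p| ≤ C * q.1) :
    |∫ p, F p ∂plaw a τ - ∫ p, F p ∂plaw b τ| ≤ C * |(a : ℝ) - b| := by
  rcases le_total b a with h | h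
  · obtain ⟨d, rfl⟩ := le_iff_exists_add.1 h
    simpa using plaw_mix_le (b := d) (by rw [← add_smul, ENNReal.coe_add]) hF hs hb hC
  · obtain ⟨d, rfl⟩ := le_iff_exists_add.1 h
    rw [abs_sub_comm]
    simpa using plaw_mix_le (b := d) (by rw [← add_smul, ENNReal.coe_add]) hF hs hb hC

theorem integral_lmap {g : T → T'} (hg : Measurable g) (c : ℝ≥0) {G : PL T' → ℝ} (hG : Measurable G) :
    ∫ p, G p ∂plaw c (τ.map g) = ∫ p, G (lmap g p) ∂plaw c τ := by
  rw [plaw_map hg, integral_map (measurable_lmap hg).aemeasurable hG.aestronglyMeasurable]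

/-- The list of pairs. -/
def zipPL (p : PL T) (w : Fin p.1 → T') : PL (T × T') := ⟨p.1, fun i => (p.2 i, w i)⟩

/-- Independent second coordinates may be drawn after the list. -/
theorem plaw_prod (c : ℝ≥0) (ρ : Measure T') [IsProbabilityMeasure ρ] {G : PL (T × T') → ℝ}
    (hG : Measurable G) (hb : ∀ p, |G p| ≤ A * ((p.1 : ℝ) + 1) ^ n) :
    ∫ p, G p ∂plaw c (τ.prod ρ) =
      ∫ p : PL T, ∫ w : Fin p.1 → T', G (zipPL p w) ∂(Measure.pi fun _ => ρ) ∂plaw c τ := by
  have hk : ∀ k, Measurable fun q : (Fin k → T) × (Fin k → T') => G (zipPL ⟨k, q.1⟩ q.2) := fun k =>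
    hG.comp ((measurable_mk k).comp (measurable_pi_lambda _ fun i =>
      ((measurable_pi_apply i).comp measurable_fst).prodMk
        ((measurable_pi_apply i).comp measurable_snd)))
  have hm : Measurable fun p : PL T => ∫ w : Fin p.1 → T', G (zipPL p w) ∂(Measure.pi fun _ => ρ) :=
    measurable_pl fun k =>
      ((hk k).stronglyMeasurable.integral_prod_right' (ν := Measure.pi fun _ : Fin k => ρ)).measurable
  have hmb : ∀ p : PL T, |∫ w : Fin p.1 → T', G (zipPL p w) ∂(Measure.pi fun _ => ρ)| ≤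
      A * ((p.1 : ℝ) + 1) ^ n := fun p =>
    abs_mean_le fun w => hb (zipPL p w)
  rw [← (hasSum_plaw hG (integrable_plaw hG hb)).tsum_eq,
    ← (hasSum_plaw hm (integrable_plaw hm hmb)).tsum_eq]
  refine tsum_congr fun k => congrArg (pw c k * ·) ?_
  have hmp := (measurePreserving_arrowProdEquivProdArrow T T' (Fin k) (fun _ => τ) (fun _ => ρ)).symm
  rw [← hmp.integral_comp', integral_prod]
  · rfl
  · exact (integrable_const (A * ((k : ℝ) + 1) ^ n)).mono' (hG.comp ((measurable_mk k).comp
      (MeasurableEquiv.measurable _))).aestronglyMeasurable (ae_of_all _ fun q => hb _)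

/-- The union of a family of lists, tagged by the index. -/
def tags : (M : ℕ) → (Fin M → PL T) → PL (Fin M × T)
  | 0, _ => ⟨0, Fin.elim0⟩
  | M + 1, p => PL.app (lmap (fun t => (0, t)) (p 0))
      (lmap (fun x => (x.1.succ, x.2)) (tags M (Fin.tail p)))

omit [MeasurableSpace T] in
theorem app_empty {G : PL T → ℝ} (hG : PL.Sym G) (p : PL T) (q : PL T) (hq : q.1 = 0) :
    G (PL.app p q) = G p := by
  obtain ⟨i, v⟩ := p
  obtain ⟨j, w⟩ := q
  obtain rfl : j = 0 := hq
  refine Sym.eq_equiv hG (finCongr (Nat.add_zero i)) fun a => ?_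
  induction a using Fin.addCases with
  | left a => exact Fin.append_left v w a
  | right a => exact a.elim0

theorem integrable_len_pow (a : ℝ≥0) (τ : Measure T) [IsProbabilityMeasure τ] (M : ℕ) (A : ℝ)
    (n : ℕ) : Integrable (fun p : Fin M → PL T => A * ∏ s, (((p s).1 : ℝ) + 1) ^ n)
      (Measure.pi fun _ => plaw a τ) := by
  refine (Integrable.fintype_prod (μ := fun _ : Fin M => plaw a τ)
    (f := fun _ (q : PL T) => ((q.1 : ℝ) + 1) ^ n) fun _ => ?_).const_mul A
  exact integrable_plaw (A := 1) (n := n) (measurable_pl fun k =>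
    measurable_const (a := ((k : ℝ) + 1) ^ n)) fun q => by simp [abs_of_nonneg, add_nonneg]

theorem len_le_prod (M : ℕ) (f : Fin M → ℕ) :
    ((∑ s, f s : ℕ) : ℝ) + 1 ≤ ∏ s, ((f s : ℝ) + 1) := by
  induction M with
  | zero => simp
  | succ M ih =>
    rw [Fin.sum_univ_succ, Fin.prod_univ_succ]
    exact (add_one_le_mul _ _).trans (mul_le_mul_of_nonneg_left (ih _) (by positivity))

omit [MeasurableSpace T] in
/-- A sum over the union. -/
theorem sum_tags : ∀ (M : ℕ) (p : Fin M → PL T) (g : Fin M × T → ℝ),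
    ∑ i, g ((tags M p).2 i) = ∑ s, ∑ j, g (s, (p s).2 j)
  | 0, p, g => (Finset.sum_eq_zero fun i _ => Fin.elim0 i).trans (by simp)
  | M + 1, p, g => by
    change ∑ i : Fin ((p 0).1 + (tags M (Fin.tail p)).1), g (Fin.append _ _ i) = _
    rw [Fin.sum_univ_add, Fin.sum_univ_succ]
    congr 1
    · simp [lmap]
    · simp only [lmap, Fin.append_right, Function.comp]
      exact sum_tags M (Fin.tail p) fun x => g (x.1.succ, x.2)

omit [MeasurableSpace T] in
/-- The number of elements of the union. -/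
theorem len_tags (M : ℕ) (p : Fin M → PL T) : (tags M p).1 = ∑ s, (p s).1 := by
  have h := sum_tags M p fun _ => (1 : ℝ)
  simp only [Finset.sum_const, Finset.card_univ, Fintype.card_fin, nsmul_eq_mul, mul_one] at h
  exact_mod_cast h

theorem measurable_tags : ∀ M : ℕ, Measurable (tags (T := T) M)
  | 0 => measurable_const
  | M + 1 => measurable_app.comp
      (((measurable_lmap measurable_prodMk_left).comp (measurable_pi_apply 0)).prodMk
        ((measurable_lmap ((measurable_of_countable Fin.succ).comp measurable_fst |>.prodMk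
          measurable_snd)).comp ((measurable_tags M).comp
            (measurable_pi_lambda _ fun i => measurable_pi_apply i.succ))))

/-- The uniform law on an index, times a law. -/
theorem unif_prod (M : ℕ) (τ : Measure T) [IsProbabilityMeasure τ] :
    (unif (Fin M)).prod τ = (M : ℝ≥0∞)⁻¹ • ∑ i : Fin M, τ.map (Prod.mk i) := by
  refine (Measure.ext fun s hs => ?_)
  rw [Measure.prod_apply hs, unif, lintegral_smul_measure, lintegral_count, tsum_fintype]
  simp only [Measure.smul_apply, Measure.coe_finsetSum, Finset.sum_apply,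
    Measure.map_apply measurable_prodMk_left hs, Fintype.card_fin, smul_eq_mul]
  rcases M with - | M
  · simp
  · simp [ENNReal.smul_def, ENNReal.coe_inv]

theorem map_sum' {ι : Type} (s : Finset ι) (m : ι → Measure T) {g : T → T'} (hg : Measurable g) :
    (∑ i ∈ s, m i).map g = ∑ i ∈ s, (m i).map g := by
  refine Measure.ext fun u hu => ?_
  simp [Measure.map_apply hg hu, Measure.coe_finsetSum]

theorem unif_prod_succ (M : ℕ) (a : ℝ≥0) (τ : Measure T) [IsProbabilityMeasure τ] :
    ((a + ((M + 1 : ℕ) : ℝ≥0) * a : ℝ≥0) : ℝ≥0∞) • (unif (Fin (M + 2))).prod τ =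
      (a : ℝ≥0∞) • τ.map (Prod.mk 0) + ((((M + 1 : ℕ) : ℝ≥0) * a : ℝ≥0) : ℝ≥0∞) •
        ((unif (Fin (M + 1))).prod τ).map fun x : Fin (M + 1) × T => (x.1.succ, x.2) := by
  rw [unif_prod, unif_prod, Measure.map_smul,
    map_sum' (g := fun x : Fin (M + 1) × T => (x.1.succ, x.2)) _ _
      (((measurable_of_countable Fin.succ).comp measurable_fst).prodMk measurable_snd),
    smul_smul, smul_smul, Fin.sum_univ_succ, smul_add]
  congr 1
  · congr 1
    push_cast
    rw [show (a : ℝ≥0∞) + ((M : ℝ≥0∞) + 1) * a = a * ((M : ℝ≥0∞) + 2) by ring, mul_assoc,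
      ENNReal.mul_inv_cancel (by simp) (by finiteness), mul_one]
  · congr 1
    · push_cast
      rw [show (a : ℝ≥0∞) + ((M : ℝ≥0∞) + 1) * a = a * ((M : ℝ≥0∞) + 2) by ring, mul_assoc,
        ENNReal.mul_inv_cancel (by simp) (by finiteness), mul_one, mul_comm ((M : ℝ≥0∞) + 1),
        mul_assoc, ENNReal.mul_inv_cancel (by simp) (by finiteness), mul_one]
    · exact Finset.sum_congr rfl fun i _ => by
        rw [Measure.map_map (g := fun x : Fin (M + 1) × T => (x.1.succ, x.2))
          (((measurable_of_countable Fin.succ).comp measurable_fst).prodMk measurable_snd)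
          measurable_prodMk_left]
        rfl

omit [MeasurableSpace T] [MeasurableSpace T'] in
theorem Sym.lmap {G : PL T' → ℝ} (hG : PL.Sym G) (g : T → T') : PL.Sym fun p => G (lmap g p) :=
  fun k e v => hG k e (g ∘ v)

omit [MeasurableSpace T] in
theorem Sym.app_right {G : PL T → ℝ} (hG : PL.Sym G) (p : PL T) :
    PL.Sym fun q => G (PL.app p q) := by
  intro k e v
  obtain ⟨i, u⟩ := p
  refine Sym.eq_equiv hG (finSumFinEquiv.symm.trans
    (((Equiv.refl (Fin i)).sumCongr e).trans finSumFinEquiv)) fun a => ?_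
  show Fin.append u (v ∘ e) a = Fin.append u v _
  induction a using Fin.addCases <;> simp

/-- A Poisson list with a uniform tag consists of independent lists for the tags. -/
theorem plaw_tags : ∀ (M : ℕ) (a : ℝ≥0) (A : ℝ) (n : ℕ) (G : PL (Fin (M + 1) × T) → ℝ), Measurable G → PL.Sym G →
    (∀ p, |G p| ≤ A * ((p.1 : ℝ) + 1) ^ n) →
    ∫ p, G p ∂plaw (((M + 1 : ℕ) : ℝ≥0) * a) ((unif (Fin (M + 1))).prod τ) =
      ∫ p : Fin (M + 1) → PL T, G (tags (M + 1) p) ∂(Measure.pi fun _ => plaw a τ)
  | 0, a, A, n, G, hG, hs, hb => by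
    have e : ∀ p : Fin 1 → PL T, G (tags 1 p) = G (lmap (fun t => (0, t)) (p 0)) := fun p =>
      app_empty hs _ _ rfl
    simp only [Nat.zero_add, Nat.cast_one, one_mul, e]
    rw [unif_prod]
    simp [Finset.univ_unique]
    rw [integral_lmap measurable_prodMk_left _ hG]
    exact (integral_comp_eval (μ := fun _ : Fin 1 => plaw a τ)
      (hG.comp (measurable_lmap measurable_prodMk_left)).aestronglyMeasurable).symm
  | M + 1, a, A, n, G, hG, hs, hb => by
    have hsucc : Measurable fun x : Fin (M + 1) × T => (x.1.succ, x.2) :=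
      ((measurable_of_countable Fin.succ).comp measurable_fst).prodMk measurable_snd
    have : IsProbabilityMeasure (unif (Fin (M + 1))) := unif_prob
    have : IsProbabilityMeasure (((unif (Fin (M + 1))).prod τ).map
        fun x : Fin (M + 1) × T => (x.1.succ, x.2)) :=
      Measure.isProbabilityMeasure_map hsucc.aemeasurable
    have : IsProbabilityMeasure (τ.map (Prod.mk (0 : Fin (M + 2)))) :=
      Measure.isProbabilityMeasure_map measurable_prodMk_left.aemeasurable
    have : IsProbabilityMeasure (unif (Fin (M + 2))) := unif_prob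
    rw [show (((M + 1 + 1 : ℕ) : ℝ≥0) * a) = a + ((M + 1 : ℕ) : ℝ≥0) * a by push_cast; ring,
      plaw_mix (unif_prod_succ M a τ) hG hs hb]
    have hA : 0 ≤ A := nonneg_of_mul_nonneg_left ((abs_nonneg _).trans (hb ⟨0, Fin.elim0⟩))
      (by positivity)
    have hm2 : Measurable fun q : PL (Fin (M + 2) × T) × PL (Fin (M + 2) × T) =>
        G (PL.app q.1 q.2) := hG.comp measurable_app
    rw [integral_lmap measurable_prodMk_left _ hm2.stronglyMeasurable.integral_prod_right'.measurable]
    have hin : ∀ p : PL T, ∫ q, G (PL.app (lmap (Prod.mk 0) p) q) ∂plaw (((M + 1 : ℕ) : ℝ≥0) * a)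
        (((unif (Fin (M + 1))).prod τ).map fun x : Fin (M + 1) × T => (x.1.succ, x.2)) =
        ∫ q : Fin (M + 1) → PL T, G (tags (M + 2) (Fin.cons p q))
          ∂(Measure.pi fun _ => plaw a τ) := fun p => by
      rw [integral_lmap hsucc _ (G := fun q => G (PL.app (lmap (Prod.mk 0) p) q))
        (hm2.comp measurable_prodMk_left)]
      refine plaw_tags M a (A * ((p.1 : ℝ) + 1) ^ n) n _ (hm2.comp (measurable_prodMk_left.comp
        (measurable_lmap hsucc))) (Sym.lmap (Sym.app_right hs _) _) fun q => ?_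
      · refine (hb _).trans ?_
        rw [mul_assoc, ← mul_pow]
        exact mul_le_mul_of_nonneg_left (pow_le_pow_left₀ (by positivity) (add_one_le_mul p.1 q.1) _) hA
    simp only [hin]
    have hmp := (measurePreserving_piFinSuccAbove (fun _ : Fin (M + 2) => plaw a τ) 0).symm
    rw [← hmp.integral_comp' (g := fun p => G (tags (M + 2) p)), integral_prod]
    · simp [MeasurableEquiv.piFinSuccAbove_symm_apply, Fin.consEquiv]
    · refine Integrable.mono' ?_ ((hG.comp (measurable_tags _)).comp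
        (MeasurableEquiv.measurable _)).aestronglyMeasurable (ae_of_all _ fun q => (hb _).trans
          (mul_le_mul_of_nonneg_left (((pow_le_pow_left₀ (by positivity)
            ((congrArg (fun l : ℕ => (l : ℝ) + 1) (len_tags _ _)).le.trans (len_le_prod _ _)) n)).trans_eq
              (Finset.prod_pow _ _ _).symm) hA))
      exact (hmp.integrable_comp_emb
        (g := fun p : Fin (M + 2) → PL T => A * ∏ s, (((p s).1 : ℝ) + 1) ^ n)
        (MeasurableEquiv.measurableEmbedding _)).2 (integrable_len_pow a τ (M + 2) A n)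

end Vale.Agent.P168.CavBound
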