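import Vale.Agent.P168.CavBound.Gen

/-!
P168: the free energy of the perturbed system against the pressure.
-/

open MeasureTheory ProbabilityTheory Filter Topology
open scoped NNReal ENNReal

noncomputable section

namespace Vale.Agent.P168.CavBound

open P157.Casc (mlev wgt Node Leaf casW casX cst)

variable {Kc N K n : ℕ}

/-- The logarithm of the partition function of clauses and fields. -/
def bZ (b : Base Kc N) : ℝ := Real.log (∑ σ : Fin N → Bool, Real.exp (ham b.1.2 b.2 σ))

theorem measurable_bZ : Measurable (bZ (Kc := Kc) (N := N)) :=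
  Real.measurable_log.comp (Finset.measurable_sum Finset.univ
    (f := fun (σ : Fin N → Bool) (b : Base Kc N) => Real.exp (ham b.1.2 b.2 σ))
    fun σ _ => Real.measurable_exp.comp (measurable_ham σ))

theorem abs_bZ_cl {L : ℝ} (hL : 0 ≤ L) (b : Base Kc N) :
    |bZ (clB L b)| ≤ N * Real.log 2 + L * ((b.1.1 : ℝ) + N) := by
  refine (abs_log_sum_exp_le fun σ => abs_ham_le hL b σ).trans_eq ?_
  simp [Real.log_pow]

/-- Without its perturbing clauses the system factorises. -/
theorem abs_lsum_sub_bZ [NeZero n] (L : ℝ) (x : ℕ → ℝ) (q : Env Kc N K n) :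
    |lsum L x q - (wlog q.2.1 + bZ (clB L q.1.1))| ≤ 3 * q.1.2.1 := by
  have h := log_sum_shift (w := fun st : St N K n => wgt (mlev K) (posW q.2.1) st.1)
    (f := fun st => ham (clB L q.1.1).1.2 (clB L q.1.1).2 st.2 +
      pertE (clX x) q.1.2 (P157.Casc.path q.2.2 st.1) st.2)
    (g := fun st => ham (clB L q.1.1).1.2 (clB L q.1.1).2 st.2)
    (fun st => P157.Casc.wgt_pos _ (posW_pos _) _) (D := 3 * q.1.2.1) fun st => by
      simpa using abs_pertE_le x q.1.2 (P157.Casc.path q.2.2 st.1) st.2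
  have e : Real.log (∑ st : St N K n, wgt (mlev K) (posW q.2.1) st.1 *
      Real.exp (ham (clB L q.1.1).1.2 (clB L q.1.1).2 st.2)) = wlog q.2.1 + bZ (clB L q.1.1) := by
    simp only [Fintype.sum_prod_type]
    rw [← Finset.sum_mul_sum, Real.log_mul
      (Finset.sum_pos (fun α _ => P157.Casc.wgt_pos _ (posW_pos _) _) Finset.univ_nonempty).ne'
      (Finset.sum_pos (fun σ _ => Real.exp_pos _) Finset.univ_nonempty).ne']
    rfl
  rw [e] at h
  exact h

theorem integral_wlog : ∫ W, wlog W ∂casW (mlev K) n = cst (mlev K) n :=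
  integral_congr_ae (posW_ae.mono fun W hW => by simp only [wlog, hW])

/-- The mean logarithm of the partition function is `N` times the pressure. -/
theorem integral_bZ [NeZero N] (μ : Measure (Clause Kc)) (ν : Measure ℝ) [IsProbabilityMeasure μ]
    [IsProbabilityMeasure ν] {L : ℝ} (hL : 0 ≤ L) (hμ : ∀ᵐ θ ∂μ, ∀ σ, |θ σ| ≤ L)
    (hν : ∀ᵐ h ∂ν, |h| ≤ L) (lam : ℝ) (s : ℝ≥0) :
    Integrable (fun z : Base Kc N × Pert N => bZ (clB L z.1))
        (rootLaw μ ν N (lam * N).toNNReal s) ∧
      ∫ z, bZ (clB L z.1) ∂rootLaw μ ν N (lam * N).toNNReal s = N * pressure lam μ ν N := by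
  set c : ℝ≥0 := (lam * N).toNNReal
  have hm : Measurable fun z : Base Kc N × Pert N => bZ (clB L z.1) :=
    (measurable_bZ.comp (measurable_clB L)).comp measurable_fst
  have hi : Integrable (fun z : Base Kc N × Pert N => bZ (clB L z.1)) (rootLaw μ ν N c s) :=
    (integrable_env μ ν (L := L) c s).mono' hm.aestronglyMeasurable (ae_of_all _ fun z => by
      rw [Real.norm_eq_abs, env]
      linarith [abs_bZ_cl hL z.1, Nat.cast_nonneg (α := ℝ) z.2.1])
  refine ⟨hi, ?_⟩
  have he : ∫ z, bZ (clB L z.1) ∂rootLaw μ ν N c s = ∫ z, bZ z.1 ∂rootLaw μ ν N c s :=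
    integral_congr_ae ((ae_clZ μ ν c s hμ hν).mono fun z hz => by
      have := congrArg Prod.fst hz
      simp only [clZ] at this
      show bZ (clB L z.1) = bZ z.1
      rw [this])
  have hi' : Integrable (fun z : Base Kc N × Pert N => bZ z.1) (rootLaw μ ν N c s) :=
    hi.congr ((ae_clZ μ ν c s hμ hν).mono fun z hz => by
      have := congrArg Prod.fst hz
      simp only [clZ] at this
      show bZ (clB L z.1) = bZ z.1
      rw [this])
  rw [he]
  unfold rootLaw at hi' ⊢
  have hb := hi'.integral_prod_left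
  simp only [integral_const, probReal_univ, one_smul] at hb
  rw [integral_fun_fst (fun b : Base Kc N => bZ b), probReal_univ, one_smul, integral_prod _ hb]
  rw [← (hasSum_plaw (measurable_bZ.stronglyMeasurable.integral_prod_right'
      (ν := Measure.pi fun _ : Fin N => ν)).measurable hb.integral_prod_left).tsum_eq]
  rw [pressure, ← mul_assoc, mul_inv_cancel₀ (Nat.cast_ne_zero.2 (NeZero.ne N)), one_mul,
    integral_poissonMeasure]
  simp only [pw_eq, smul_eq_mul, bZ]
  rfl

/-- The free energy of the perturbed system is `N` times the pressure up to the perturbation. -/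
theorem lsum_pressure [NeZero N] [NeZero n] (μ : Measure (Clause Kc)) (ν : Measure ℝ)
    [IsProbabilityMeasure μ] [IsProbabilityMeasure ν] {L : ℝ} (hL : 0 ≤ L)
    (hμ : ∀ᵐ θ ∂μ, ∀ σ, |θ σ| ≤ L) (hν : ∀ᵐ h ∂ν, |h| ≤ L) (lam : ℝ) (s : ℝ≥0) (x : ℕ → ℝ) :
    |(∫ q, lsum L x q ∂sysLaw μ ν N (lam * N).toNNReal s K n) - cst (mlev K) n -
      N * pressure lam μ ν N| ≤ 3 * s := by
  set c : ℝ≥0 := (lam * N).toNNReal
  obtain ⟨hb, eb⟩ := integral_bZ (N := N) μ ν hL hμ hν lam s
  have i1 := (integrable_fix (K := K) (n := n) μ ν (N := N) hL c s x).1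
  have hw : Integrable (fun wx : (Node K n → ℝ) × (Node K n → Lab) => wlog wx.1)
      ((casW (mlev K) n).prod (casX K n labLaw)) :=
    (integrable_wlog (K := K) (n := n)).comp_fst (casX K n labLaw)
  have i2 : Integrable (fun q : Env Kc N K n => wlog q.2.1) (sysLaw μ ν N c s K n) :=
    hw.comp_snd (rootLaw μ ν N c s)
  have i3 : Integrable (fun q : Env Kc N K n => bZ (clB L q.1.1)) (sysLaw μ ν N c s K n) :=
    hb.comp_fst ((casW (mlev K) n).prod (casX K n labLaw))
  have hl : Integrable (fun p : Pert N => (p.1 : ℝ)) (plaw s (kindLaw.prod (unif (Fin N)))) :=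
    integrable_len s _
  have i4 : Integrable (fun q : Env Kc N K n => 3 * (q.1.2.1 : ℝ)) (sysLaw μ ν N c s K n) :=
    ((hl.comp_snd ((plaw c (μ.prod (unif (Fin Kc → Fin N)))).prod
      (Measure.pi fun _ : Fin N => ν))).comp_fst ((casW (mlev K) n).prod (casX K n labLaw))).const_mul 3
  have e2 : ∫ q, wlog q.2.1 ∂sysLaw μ ν N c s K n = cst (mlev K) n := by
    unfold sysLaw
    rw [integral_fun_snd (fun wx : (Node K n → ℝ) × (Node K n → Lab) => wlog wx.1), probReal_univ,
      one_smul, integral_fun_fst (fun W : Node K n → ℝ => wlog W), probReal_univ, one_smul,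
      integral_wlog]
  have e3 : ∫ q, bZ (clB L q.1.1) ∂sysLaw μ ν N c s K n = N * pressure lam μ ν N := by
    unfold sysLaw
    rw [integral_fun_fst (fun z : Base Kc N × Pert N => bZ (clB L z.1)), probReal_univ, one_smul, eb]
  have e4 : ∫ q : Env Kc N K n, 3 * (q.1.2.1 : ℝ) ∂sysLaw μ ν N c s K n = 3 * s := by
    unfold sysLaw rootLaw
    rw [integral_const_mul, integral_fun_fst (fun z : Base Kc N × Pert N => (z.2.1 : ℝ)),
      probReal_univ, one_smul, integral_fun_snd (fun p : Pert N => (p.1 : ℝ)), probReal_univ,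
      one_smul, integral_len]
  have key : |∫ q, (lsum L x q - (wlog q.2.1 + bZ (clB L q.1.1))) ∂sysLaw μ ν N c s K n| ≤ 3 * s :=
    (abs_integral_le_integral_abs.trans (integral_mono (i1.sub (i2.add i3)).abs i4
      fun q => abs_lsum_sub_bZ L x q)).trans_eq e4
  have i23 : Integrable (fun q : Env Kc N K n => wlog q.2.1 + bZ (clB L q.1.1))
      (sysLaw μ ν N c s K n) := i2.add i3
  rw [integral_sub i1 i23, integral_add i2 i3, e2, e3] at key
  rw [sub_sub]
  exact key

end Vale.Agent.P168.CavBound
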