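import Vale.Agent.P168.CavBound.DecU
import Vale.Agent.P168.CavBound.Press

/-!
P168: the mean free energy over the parameters, its limit in the degree of the cascade, and its
increment over new sites.
-/

open MeasureTheory ProbabilityTheory Filter Topology
open scoped NNReal ENNReal

noncomputable section

namespace Vale.Agent.P168.CavBound

open P157.Casc (mlev logS cst casW casX)

variable {Kc K N n : ℕ}

/-- The centred free energy at the pressure's number of clauses, averaged over the parameters. -/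
def meanE (μ : Measure (Clause Kc)) (ν : Measure ℝ) (L lam : ℝ) (K n N : ℕ) : ℝ :=
  (∫ x, ∫ q, lsum L x q ∂sysLaw μ ν N (lam * N).toNNReal (pertS N) K n ∂xLaw) - cst (mlev K) n

/-- The gain of the cavity factors at given parameters. -/
def cavObj (μ : Measure (Clause Kc)) (ν : Measure ℝ) (L lam : ℝ) (M K n N : ℕ) (x : ℕ → ℝ) : ℝ :=
  objF ((uLaw μ ν lam M).prod (siteLaw N)) μ ν N (cOld lam Kc N M).toNNReal (pertS N) K n L (fU L) x -
    objF ((vLaw μ lam M).prod (siteLaw N)) μ ν N (cOld lam Kc N M).toNNReal (pertS N) K n L (fV L) x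

/-- The bound of the gain. -/
def cavCap (μ : Measure (Clause Kc)) (ν : Measure ℝ) (L lam : ℝ) (M : ℕ) : ℝ :=
  (∫ u, bdU L u ∂uLaw μ ν lam M) + ∫ v : PL (Clause Kc), L * (v.1 : ℝ) ∂vLaw μ lam M

/-- The error of one step. -/
def stepErr (L lam : ℝ) (Kc M N : ℕ) : ℝ :=
  4 * L * (lam * ((Kc : ℝ) * M) ^ 2 / N) + 9 * (M / (N : ℝ) ^ (1 / 4 : ℝ))

theorem tendsto_stepErr (L lam : ℝ) (Kc M : ℕ) :
    Tendsto (stepErr L lam Kc M) atTop (𝓝 0) := by
  have h1 := (tendsto_const_div_atTop_nhds_zero_nat (lam * ((Kc : ℝ) * M) ^ 2)).const_mul (4 * L)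
  have h2 := (((tendsto_rpow_neg_atTop (show (0 : ℝ) < 1 / 4 by norm_num)).comp
    tendsto_natCast_atTop_atTop).const_mul (M : ℝ)).const_mul 9
  have h := h1.add h2
  simp only [mul_zero, add_zero] at h
  refine h.congr fun N => ?_
  simp [stepErr, Real.rpow_neg, div_eq_mul_inv]

theorem pertS_coe (N : ℕ) : (pertS N : ℝ) = (N : ℝ) ^ (3 / 4 : ℝ) := by
  rw [pertS, Real.coe_toNNReal _ (Real.rpow_nonneg (Nat.cast_nonneg _) _)]

theorem pertS_div (N : ℕ) [NeZero N] : (pertS N : ℝ) / N = ((N : ℝ) ^ (1 / 4 : ℝ))⁻¹ := by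
  have hN : (0 : ℝ) < N := by exact_mod_cast NeZero.pos N
  rw [pertS_coe, div_eq_iff hN.ne', inv_mul_eq_div, eq_div_iff (by positivity), ← Real.rpow_add hN]
  norm_num

theorem pertS_step (N M : ℕ) [NeZero N] :
    6 * (pertS (N + M) : ℝ) * ((M : ℝ) / (N + M)) + 3 * |(pertS (N + M) : ℝ) - pertS N| ≤
      9 * (M / (N : ℝ) ^ (1 / 4 : ℝ)) := by
  have hN : (0 : ℝ) < N := by exact_mod_cast NeZero.pos N
  have : NeZero (N + M) := ⟨(Nat.add_pos_left (NeZero.pos N) M).ne'⟩
  have h1 : (pertS (N + M) : ℝ) * ((M : ℝ) / (N + M)) ≤ M / (N : ℝ) ^ (1 / 4 : ℝ) := by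
    have e := pertS_div (N + M)
    push_cast at e
    calc (pertS (N + M) : ℝ) * ((M : ℝ) / (N + M)) = M * ((pertS (N + M) : ℝ) / (N + M)) := by ring
      _ = M / ((N : ℝ) + M) ^ (1 / 4 : ℝ) := by rw [e, ← div_eq_mul_inv]
      _ ≤ _ := div_le_div_of_nonneg_left (Nat.cast_nonneg _) (by positivity)
          (Real.rpow_le_rpow hN.le (by simp) (by norm_num))
  have h2 : |(pertS (N + M) : ℝ) - pertS N| ≤ M / (N : ℝ) ^ (1 / 4 : ℝ) := by
    have h := pertS_diff N M
    rw [pow_zero, mul_one] at h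
    rw [pertS_coe, pertS_coe, Nat.cast_add]
    exact h
  linarith

section Fixed

variable [NeZero N] (μ : Measure (Clause Kc)) (ν : Measure ℝ) [IsProbabilityMeasure μ]
  [IsProbabilityMeasure ν]

theorem integrable_lsum_x [NeZero n] {L : ℝ} (hL : 0 ≤ L) (c s : ℝ≥0) :
    Integrable (fun x => ∫ q, lsum L x q ∂sysLaw μ ν N c s K n) xLaw :=
  (integrable_joint (K := K) (n := n) μ ν hL c s xLaw).1.integral_prod_left

theorem integral_logS [NeZero n] {L : ℝ} (hL : 0 ≤ L) (c s : ℝ≥0) :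
    ∫ z, ∫ W, ∫ ξ, logS (mlev K) (Y0 (clX z.1) (clZ L z.2)) W ξ
        ∂casX K n labLaw ∂casW (mlev K) n ∂xLaw.prod (rootLaw μ ν N c s) =
      ∫ x, ∫ q, lsum L x q ∂sysLaw μ ν N c s K n ∂xLaw := by
  have hi := P157.Casc.integrable_logS (P157.Casc.grid_mlev K) (NeZero.pos n)
    (conv_sys μ ν (K := K) (N := N) hL c s xLaw)
  rw [← integral_prod _ (integrable_joint (K := K) (n := n) μ ν hL c s xLaw).1]
  calc ∫ z, ∫ W, ∫ ξ, logS (mlev K) (Y0 (clX z.1) (clZ L z.2)) W ξ
        ∂casX K n labLaw ∂casW (mlev K) n ∂xLaw.prod (rootLaw μ ν N c s)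
      = ∫ z, ∫ w, logS (mlev K) (Y0 (clX z.1) (clZ L z.2)) w.1 w.2
          ∂(casW (mlev K) n).prod (casX K n labLaw) ∂xLaw.prod (rootLaw μ ν N c s) :=
        integral_congr_ae (hi.prod_right_ae.mono fun z hz => (integral_prod _ hz).symm)
    _ = ∫ p, logS (mlev K) (Y0 (clX p.1.1) (clZ L p.1.2)) p.2.1 p.2.2
          ∂(xLaw.prod (rootLaw μ ν N c s)).prod ((casW (mlev K) n).prod (casX K n labLaw)) :=
        (integral_prod _ hi).symm
    _ = ∫ p, lsum L p.1.1 (p.1.2, p.2)
          ∂(xLaw.prod (rootLaw μ ν N c s)).prod ((casW (mlev K) n).prod (casX K n labLaw)) := by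
        refine integral_congr_ae ?_
        filter_upwards [Measure.quasiMeasurePreserving_snd.ae (Measure.quasiMeasurePreserving_fst.ae
          (posW_ae (K := K) (n := n)))] with p hp
        rw [lsum_eq, hp]
    _ = _ := (measurePreserving_prodAssoc xLaw (rootLaw μ ν N c s)
          ((casW (mlev K) n).prod (casX K n labLaw))).integral_comp' fun u => lsum L u.1 u.2

theorem exists_lim {L : ℝ} (hL : 0 ≤ L) (lam : ℝ) :
    ∃ b, Tendsto (fun n => meanE μ ν L lam K n N) atTop (𝓝 b) := by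
  refine ⟨_, Tendsto.congr' ?_ (P157.Casc.casc_limit (P157.Casc.grid_mlev K)
    (conv_sys μ ν (K := K) (N := N) hL (lam * N).toNNReal (pertS N) xLaw) tendsto_id)⟩
  filter_upwards [eventually_gt_atTop 0] with k hk
  have : NeZero k := ⟨hk.ne'⟩
  rw [meanE, ← integral_logS μ ν hL (lam * N).toNNReal (pertS N)]
  rfl

variable [NeZero n]

theorem abs_meanE_sub {L : ℝ} (hL : 0 ≤ L) (hμ : ∀ᵐ θ ∂μ, ∀ σ, |θ σ| ≤ L)
    (hν : ∀ᵐ h ∂ν, |h| ≤ L) (lam : ℝ) :
    |meanE μ ν L lam K n N - N * pressure lam μ ν N| ≤ 3 * (pertS N : ℝ) := by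
  have hi := integrable_lsum_x (K := K) (n := n) (N := N) μ ν hL (lam * N).toNNReal (pertS N)
  have e : meanE μ ν L lam K n N - N * pressure lam μ ν N =
      ∫ x, ((∫ q, lsum L x q ∂sysLaw μ ν N (lam * N).toNNReal (pertS N) K n) - cst (mlev K) n -
        N * pressure lam μ ν N) ∂xLaw := by
    rw [meanE, integral_sub (hi.sub' (integrable_const _)) (integrable_const _),
      integral_sub hi (integrable_const _), integral_const, integral_const, probReal_univ, one_smul,
      one_smul]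
  rw [e]
  exact abs_mean_le fun x => lsum_pressure (K := K) (n := n) (N := N) μ ν hL hμ hν lam (pertS N) x

theorem abs_cavObj_le [NeZero Kc] {L : ℝ} (hL : 0 ≤ L) (lam : ℝ) (M : ℕ) (x : ℕ → ℝ) :
    |cavObj μ ν L lam M K n N x| ≤ cavCap μ ν L lam M := by
  have : IsProbabilityMeasure (unif (Fin N)) := unif_prob
  have : IsProbabilityMeasure (siteLaw N) := by unfold siteLaw; infer_instance
  have : IsProbabilityMeasure (unif (Fin Kc)) := unif_prob
  have : IsProbabilityMeasure (uLaw μ ν lam M) := by unfold uLaw; infer_instance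
  have : IsProbabilityMeasure (vLaw μ lam M) := by unfold vLaw; infer_instance
  have hbu : Integrable (bdU (Kc := Kc) (M := M) L) (uLaw μ ν lam M) := by
    refine Integrable.comp_fst (f := fun w : Fin M → PL (Clause Kc × Fin Kc) =>
      ∑ s, (L + Real.log 2 + L * ((w s).1 : ℝ))) ?_ _
    exact integrable_finsetSum _ fun i _ => (integrable_const _).add
      (((measurePreserving_eval (μ := fun _ : Fin M => plaw ((Kc : ℝ) * lam).toNNReal
        (μ.prod (unif (Fin Kc)))) i).integrable_comp_of_integrable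
          (integrable_len _ (μ.prod (unif (Fin Kc))))).const_mul L)
  have hbv : Integrable (fun v : PL (Clause Kc) => L * (v.1 : ℝ)) (vLaw μ lam M) :=
    (integrable_len _ μ).const_mul L
  refine (abs_sub _ _).trans (add_le_add ?_ ?_)
  · refine (abs_objF_le μ ν _ _ L (hbu.comp_fst _) (fun a σ => abs_log_cavU hL a.1 _) x).trans_eq ?_
    rw [integral_fun_fst (fun u => bdU L u), probReal_univ, one_smul]
  · refine (abs_objF_le μ ν _ _ L (hbv.comp_fst _) (fun a σ => abs_log_cavV hL a.1 _) x).trans_eq ?_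
    rw [integral_fun_fst (fun v : PL (Clause Kc) => L * (v.1 : ℝ)), probReal_univ, one_smul]

omit [NeZero n] in
theorem measurable_cavObj [NeZero Kc] (L lam : ℝ) (M : ℕ) :
    Measurable (cavObj μ ν L lam M K n N) := by
  have : IsProbabilityMeasure (unif (Fin N)) := unif_prob
  have : IsProbabilityMeasure (siteLaw N) := by unfold siteLaw; infer_instance
  have : IsProbabilityMeasure (unif (Fin Kc)) := unif_prob
  have : IsProbabilityMeasure (uLaw μ ν lam M) := by unfold uLaw; infer_instance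
  have : IsProbabilityMeasure (vLaw μ lam M) := by unfold vLaw; infer_instance
  exact (measurable_objF μ ν _ _ L (measurable_fU L)).sub (measurable_objF μ ν _ _ L (measurable_fV L))

/-- One step at given parameters. -/
theorem step_at [NeZero Kc] {L : ℝ} (hL : 0 ≤ L) {lam : ℝ} (hlam : 0 < lam) (m : ℕ) (x : ℕ → ℝ) :
    |(∫ q, lsum L x q ∂sysLaw μ ν (N + (m + 1)) (lam * (N + (m + 1) : ℕ)).toNNReal
          (pertS (N + (m + 1))) K n) -
        (∫ q, lsum L x q ∂sysLaw μ ν N (lam * N).toNNReal (pertS N) K n) -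
        cavObj μ ν L lam (m + 1) K n N x| ≤ stepErr L lam Kc (m + 1) N := by
  obtain ⟨⟨ha0, ha1⟩, -, hd, -⟩ := counts (Kc := Kc) (N := N) (M := m + 1) hlam.le (NeZero.pos Kc)
  set a := cOld lam Kc N (m + 1) with ha
  have hK1 : (1 : ℝ) ≤ Kc := by exact_mod_cast NeZero.pos Kc
  have hV := decV (K := K) (n := n) (N := N) (M := m + 1) μ ν hL a.toNNReal (lam * N - a).toNNReal (pertS N)
    lam x
  rw [← Real.toNNReal_add ha0 (by linarith), add_sub_cancel, Real.coe_toNNReal _ (by linarith),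
    Real.coe_toNNReal _ (mul_nonneg (Nat.cast_nonneg _) (mul_nonneg (by linarith) hlam.le))] at hV
  have hV' : L * |lam * N - a - ((m + 1 : ℕ) : ℝ) * (((Kc : ℝ) - 1) * lam)| ≤
      2 * L * (lam * ((Kc : ℝ) * (m + 1 : ℕ)) ^ 2 / N) := by
    refine (mul_le_mul_of_nonneg_left ?_ hL).trans_eq
      (show L * (lam * (2 * ((Kc : ℝ) * (m + 1 : ℕ)) ^ 2) / N) = _ by ring)
    exact le_of_eq_of_le (by congr 1; ring) hd
  have hU := decU (K := K) (n := n) (N := N) μ ν hL hlam (pertS (N + (m + 1))) (pertS N) x m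
  have hp := pertS_step N (m + 1)
  rw [Nat.cast_add N (m + 1)]
  simp only [cavObj, stepErr, ← ha]
  rw [abs_le] at hU hV ⊢
  constructor <;> linarith [hU.1, hU.2, hV.1, hV.2]

/-- One step on the average over the parameters. -/
theorem step_mean [NeZero Kc] {L : ℝ} (hL : 0 ≤ L) {lam : ℝ} (hlam : 0 < lam) (m : ℕ) :
    |meanE μ ν L lam K n (N + (m + 1)) - meanE μ ν L lam K n N -
        ∫ x, cavObj μ ν L lam (m + 1) K n N x ∂xLaw| ≤ stepErr L lam Kc (m + 1) N := by
  have : NeZero (N + (m + 1)) := ⟨by omega⟩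
  have i1 := integrable_lsum_x (K := K) (n := n) (N := N + (m + 1)) μ ν hL
    (lam * (N + (m + 1) : ℕ)).toNNReal (pertS (N + (m + 1)))
  have i2 := integrable_lsum_x (K := K) (n := n) (N := N) μ ν hL (lam * N).toNNReal (pertS N)
  have i3 : Integrable (cavObj μ ν L lam (m + 1) K n N) xLaw :=
    (integrable_const (cavCap μ ν L lam (m + 1))).mono'
      (measurable_cavObj μ ν L lam (m + 1)).aestronglyMeasurable
      (ae_of_all _ fun x => abs_cavObj_le μ ν hL lam (m + 1) x)
  rw [meanE, meanE, sub_sub_sub_cancel_right, ← integral_sub i1 i2, ← integral_sub (i1.sub' i2) i3]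
  exact abs_mean_le fun x => step_at μ ν hL hlam m x

end Fixed

end Vale.Agent.P168.CavBound
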