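import Vale.Agent.P168.CavBound.SeriesLim
import Vale.Agent.P168.CavBound.Step

/-!
P168: the cavity bound.
-/

open MeasureTheory ProbabilityTheory Filter Topology
open scoped NNReal ENNReal

noncomputable section

namespace Vale.Agent.P168.CavBound

variable {Kc : ℕ}

/-- A sequence whose increments over `M` steps are eventually at least `δ` grows at slope `δ / M`. -/
theorem slope_bound {b : ℕ → ℝ} {δ : ℝ} {N0 M : ℕ} (hM : 0 < M)
    (hb : ∀ N ≥ N0, δ ≤ b (N + M) - b N) :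
    ∃ C : ℝ, ∀ N ≥ N0, (N : ℝ) * (δ / M) - C ≤ b N := by
  refine ⟨∑ r ∈ Finset.range (N0 + M), (|b r| + |(r : ℝ) * (δ / M)|), fun N hN => ?_⟩
  have hMR : (M : ℝ) ≠ 0 := Nat.cast_ne_zero.2 hM.ne'
  induction N using Nat.strong_induction_on with
  | _ N ih =>
    rcases lt_or_ge N (N0 + M) with h | h
    · have := Finset.single_le_sum (f := fun r => |b r| + |(r : ℝ) * (δ / M)|)
        (fun r _ => by positivity) (Finset.mem_range.2 h)
      linarith [neg_abs_le (b N), le_abs_self ((N : ℝ) * (δ / M))]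
    · have h1 := ih (N - M) (by omega) (by omega)
      have h2 := hb (N - M) (by omega)
      rw [Nat.sub_add_cancel (show M ≤ N by omega)] at h2
      rw [Nat.cast_sub (show M ≤ N by omega)] at h1
      have e : (M : ℝ) * (δ / M) = δ := by field_simp
      linarith [sub_mul (N : ℝ) (M : ℝ) (δ / M)]

/-- The cavity bound from the existence of limit arrays. -/
theorem cavityBound_of (h : LimitArrays) : CavityBound := by
  intro Kc hKc lam hlam μ ν L hμp hνp hL hμ hν K hK M hM ε hε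
  obtain ⟨m, rfl⟩ : ∃ m, M = m + 1 := ⟨M - 1, by omega⟩
  have : NeZero Kc := ⟨by omega⟩
  let E : ℕ → ℕ → ℝ := fun n N => meanE μ ν L lam K n N
  have hlim : ∀ N, ∃ b, 0 < N → Tendsto (fun n => E n N) atTop (𝓝 b) := fun N => by
    by_cases hN : 0 < N
    · have : NeZero N := ⟨hN.ne'⟩
      obtain ⟨b, hb⟩ := exists_lim (K := K) (N := N) μ ν hL lam
      exact ⟨b, fun _ => hb⟩
    · exact ⟨0, fun h => absurd h hN⟩
  choose b hb using hlim
  have hbp : ∀ N, 0 < N → |b N - N * pressure lam μ ν N| ≤ 3 * (pertS N : ℝ) := fun N hN => by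
    have : NeZero N := ⟨hN.ne'⟩
    refine le_of_tendsto ((hb N hN).sub_const _).abs ?_
    filter_upwards [eventually_gt_atTop 0] with n hn
    have : NeZero n := ⟨hn.ne'⟩
    exact abs_meanE_sub μ ν hL hμ hν lam
  have hev : ∀ N, ∃ n0, ∀ n ≥ n0, 0 < n ∧ (0 < N → |E n N - b N| ≤ 1 / ((N : ℝ) + 1) ∧
      |E n (N + (m + 1)) - b (N + (m + 1))| ≤ 1 / ((N : ℝ) + 1)) := fun N => by
    refine eventually_atTop.1 ((eventually_gt_atTop 0).and ?_)
    by_cases hN : 0 < N
    · have hd : (0 : ℝ) < 1 / ((N : ℝ) + 1) := by positivity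
      filter_upwards [Metric.tendsto_nhds.1 (hb N hN) _ hd,
        Metric.tendsto_nhds.1 (hb (N + (m + 1)) (by omega)) _ hd] with n h1 h2
      rw [Real.dist_eq] at h1 h2
      exact fun _ => ⟨h1.le, h2.le⟩
    · exact Eventually.of_forall fun n h => absurd h hN
  choose nmin hnmin using hev
  let c : ℕ → ℝ≥0 := fun N => (cOld lam Kc N (m + 1)).toNNReal
  have hc : ∀ N, (c N : ℝ) ≤ lam * N := fun N => by
    rcases Nat.eq_zero_or_pos N with rfl | hN
    · simp [c, cOld, zero_pow (NeZero.ne Kc)]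
    · have : NeZero N := ⟨hN.ne'⟩
      obtain ⟨⟨h0, h1⟩, -⟩ := counts (Kc := Kc) (N := N) (M := m + 1) hlam.le (by omega)
      rwa [show (c N : ℝ) = cOld lam Kc N (m + 1) from Real.coe_toNNReal _ h0]
  obtain ⟨n, hn, harr⟩ := h Kc μ ν (by omega) hμp hνp ⟨L, hμ, hν⟩ K hK lam c hc nmin
  have hn0 : ∀ N, NeZero (n N) := fun N => ⟨((hnmin N _ (hn N)).1).ne'⟩
  let obj : ℕ → (ℕ → ℝ) → ℝ := fun N x =>
    if 0 < N then cavObj μ ν L lam (m + 1) K (n N) N x else 0
  set B := cavCap μ ν L lam (m + 1) with hB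
  have hobj : ∀ N x, |obj N x| ≤ |B| := fun N x => by
    by_cases hN : 0 < N
    · have : NeZero N := ⟨hN.ne'⟩
      have := hn0 N
      simp only [obj, if_pos hN]
      exact (abs_cavObj_le μ ν hL lam (m + 1) x).trans (le_abs_self _)
    · simp [obj, hN]
  have hobjm : ∀ N, Measurable (obj N) := fun N => by
    by_cases hN : 0 < N
    · have : NeZero N := ⟨hN.ne'⟩
      simp only [obj, if_pos hN]
      exact measurable_cavObj μ ν L lam (m + 1)
    · simp [obj, hN]
  obtain ⟨x, hx, hxJ, hsub⟩ := harr obj ⟨|B|, hobj⟩ hobjm (ε / 8) (by linarith)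
  set J : ℕ → ℝ := fun N => ∫ y, obj N y ∂xLaw with hJ
  have hJb : ∀ N, |J N| ≤ |B| := fun N => abs_mean_le (hobj N)
  have hbddb : IsBoundedUnder (· ≥ ·) atTop J :=
    isBoundedUnder_of_eventually_ge (a := -|B|)
      (Eventually.of_forall fun N => (abs_le.1 (hJb N)).1)
  have hbdda : IsCoboundedUnder (· ≥ ·) atTop J :=
    (isBoundedUnder_of_eventually_le (a := |B|)
      (Eventually.of_forall fun N => (abs_le.1 (hJb N)).2)).isCoboundedUnder_ge
  set ℓ := liminf J atTop with hℓ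
  have hlow : ∀ᶠ N in atTop, ℓ - ε / 8 < J N := eventually_lt_of_lt_liminf (by linarith) hbddb
  have hfreq : ∃ᶠ N in atTop, J N < ℓ + ε / 8 := frequently_lt_of_liminf_lt hbdda (by linarith)
  obtain ⟨φ, hφ, hφp⟩ := extraction_of_frequently_atTop
    (hfreq.and_eventually (hxJ.and (eventually_gt_atTop 0)))
  obtain ⟨ψ, A, hψ, hA, hconv⟩ := hsub φ hφ
  have hpos : ∀ k, NeZero (φ (ψ k)) := fun k => ⟨((hφp (ψ k)).2.2).ne'⟩
  have hcav := obj_tendsto (M := m + 1) (lam := lam) hL μ ν hμ hν A (fun k => φ (ψ k))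
    (fun k => c (φ (ψ k))) (fun k => pertS (φ (ψ k))) (fun k => n (φ (ψ k)))
    (fun k => x (φ (ψ k))) hpos (fun k => hn0 _) (fun k => hx _) hconv
  have hcavle : cavity A lam μ ν L (m + 1) ≤ ℓ + ε / 8 + ε / 8 := by
    refine le_of_tendsto hcav (Eventually.of_forall fun k => ?_)
    obtain ⟨h1, h2, h3⟩ := hφp (ψ k)
    simp only [obj, if_pos h3] at h2
    have h1' : (∫ y, obj (φ (ψ k)) y ∂xLaw) < ℓ + ε / 8 := h1
    simp only [obj, if_pos h3] at h1'
    simp only [cavObj] at h1' h2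
    simp only [c]
    linarith
  refine ⟨A, hA, ?_⟩
  set cav := cavity A lam μ ν L (m + 1) with hcdef
  have he : ∀ᶠ N : ℕ in atTop, stepErr L lam Kc (m + 1) N + 2 * (1 / ((N : ℝ) + 1)) ≤ ε / 8 := by
    have := (tendsto_stepErr L lam Kc (m + 1)).add
      (tendsto_one_div_add_atTop_nhds_zero_nat.const_mul 2)
    simp only [mul_zero, add_zero] at this
    exact this.eventually (ge_mem_nhds (by linarith))
  have hinc : ∀ᶠ N in atTop, cav - ε / 2 ≤ b (N + (m + 1)) - b N := by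
    filter_upwards [he, hlow, eventually_gt_atTop 0] with N heN hlN hN
    have : NeZero N := ⟨hN.ne'⟩
    have := hn0 N
    obtain ⟨h1, h2⟩ := (hnmin N _ (hn N)).2 hN
    have h3 := step_mean (K := K) (n := n N) (N := N) μ ν hL hlam m
    simp only [hJ, obj, if_pos hN] at hlN
    simp only [E] at h1 h2
    rw [abs_le] at h1 h2 h3
    linarith [h1.1, h1.2, h2.1, h2.2, h3.1, h3.2]
  obtain ⟨N0, hN0⟩ := eventually_atTop.1 hinc
  obtain ⟨C, hC⟩ := slope_bound (Nat.succ_pos m) hN0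
  have hz : ∀ᶠ N : ℕ in atTop, C / N + 3 * ((N : ℝ) ^ (1 / 4 : ℝ))⁻¹ ≤ ε / 2 := by
    have := (tendsto_const_div_atTop_nhds_zero_nat C).add
      (((tendsto_rpow_atTop (show (0 : ℝ) < 1 / 4 by norm_num)).comp
        tendsto_natCast_atTop_atTop).inv_tendsto_atTop.const_mul 3)
    simp only [mul_zero, add_zero] at this
    exact this.eventually (ge_mem_nhds (by linarith))
  filter_upwards [hz, eventually_ge_atTop N0, eventually_gt_atTop 0] with N hzN hNN hN
  have : NeZero N := ⟨hN.ne'⟩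
  have hNR : (0 : ℝ) < N := by exact_mod_cast hN
  have h1 := hC N hNN
  have h2 := (abs_le.1 (hbp N hN)).2
  have hM1 : (1 : ℝ) ≤ (m + 1 : ℕ) := by exact_mod_cast Nat.succ_pos m
  have h3 : (cav - ε / 2) / (m + 1 : ℕ) ≥ cav / (m + 1 : ℕ) - ε / 2 := by
    rw [sub_div]
    linarith [div_le_self (show (0 : ℝ) ≤ ε / 2 by linarith) hM1]
  have h4 : (cav - ε / 2) / (m + 1 : ℕ) - (C / N + 3 * ((pertS N : ℝ) / N)) ≤
      pressure lam μ ν N := by
    rw [← mul_le_mul_iff_of_pos_left hNR]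
    have e1 : (N : ℝ) * (C / N) = C := mul_div_cancel₀ _ hNR.ne'
    have e2 : (N : ℝ) * ((pertS N : ℝ) / N) = pertS N := mul_div_cancel₀ _ hNR.ne'
    linear_combination h1 + h2 - e1 - 3 * e2
  rw [pertS_div] at h4
  linarith

end Vale.Agent.P168.CavBound
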