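import Vale.Agent.P168.CavBound.Split2

/-!
P168: the clauses of the larger system as a mixture of old clauses, clauses with one new site and a
rest of small mass.
-/

open MeasureTheory ProbabilityTheory Filter Topology
open scoped NNReal ENNReal

noncomputable section

namespace Vale.Agent.P168.CavBound

variable {Kc N M : ℕ}

/-- The law of clauses with one new site. -/
def oneLaw (μ : Measure (Clause Kc)) (N M : ℕ) : Measure (TU Kc N M) :=
  (unif (Fin M)).prod ((μ.prod (unif (Fin Kc))).prod (unif (Fin Kc → Fin N)))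

theorem oldT_law (μ : Measure (Clause Kc)) [IsProbabilityMeasure μ] [NeZero N] :
    (μ.prod (unif (Fin Kc → Fin N))).map (oldT M) =
      μ.prod ((unif (Fin Kc → Fin N)).map oldSites) := by
  have : IsProbabilityMeasure (unif (Fin Kc → Fin N)) := unif_prob
  conv_rhs => rw [← Measure.map_id (μ := μ)]
  rw [Measure.map_prod_map _ _ measurable_id (measurable_of_countable _)]
  rfl

theorem unif_reorder [NeZero N] [NeZero M] [NeZero Kc] :
    ((unif (Fin Kc)).prod ((unif (Fin Kc → Fin N)).prod (unif (Fin M)))).map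
        (fun w => ((w.1, w.2.2), w.2.1)) =
      unif ((Fin Kc × Fin M) × (Fin Kc → Fin N)) := by
  have : IsProbabilityMeasure (unif (Fin Kc → Fin N)) := unif_prob
  have : IsProbabilityMeasure (unif (Fin M)) := unif_prob
  refine Measure.ext_of_singleton fun t => ?_
  rw [Measure.map_apply (measurable_of_countable _) (measurableSet_singleton t)]
  have e : (fun w : Fin Kc × (Fin Kc → Fin N) × Fin M => ((w.1, w.2.2), w.2.1)) ⁻¹' {t} =
      {t.1.1} ×ˢ ({t.2} ×ˢ {t.1.2}) := by
    ext w
    simp only [Set.mem_preimage, Set.mem_singleton_iff, Set.mem_prod, Prod.ext_iff]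
    tauto
  rw [e, Measure.prod_prod, Measure.prod_prod, unif_singleton, unif_singleton, unif_singleton,
    unif_singleton, ← ENNReal.coe_mul, ← ENNReal.coe_mul, ENNReal.coe_inj]
  simp only [Fintype.card_prod, Fintype.card_fun, Fintype.card_fin, Nat.cast_mul, mul_inv_rev]
  ring

theorem oneT_law (μ : Measure (Clause Kc)) [IsProbabilityMeasure μ] [NeZero N] [NeZero M]
    [NeZero Kc] :
    (oneLaw μ N M).map oneT =
      μ.prod ((unif ((Fin Kc × Fin M) × (Fin Kc → Fin N))).map oneSites) := by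
  have : IsProbabilityMeasure (unif (Fin Kc → Fin N)) := unif_prob
  have : IsProbabilityMeasure (unif (Fin M)) := unif_prob
  have : IsProbabilityMeasure (unif (Fin Kc)) := unif_prob
  have h1 : MeasurePreserving Prod.swap (oneLaw μ N M)
      (((μ.prod (unif (Fin Kc))).prod (unif (Fin Kc → Fin N))).prod (unif (Fin M))) :=
    Measure.measurePreserving_swap
  have h2 := measurePreserving_prodAssoc (μ.prod (unif (Fin Kc))) (unif (Fin Kc → Fin N)) (unif (Fin M))
  have h3 := measurePreserving_prodAssoc μ (unif (Fin Kc))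
    ((unif (Fin Kc → Fin N)).prod (unif (Fin M)))
  have h4 : MeasurePreserving (fun w : Fin Kc × (Fin Kc → Fin N) × Fin M =>
      (oneSites ((w.1, w.2.2), w.2.1) : Fin Kc → Fin (N + M)))
      ((unif (Fin Kc)).prod ((unif (Fin Kc → Fin N)).prod (unif (Fin M))))
      ((unif ((Fin Kc × Fin M) × (Fin Kc → Fin N))).map oneSites) := ⟨measurable_of_countable _, by
    rw [← unif_reorder, Measure.map_map (measurable_of_countable _) (measurable_of_countable _)]
    rfl⟩
  exact ((((MeasurePreserving.id μ).prod h4).comp h3).comp (h2.comp h1)).map_eq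

/-- Some clauses of the larger system may be dropped: the rest are old clauses and clauses with one
new site. -/
theorem full_split (μ : Measure (Clause Kc)) [IsProbabilityMeasure μ] [NeZero N] [NeZero M]
    [NeZero Kc] {lam : ℝ} (hlam : 0 < lam) {F : PL (Term Kc (N + M)) → ℝ} (hF : Measurable F)
    (hs : PL.Sym F) {A : ℝ} (hb : ∀ p, |F p| ≤ A * ((p.1 : ℝ) + 1) ^ 1) {L : ℝ} (hL : 0 ≤ L)
    (hC : ∀ p q, |F (PL.app p q) - F p| ≤ L * q.1) :
    |∫ p, F p ∂plaw (lam * (N + M)).toNNReal (μ.prod (unif (Fin Kc → Fin (N + M)))) -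
        ∫ p, ∫ q, F (PL.app (lmap (oldT M) p) (lmap oneT q))
          ∂plaw (cOne lam Kc N M).toNNReal (oneLaw μ N M)
          ∂plaw (cOld lam Kc N M).toNNReal (μ.prod (unif (Fin Kc → Fin N)))| ≤
      L * (lam * (Kc * M) ^ 2 / N) := by
  have : NeZero (N + M) := ⟨by have := NeZero.pos N; omega⟩
  have : IsProbabilityMeasure (unif (Fin Kc → Fin (N + M))) := unif_prob
  have : IsProbabilityMeasure (unif (Fin Kc → Fin N)) := unif_prob
  have : IsProbabilityMeasure (unif (Fin M)) := unif_prob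
  have : IsProbabilityMeasure (unif (Fin Kc)) := unif_prob
  have : IsProbabilityMeasure (oneLaw μ N M) := by unfold oneLaw; infer_instance
  obtain ⟨⟨ha0, -⟩, ⟨ho0, -⟩, -, hrest⟩ := counts (Kc := Kc) (N := N) (M := M) hlam.le (NeZero.pos Kc)
  have hapos : 0 < cOld lam Kc N M := by
    have hN : (0 : ℝ) < N := by exact_mod_cast NeZero.pos N
    unfold cOld; positivity
  set a := (cOld lam Kc N M).toNNReal with ha
  set o := (cOne lam Kc N M).toNNReal with ho
  set C := (lam * ((N : ℝ) + M)).toNNReal with hCdef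
  set τ := μ.prod (unif (Fin Kc → Fin (N + M))) with hτ
  set R : Measure (Term Kc (N + M)) :=
    (C : ℝ≥0∞) • μ.prod ((unif (Fin Kc → Fin (N + M))).restrict multi) with hR
  have hmix : (C : ℝ≥0∞) • τ = (a : ℝ≥0∞) • (μ.prod (unif (Fin Kc → Fin N))).map (oldT M) +
      (o : ℝ≥0∞) • (oneLaw μ N M).map oneT + R := by
    rw [oldT_law, oneT_law, hτ, hR, ← Measure.prod_smul_right, ← Measure.prod_smul_right,
      ← Measure.prod_smul_right, ← Measure.prod_smul_right, ha, ho, hCdef, sites_split hlam.le,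
      Measure.prod_add, Measure.prod_add]
  have : IsProbabilityMeasure ((μ.prod (unif (Fin Kc → Fin N))).map (oldT M)) :=
    Measure.isProbabilityMeasure_map measurable_oldT.aemeasurable
  have : IsProbabilityMeasure ((oneLaw μ N M).map oneT) :=
    Measure.isProbabilityMeasure_map measurable_oneT.aemeasurable
  set b : ℝ≥0 := (R Set.univ).toNNReal with hbdef
  have hRfin : R Set.univ ≠ ⊤ := by
    rw [hR, Measure.smul_apply, smul_eq_mul]
    exact ENNReal.mul_ne_top ENNReal.coe_ne_top (measure_ne_top _ _)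
  have hsum : C = a + o + b := by
    have h := congrArg (fun m => m Set.univ) hmix
    simp only [Measure.add_apply, Measure.smul_apply, measure_univ, smul_eq_mul, mul_one] at h
    rw [← ENNReal.coe_inj, ENNReal.coe_add, ENNReal.coe_add, hbdef, ENNReal.coe_toNNReal hRfin, h]
  have hb_le : (b : ℝ) ≤ lam * (Kc * M) ^ 2 / N := by
    have h := congrArg (fun v : ℝ≥0 => (v : ℝ)) hsum
    simp only [NNReal.coe_add, ha, ho, hCdef, Real.coe_toNNReal _ ha0, Real.coe_toNNReal _ ho0,
      Real.coe_toNNReal _ (show 0 ≤ lam * ((N : ℝ) + M) by positivity)] at h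
    linarith
  have hao : (a + o : ℝ≥0) ≠ 0 := by
    have : 0 < a := Real.toNNReal_pos.2 hapos
    positivity
  set τ' : Measure (Term Kc (N + M)) := ((a + o : ℝ≥0) : ℝ≥0∞)⁻¹ •
    ((a : ℝ≥0∞) • (μ.prod (unif (Fin Kc → Fin N))).map (oldT M) +
      (o : ℝ≥0∞) • (oneLaw μ N M).map oneT) with hτ'
  have : IsProbabilityMeasure τ' := by
    constructor
    simp only [hτ', Measure.smul_apply, Measure.add_apply, measure_univ, smul_eq_mul, mul_one]
    rw [← ENNReal.coe_add]
    exact ENNReal.inv_mul_cancel (ENNReal.coe_ne_zero.2 hao) ENNReal.coe_ne_top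
  have hτ'mix : ((a + o : ℝ≥0) : ℝ≥0∞) • τ' = (a : ℝ≥0∞) •
      (μ.prod (unif (Fin Kc → Fin N))).map (oldT M) + (o : ℝ≥0∞) • (oneLaw μ N M).map oneT := by
    rw [hτ', smul_smul, ENNReal.mul_inv_cancel (ENNReal.coe_ne_zero.2 hao) ENNReal.coe_ne_top,
      one_smul]
  obtain ⟨τ2, hτ2, hR2⟩ : ∃ τ2 : Measure (Term Kc (N + M)), IsProbabilityMeasure τ2 ∧
      R = (b : ℝ≥0∞) • τ2 := by
    by_cases h0 : R Set.univ = 0
    · refine ⟨τ, inferInstance, ?_⟩
      rw [hbdef, h0, ENNReal.toNNReal_zero, ENNReal.coe_zero, zero_smul]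
      exact Measure.measure_univ_eq_zero.1 h0
    · refine ⟨(R Set.univ)⁻¹ • R, ⟨?_⟩, ?_⟩
      · rw [Measure.smul_apply, smul_eq_mul, ENNReal.inv_mul_cancel h0 hRfin]
      · rw [hbdef, ENNReal.coe_toNNReal hRfin, smul_smul, ENNReal.mul_inv_cancel h0 hRfin, one_smul]
  have hmix2 : ((a + o + b : ℝ≥0) : ℝ≥0∞) • τ =
      ((a + o : ℝ≥0) : ℝ≥0∞) • τ' + (b : ℝ≥0∞) • τ2 := by
    rw [← hsum, hτ'mix, ← hR2, hmix]
  have h1 := plaw_mix_le (τ := τ) (τ₁ := τ') (τ₂ := τ2) (a := a + o) (b := b) hmix2 hF hs hb hC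
  have h2 := plaw_mix (τ := τ') (τ₁ := (μ.prod (unif (Fin Kc → Fin N))).map (oldT M))
    (τ₂ := (oneLaw μ N M).map oneT) (a := a) (b := o) hτ'mix hF hs hb
  have hm : Measurable fun u : PL (Term Kc (N + M)) × PL (Term Kc (N + M)) => F (PL.app u.1 u.2) :=
    hF.comp measurable_app
  rw [← hsum] at h1
  rw [h2, integral_lmap measurable_oldT _ hm.stronglyMeasurable.integral_prod_right'.measurable] at h1
  have hin : ∀ p : PL (Term Kc N),
      ∫ q, F (PL.app (lmap (oldT M) p) q) ∂plaw o ((oneLaw μ N M).map oneT) =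
        ∫ q, F (PL.app (lmap (oldT M) p) (lmap oneT q)) ∂plaw o (oneLaw μ N M) := fun p =>
    integral_lmap measurable_oneT _ (G := fun q => F (PL.app (lmap (oldT M) p) q))
      (hm.comp measurable_prodMk_left)
  simp only [hin] at h1
  exact h1.trans (mul_le_mul_of_nonneg_left hb_le hL)

end Vale.Agent.P168.CavBound
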