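import Vale.Agent.P168.CavBound.Gen

/-!
P168: the perturbing clauses of the larger system may be placed at old sites.
-/

open MeasureTheory ProbabilityTheory Filter Topology
open scoped NNReal ENNReal

noncomputable section

namespace Vale.Agent.P168.CavBound

open P157.Casc (mlev Node casW casX)

variable {Kc N K n M : ℕ}

/-- A perturbing clause at an old site. -/
def liftP (M : ℕ) {N : ℕ} (t : ℕ × Fin N) : ℕ × Fin (N + M) := (t.1, Fin.castAdd M t.2)

theorem measurable_liftP : Measurable (liftP M (N := N)) :=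
  measurable_fst.prodMk ((measurable_of_countable _).comp measurable_snd)

/-- The law of perturbing clauses at old sites. -/
def pertOld (N M : ℕ) : Measure (ℕ × Fin (N + M)) := (kindLaw.prod (unif (Fin N))).map (liftP M)

/-- A new site is replaced by a given old one. -/
def repl (u : Fin (N + M) × Fin N) : Fin (N + M) :=
  if (u.1 : ℕ) < N then u.1 else Fin.castAdd M u.2

theorem repl_law [NeZero N] : ((unif (Fin (N + M))).prod (unif (Fin N))).map repl =
    (unif (Fin N)).map (Fin.castAdd M) := by
  refine Measure.ext_of_singleton fun t => ?_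
  rw [Measure.map_apply (measurable_of_countable _) (measurableSet_singleton t),
    Measure.map_apply (measurable_of_countable _) (measurableSet_singleton t)]
  have : IsProbabilityMeasure (unif (Fin N)) := unif_prob
  rw [Measure.prod_apply (MeasurableSet.of_discrete), lintegral_fintype]
  by_cases ht : (t : ℕ) < N
  · have hpre : Fin.castAdd M ⁻¹' {t} = ({⟨t, ht⟩} : Set (Fin N)) := by
      ext u; simp [Fin.ext_iff]
    rw [hpre, unif_singleton, Fin.sum_univ_add]
    have h1 : ∀ i : Fin N, unif (Fin N) (Prod.mk (Fin.castAdd M i) ⁻¹' (repl ⁻¹' {t})) *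
        unif (Fin (N + M)) {Fin.castAdd M i} =
        if i = ⟨t, ht⟩ then ((((N + M : ℕ) : ℝ≥0)⁻¹ : ℝ≥0) : ℝ≥0∞) else 0 := fun i => by
      have e : Prod.mk (Fin.castAdd M i) ⁻¹' (repl ⁻¹' {t}) =
          if i = ⟨t, ht⟩ then (Set.univ : Set (Fin N)) else ∅ := by
        ext u
        split_ifs with h
        · subst h; simp [repl, ht]
        · simp only [Set.mem_preimage, Set.mem_singleton_iff, Set.mem_empty_iff_false, iff_false]
          simp [repl, Fin.ext_iff] at h ⊢
          exact h
      rw [e, unif_singleton]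
      split_ifs <;> simp
    have h2 : ∀ j : Fin M, unif (Fin N) (Prod.mk (Fin.natAdd N j) ⁻¹' (repl ⁻¹' {t})) *
        unif (Fin (N + M)) {Fin.natAdd N j} =
        (((N : ℝ≥0)⁻¹ * ((N + M : ℕ) : ℝ≥0)⁻¹ : ℝ≥0) : ℝ≥0∞) := fun j => by
      have e : Prod.mk (Fin.natAdd N j) ⁻¹' (repl ⁻¹' {t}) = ({⟨t, ht⟩} : Set (Fin N)) := by
        ext u
        simp [repl, Fin.ext_iff]
      rw [e, unif_singleton, unif_singleton, Fintype.card_fin, Fintype.card_fin, ENNReal.coe_mul]
    simp only [h1, h2, Finset.sum_ite_eq', Finset.mem_univ, if_true, Finset.sum_const,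
      Finset.card_univ, Fintype.card_fin, nsmul_eq_mul]
    rw [← ENNReal.coe_natCast M, ← ENNReal.coe_mul, ← ENNReal.coe_add, ENNReal.coe_inj]
    have hN : (N : ℝ≥0) ≠ 0 := Nat.cast_ne_zero.2 (NeZero.ne N)
    have hNM : ((N + M : ℕ) : ℝ≥0) ≠ 0 := Nat.cast_ne_zero.2 (by have := NeZero.pos N; omega)
    field_simp
    push_cast
    ring
  · have hpre : Fin.castAdd M ⁻¹' {t} = (∅ : Set (Fin N)) := by
      ext u; simp [Fin.ext_iff]; omega
    rw [hpre, measure_empty]
    refine Finset.sum_eq_zero fun i _ => ?_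
    have e : Prod.mk i ⁻¹' (repl ⁻¹' {t}) = (∅ : Set (Fin N)) := by
      ext u
      simp only [Set.mem_preimage, Set.mem_singleton_iff, Set.mem_empty_iff_false, iff_false, repl]
      split_ifs with h <;> intro he <;> subst he
      · exact ht h
      · exact ht u.isLt
    rw [e, measure_empty, zero_mul]

theorem Fl_eq_Gp [NeZero n] {L : ℝ} (hL : 0 ≤ L) (ν : Measure ℝ) [IsProbabilityMeasure ν]
    (τp : Measure (ℕ × Fin N)) [IsProbabilityMeasure τp] (s : ℝ≥0) (x : ℕ → ℝ)
    (p : PL (Term Kc N)) :
    Integrable (fun h => ∫ w, Gp K n L x (p, h) w ∂plaw s τp) (Measure.pi fun _ : Fin N => ν) ∧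
      Fl ν τp s K n L x p = ∫ h, ∫ w, Gp K n L x (p, h) w ∂plaw s τp ∂(Measure.pi fun _ => ν) := by
  have hi : Integrable (fun r => lsum L x (mkEnv (p, r)))
      (((Measure.pi fun _ : Fin N => ν).prod (plaw s τp)).prod
        ((casW (mlev K) n).prod (casX K n labLaw))) := integrable_mk hL ν τp s x p
  have hi2 := hi.integral_prod_left
  refine ⟨hi2.integral_prod_left, ?_⟩
  unfold Fl rstLaw
  rw [integral_prod _ hi, integral_prod _ hi2]
  rfl

/-- Perturbing clauses on the old sites only, of a nearby mean number. -/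
theorem pert_step [NeZero N] [NeZero n] {L : ℝ} (hL : 0 ≤ L) (x : ℕ → ℝ) (b : Base Kc (N + M))
    (s' s : ℝ≥0) :
    |∫ w, Gp K n L x b w ∂plaw s' (kindLaw.prod (unif (Fin (N + M)))) -
        ∫ w, Gp K n L x b w ∂plaw s (pertOld N M)| ≤
      6 * s' * ((M : ℝ) / (N + M)) + 3 * |(s' : ℝ) - s| := by
  have : NeZero (N + M) := ⟨by have := NeZero.pos N; omega⟩
  have : IsProbabilityMeasure (unif (Fin N)) := unif_prob
  have : IsProbabilityMeasure (unif (Fin (N + M))) := unif_prob
  set τa : Measure ((ℕ × Fin (N + M)) × Fin N) :=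
    (kindLaw.prod (unif (Fin (N + M)))).prod (unif (Fin N)) with hτa
  let g : (ℕ × Fin (N + M)) × Fin N → ℕ × Fin (N + M) := fun u => (u.1.1, repl (u.1.2, u.2))
  have hg : Measurable g := (measurable_fst.comp measurable_fst).prodMk
    ((measurable_of_countable repl).comp ((measurable_snd.comp measurable_fst).prodMk measurable_snd))
  have h1 : τa.map Prod.fst = kindLaw.prod (unif (Fin (N + M))) :=
    measurePreserving_fst.map_eq
  have h2 : τa.map g = pertOld N M := by
    have hassoc := (measurePreserving_prodAssoc kindLaw (unif (Fin (N + M))) (unif (Fin N))).map_eq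
    rw [pertOld, show liftP M (N := N) = Prod.map id (Fin.castAdd M) from rfl,
      ← Measure.map_prod_map _ _ measurable_id (measurable_of_countable _), Measure.map_id,
      ← repl_law]
    conv_rhs => rw [← Measure.map_id (μ := kindLaw)]
    rw [Measure.map_prod_map _ _ measurable_id (measurable_of_countable _), ← hassoc,
      Measure.map_map (measurable_id.prodMap (measurable_of_countable _)) (MeasurableEquiv.measurable _)]
    rfl
  obtain ⟨A, hA⟩ := abs_Gp_le (K := K) (n := n) hL x b
  have hG := measurable_Gp (K := K) (n := n) L x b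
  have i1 : Integrable (fun p => Gp K n L x b (lmap Prod.fst p)) (plaw s' τa) :=
    integrable_plaw (hG.comp (measurable_lmap measurable_fst)) fun p => hA (lmap Prod.fst p)
  have i2 : Integrable (fun p => Gp K n L x b (lmap g p)) (plaw s' τa) :=
    integrable_plaw (hG.comp (measurable_lmap hg)) fun p => hA (lmap g p)
  set S : Set ((ℕ × Fin (N + M)) × Fin N) := {u | N ≤ (u.1.2 : ℕ)} with hS
  have hSm : MeasurableSet S :=
    (measurable_snd.comp measurable_fst) (MeasurableSet.of_discrete (s := {v : Fin (N + M) | N ≤ (v : ℕ)}))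
  have hb : ∀ p : PL ((ℕ × Fin (N + M)) × Fin N),
      |Gp K n L x b (lmap Prod.fst p) - Gp K n L x b (lmap g p)| ≤ 6 * cnt S p := fun p => by
    unfold Gp
    rw [← integral_sub (integrable_Gp hL x b _) (integrable_Gp hL x b _)]
    refine abs_mean_le fun wx => lsum_pert_le L x b _ _ wx fun y σ => ?_
    obtain ⟨k, v⟩ := p
    simp only [pertE_eq, lmap, Function.comp, cnt, Finset.mul_sum, ← Finset.sum_sub_distrib]
    refine (Finset.abs_sum_le_sum_abs _ _).trans (Finset.sum_le_sum fun i _ => ?_)
    by_cases hi : v i ∈ S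
    · rw [Set.indicator_of_mem hi, mul_one]
      have h3 := abs_pert_summand x (v i).1.1 i (v i).1.2 y σ
      have h4 := abs_pert_summand x (g (v i)).1 i (g (v i)).2 y σ
      exact (abs_sub _ _).trans (by linarith)
    · rw [Set.indicator_of_notMem hi, mul_zero, show g (v i) = (v i).1 by
        refine Prod.ext rfl ?_
        simp only [hS, Set.mem_setOf_eq, not_le] at hi
        simp [g, repl, hi]]
      simp
  have hreal : τa.real S = (M : ℝ) / (N + M) := by
    have e : S = (Set.univ ×ˢ {v : Fin (N + M) | N ≤ (v : ℕ)}) ×ˢ Set.univ := by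
      ext u; simp [hS]
    rw [measureReal_def, e, hτa, Measure.prod_prod, Measure.prod_prod, measure_univ, measure_univ,
      one_mul, mul_one]
    have e2 : {v : Fin (N + M) | N ≤ (v : ℕ)} = ((Finset.univ.image (Fin.natAdd N) : Finset (Fin (N + M))) : Set _) := by
      ext v
      simp only [Finset.coe_image, Finset.coe_univ, Set.image_univ, Set.mem_range, Set.mem_setOf_eq]
      constructor
      · intro h; exact ⟨⟨(v : ℕ) - N, by omega⟩, Fin.ext (by simp; omega)⟩
      · rintro ⟨u, rfl⟩; simp
    rw [e2, unif_finset, Finset.card_image_of_injective _ (Fin.natAdd_injective _ _)]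
    simp [div_eq_inv_mul]
  have hmid : |∫ w, Gp K n L x b w ∂plaw s' (kindLaw.prod (unif (Fin (N + M)))) -
      ∫ w, Gp K n L x b w ∂plaw s' (pertOld N M)| ≤ 6 * s' * ((M : ℝ) / (N + M)) := by
    rw [← h1, ← h2, integral_lmap measurable_fst _ hG, integral_lmap hg _ hG,
      ← integral_sub i1 i2]
    refine abs_integral_le_integral_abs.trans ((integral_mono (i1.sub i2).abs
      ((integrable_plaw (A := 1) (n := 1) (measurable_cnt hSm) fun p => abs_cnt_le S p).const_mul 6)
      hb).trans_eq ?_)
    rw [integral_const_mul, mean_cnt hSm, hreal]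
    ring
  have : IsProbabilityMeasure (pertOld N M) := by
    unfold pertOld; exact Measure.isProbabilityMeasure_map measurable_liftP.aemeasurable
  have hlast := plaw_mean_le (τ := pertOld N M) s' s hG (Gp_sym L x b) hA (C := 3)
    fun p q => Gp_app_le hL x b p q
  linarith [abs_sub_le (∫ w, Gp K n L x b w ∂plaw s' (kindLaw.prod (unif (Fin (N + M)))))
    (∫ w, Gp K n L x b w ∂plaw s' (pertOld N M)) (∫ w, Gp K n L x b w ∂plaw s (pertOld N M))]

/-- The same for the free energy at given clauses. -/
theorem Fl_step [NeZero N] [NeZero n] {L : ℝ} (hL : 0 ≤ L) (ν : Measure ℝ) [IsProbabilityMeasure ν]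
    (x : ℕ → ℝ) (p : PL (Term Kc (N + M))) (s' s : ℝ≥0) :
    |Fl ν (kindLaw.prod (unif (Fin (N + M)))) s' K n L x p - Fl ν (pertOld N M) s K n L x p| ≤
      6 * s' * ((M : ℝ) / (N + M)) + 3 * |(s' : ℝ) - s| := by
  have : NeZero (N + M) := ⟨by have := NeZero.pos N; omega⟩
  have : IsProbabilityMeasure (unif (Fin N)) := unif_prob
  have : IsProbabilityMeasure (unif (Fin (N + M))) := unif_prob
  have : IsProbabilityMeasure (pertOld N M) := by
    unfold pertOld; exact Measure.isProbabilityMeasure_map measurable_liftP.aemeasurable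
  obtain ⟨i1, e1⟩ := Fl_eq_Gp (K := K) (n := n) hL ν (kindLaw.prod (unif (Fin (N + M)))) s' x p
  obtain ⟨i2, e2⟩ := Fl_eq_Gp (K := K) (n := n) hL ν (pertOld N M) s x p
  rw [e1, e2, ← integral_sub i1 i2]
  exact abs_mean_le fun h => pert_step hL x _ s' s

end Vale.Agent.P168.CavBound
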