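import Vale.Agent.P168.CavBound.DecU
import Vale.Agent.P168.CavTrial.Meas

/-!
P168: along converging replicas the gain of a random factor converges to its series over the
replicas of the array.
-/

open MeasureTheory ProbabilityTheory Filter Topology
open scoped NNReal ENNReal

noncomputable section

namespace Vale.Agent.P168.CavBound

open P157.Casc (mlev Node Leaf casW casX avg gibbs)

variable {Kc N K n : ℕ}

/-- The mean of the product of defects over `r` replicas. -/
def defect (L : ℝ) (x : ℕ → ℝ) (F : (ℕ → Bool) → ℝ) (r : ℕ)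
    (w : Env Kc N K n × (ℕ → Fin N)) : ℝ :=
  avg (sW L x w.1) r fun st => ∏ a, (1 - F fun i => (st a).2 (w.2 i))

theorem defect_eq [NeZero n] (L : ℝ) (x : ℕ → ℝ) (F : (ℕ → Bool) → ℝ) (r : ℕ)
    (w : Env Kc N K n × (ℕ → Fin N)) :
    defect L x F r w = (1 - ∑ st, gibbs (sW L x w.1) st * F fun i => st.2 (w.2 i)) ^ r := by
  have hs : ∑ st : St N K n, gibbs (sW L x w.1) st = 1 := by
    simp only [gibbs, ← Finset.sum_div]
    exact div_self (Finset.sum_pos (fun st _ => sW_pos L x w.1 st) Finset.univ_nonempty).ne'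
  conv_rhs => rw [← hs, ← Finset.sum_sub_distrib, ← Fin.prod_const, Fintype.prod_sum]
  refine Finset.sum_congr rfl fun st _ => ?_
  rw [← Finset.prod_mul_distrib]
  exact Finset.prod_congr rfl fun a _ => by ring

theorem gibbs_mean_mem [NeZero n] (L : ℝ) (x : ℕ → ℝ) (q : Env Kc N K n) {G : St N K n → ℝ}
    {δ : ℝ} (hG : ∀ st, δ ≤ G st ∧ G st ≤ 1) :
    δ ≤ ∑ st, gibbs (sW L x q) st * G st ∧ ∑ st, gibbs (sW L x q) st * G st ≤ 1 := by
  have hT := Finset.sum_pos (fun st _ => sW_pos L x q st) Finset.univ_nonempty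
  have hs : ∑ st : St N K n, gibbs (sW L x q) st = 1 := by
    simp only [gibbs, ← Finset.sum_div]
    exact div_self hT.ne'
  have h0 : ∀ st : St N K n, 0 ≤ gibbs (sW L x q) st := fun st => div_nonneg (sW_pos L x q st).le hT.le
  constructor
  · calc δ = ∑ st, gibbs (sW L x q) st * δ := by rw [← Finset.sum_mul, hs, one_mul]
      _ ≤ _ := Finset.sum_le_sum fun st _ => mul_le_mul_of_nonneg_left (hG st).1 (h0 st)
  · calc _ ≤ ∑ st, gibbs (sW L x q) st * 1 :=
          Finset.sum_le_sum fun st _ => mul_le_mul_of_nonneg_left (hG st).2 (h0 st)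
      _ = 1 := by rw [← Finset.sum_mul, hs, one_mul]

theorem defect_mem [NeZero n] (L : ℝ) (x : ℕ → ℝ) {F : (ℕ → Bool) → ℝ} {δ : ℝ}
    (hF : ∀ τ, δ ≤ F τ ∧ F τ ≤ 1) (r : ℕ) (w : Env Kc N K n × (ℕ → Fin N)) :
    0 ≤ defect L x F r w ∧ defect L x F r w ≤ (1 - δ) ^ r := by
  obtain ⟨h1, h2⟩ := gibbs_mean_mem L x w.1
    (G := fun st : St N K n => F fun i => st.2 (w.2 i)) fun st => hF _
  rw [defect_eq]
  exact ⟨pow_nonneg (by linarith) _, pow_le_pow_left₀ (by linarith) (by linarith) _⟩

theorem measurable_gibbs_sW (L : ℝ) (x : ℕ → ℝ) (st : St N K n) :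
    Measurable fun q : Env Kc N K n => gibbs (sW L x q) st := by
  have h : ∀ st : St N K n, Measurable fun q : Env Kc N K n => sW L x q st := fun st =>
    Measurable.comp (g := fun p : (ℕ → ℝ) × Env Kc N K n => sW L p.1 p.2 st)
      (f := fun q : Env Kc N K n => (x, q)) (measurable_sW L st)
      (measurable_const.prodMk measurable_id)
  exact (h st).div (Finset.measurable_sum Finset.univ
    (f := fun (t : St N K n) (q : Env Kc N K n) => sW L x q t) fun t _ => h t)

theorem measurable_defect (L : ℝ) (x : ℕ → ℝ) {F : (ℕ → Bool) → ℝ} (hF : Measurable F) (r : ℕ) :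
    Measurable (defect (Kc := Kc) (N := N) (K := K) (n := n) L x F r) := by
  unfold defect avg
  refine Finset.measurable_sum _ fun st _ => (Finset.measurable_prod _ fun a _ =>
    (measurable_gibbs_sW L x (st a)).comp measurable_fst).mul
    (Finset.measurable_prod _ fun a _ => Measurable.const_sub ?_ 1)
  exact hF.comp (measurable_pi_lambda _ fun i =>
    (measurable_of_countable (st a).2).comp ((measurable_pi_apply i).comp measurable_snd))

/-- The gain of a factor as a series of defects. -/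
theorem lext_series [NeZero n] (L : ℝ) (x : ℕ → ℝ) {W : (ℕ → Bool) → ℝ} {B : ℝ}
    (hpos : ∀ τ, 0 < W τ) (hW : ∀ τ, |Real.log (W τ)| ≤ B) (q : Env Kc N K n) (S : ℕ → Fin N) :
    HasSum (fun j : ℕ => ((j : ℝ) + 1)⁻¹ *
        defect L x (fun τ => Real.exp (-B) * W τ) (j + 1) (q, S))
      (B - (lext L x (fun σ => Real.log (W fun i => σ (S i))) q - lsum L x q)) := by
  set P := ∑ st, gibbs (sW L x q) st * (Real.exp (-B) * W fun i => st.2 (S i)) with hP
  have hF : ∀ τ, Real.exp (-(2 * B)) ≤ Real.exp (-B) * W τ ∧ Real.exp (-B) * W τ ≤ 1 := fun τ => by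
    have h := abs_le.1 (hW τ)
    rw [← Real.exp_log (hpos τ), ← Real.exp_add]
    exact ⟨Real.exp_le_exp.2 (by linarith), Real.exp_le_one_iff.2 (by linarith)⟩
  obtain ⟨hP1, hP2⟩ := gibbs_mean_mem L x q
    (G := fun st : St N K n => Real.exp (-B) * W fun i => st.2 (S i)) fun st => hF _
  have hP0 : 0 < P := (Real.exp_pos _).trans_le hP1
  have hT := Finset.sum_pos (fun st _ => sW_pos L x q st) Finset.univ_nonempty
  have e : lext L x (fun σ => Real.log (W fun i => σ (S i))) q - lsum L x q = B + Real.log P := by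
    have hE : P = Real.exp (-B) * ((∑ st, sW L x q st * Real.exp (Real.log (W fun i => st.2 (S i)))) /
        ∑ st, sW L x q st) := by
      simp only [hP, gibbs, Real.exp_log (hpos _), Finset.sum_div, Finset.mul_sum]
      exact Finset.sum_congr rfl fun st _ => by ring
    have hne : 0 < ∑ st, sW L x q st * Real.exp (Real.log (W fun i => st.2 (S i))) :=
      Finset.sum_pos (fun st _ => mul_pos (sW_pos L x q st) (Real.exp_pos _)) Finset.univ_nonempty
    rw [hE, Real.log_mul (Real.exp_pos _).ne' (div_pos hne hT).ne', Real.log_exp,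
      Real.log_div hne.ne' hT.ne', lext, lsum]
    ring
  have h := Real.hasSum_pow_div_log_of_abs_lt_one (x := 1 - P)
    (by rw [abs_of_nonneg (by linarith)]; linarith)
  rw [sub_sub_cancel] at h
  rw [e, show B - (B + Real.log P) = -Real.log P by ring]
  refine h.congr_fun fun j => ?_
  rw [defect_eq, inv_mul_eq_div]

variable [NeZero N] [NeZero n] (μ : Measure (Clause Kc)) (ν : Measure ℝ) [IsProbabilityMeasure μ]
  [IsProbabilityMeasure ν]

/-- The defects are the replica means of the system. -/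
theorem defect_sysRep {L : ℝ} (c s : ℝ≥0) (hμ : ∀ᵐ θ ∂μ, ∀ σ, |θ σ| ≤ L)
    (hν : ∀ᵐ h ∂ν, |h| ≤ L) {x : ℕ → ℝ} (hx : ∀ j, x j ∈ Set.Icc (1 : ℝ) 2) {F : (ℕ → Bool) → ℝ}
    {δ : ℝ} (hF : Measurable F) (hFb : ∀ τ, δ ≤ F τ ∧ F τ ≤ 1) {D : ℕ}
    (hD : ∀ τ τ', (∀ i < D, τ i = τ' i) → F τ = F τ') (r : ℕ) :
    ∫ w, defect L x F r w ∂(sysLaw μ ν N c s K n).prod (siteLaw N) =
      sysRep μ ν N c s K n x (r := r) (M := D) fun _ τ =>
        ∏ a, (1 - F fun i => if h : i < D then τ a ⟨i, h⟩ else false) := by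
  have : IsProbabilityMeasure (unif (Fin N)) := unif_prob
  have : IsProbabilityMeasure (siteLaw N) := by unfold siteLaw; infer_instance
  have hi : Integrable (defect L x F r) ((sysLaw μ ν N c s K n).prod (siteLaw N)) :=
    (integrable_const ((1 - δ) ^ r)).mono' (measurable_defect L x hF r).aestronglyMeasurable
      (ae_of_all _ fun w => by
        rw [Real.norm_eq_abs, abs_of_nonneg (defect_mem L x hFb r w).1]
        exact (defect_mem L x hFb r w).2)
  let H : Env Kc N K n → ℝ := fun q => ∫ S, defect L x F r (q, S) ∂siteLaw N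
  let H' : Env Kc N K n → ℝ := fun q => ∫ site : Fin D → Fin N,
    avg (sysW x q.1 q.2.1 q.2.2) r (fun st => ∏ a, (1 - F fun i =>
      if h : i < D then (st a).2 (site ⟨i, h⟩) else false)) ∂(Measure.pi fun _ => unif (Fin N))
  have heq : H =ᵐ[sysLaw μ ν N c s K n] H' := by
    filter_upwards [ae_sW_eq μ ν (K := K) (n := n) c s hμ hν
      (fun j => ⟨by linarith [(hx j).1], by linarith [(hx j).2]⟩)] with q hq
    have hr : (Measure.pi fun _ : Fin D => unif (Fin N)) =
        (siteLaw N).map fun (S : ℕ → Fin N) (i : Fin D) => S i := by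
      rw [siteLaw, infinitePi_reindex Fin.val_injective, Measure.infinitePi_eq_pi]
    simp only [H, H']
    rw [hr, integral_map (φ := fun (S : ℕ → Fin N) (i : Fin D) => S i)
      (measurable_pi_lambda (fun (S : ℕ → Fin N) (i : Fin D) => S i) fun i =>
        measurable_pi_apply (i : ℕ)).aemeasurable
      (measurable_of_countable _).aestronglyMeasurable]
    refine integral_congr_ae (ae_of_all _ fun S => ?_)
    simp only [defect, hq]
    exact Finset.sum_congr rfl fun st _ => congrArg _ (Finset.prod_congr rfl fun a _ =>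
      congrArg (1 - ·) (hD _ _ fun i hi => by rw [dif_pos hi]))
  have hH : Integrable H (sysLaw μ ν N c s K n) := hi.integral_prod_left
  have hH' : Integrable H' (sysLaw μ ν N c s K n) := hH.congr heq
  rw [integral_prod _ hi, integral_congr_ae heq]
  unfold sysLaw at hH' ⊢
  rw [integral_prod _ hH']
  refine integral_congr_ae ?_
  filter_upwards [hH'.prod_right_ae] with z hz
  rw [integral_prod _ hz]

/-- The gain of a fixed factor as a series. -/
theorem gain_series {L : ℝ} (c s : ℝ≥0) (x : ℕ → ℝ) {W : (ℕ → Bool) → ℝ} {B : ℝ}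
    (hm : Measurable W) (hpos : ∀ τ, 0 < W τ) (hW : ∀ τ, |Real.log (W τ)| ≤ B) :
    ∫ S, gain μ ν L c s K n x (fun σ => Real.log (W fun i => σ (S i))) ∂siteLaw N =
      B - ∑' j : ℕ, ((j : ℝ) + 1)⁻¹ * ∫ w, defect L x (fun τ => Real.exp (-B) * W τ) (j + 1) w
        ∂(sysLaw μ ν N c s K n).prod (siteLaw N) := by
  have : IsProbabilityMeasure (unif (Fin N)) := unif_prob
  have : IsProbabilityMeasure (siteLaw N) := by unfold siteLaw; infer_instance
  set δ := Real.exp (-(2 * B)) with hδ
  have hB : 0 ≤ B := (abs_nonneg _).trans (hW fun _ => true)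
  have hF : ∀ τ, δ ≤ Real.exp (-B) * W τ ∧ Real.exp (-B) * W τ ≤ 1 := fun τ => by
    have h := abs_le.1 (hW τ)
    rw [← Real.exp_log (hpos τ), ← Real.exp_add]
    exact ⟨Real.exp_le_exp.2 (by linarith), Real.exp_le_one_iff.2 (by linarith)⟩
  have hδ1 : δ ≤ 1 := Real.exp_le_one_iff.2 (by linarith)
  set P := (sysLaw μ ν N c s K n).prod (siteLaw N) with hP
  have hmd := fun j : ℕ => measurable_defect (Kc := Kc) (N := N) (K := K) (n := n) L x
    (hm.const_mul (Real.exp (-B))) (j + 1)
  have hid : ∀ j : ℕ, Integrable (fun w => ((j : ℝ) + 1)⁻¹ *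
      defect L x (fun τ => Real.exp (-B) * W τ) (j + 1) w) P := fun j =>
    ((integrable_const ((1 - δ) ^ (j + 1))).mono' (hmd j).aestronglyMeasurable (ae_of_all _ fun w => by
      rw [Real.norm_eq_abs, abs_of_nonneg (defect_mem L x hF _ w).1]
      exact (defect_mem L x hF _ w).2)).const_mul _
  have hsum : Summable fun j : ℕ => ∫ w, ‖((j : ℝ) + 1)⁻¹ *
      defect L x (fun τ => Real.exp (-B) * W τ) (j + 1) w‖ ∂P := by
    refine Summable.of_nonneg_of_le (fun j => integral_nonneg fun w => norm_nonneg _) (fun j => ?_)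
      ((summable_geometric_of_lt_one (sub_nonneg.2 hδ1)
        (by linarith [Real.exp_pos (-(2 * B))])).mul_left (1 - δ))
    refine (integral_mono (hid j).norm (integrable_const ((1 - δ) * (1 - δ) ^ j)) fun w => ?_).trans_eq
      (by simp)
    dsimp only
    rw [Real.norm_eq_abs, abs_of_nonneg (mul_nonneg (by positivity) (defect_mem L x hF _ w).1),
      ← pow_succ']
    exact (mul_le_of_le_one_left (defect_mem L x hF _ w).1 (inv_le_one_of_one_le₀ (by
      linarith [Nat.cast_nonneg (α := ℝ) j]))).trans (defect_mem L x hF _ w).2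
  have hts := integral_tsum_of_summable_integral_norm hid hsum
  simp only [integral_const_mul] at hts
  let f : (ℕ → Fin N) → (Fin N → Bool) → ℝ := fun S σ => Real.log (W fun i => σ (S i))
  have hfm : ∀ σ, Measurable fun S => f S σ := fun σ =>
    Real.measurable_log.comp (hm.comp (measurable_pi_lambda _ fun i =>
      (measurable_of_countable σ).comp (measurable_pi_apply i)))
  have hg : Measurable fun w : Env Kc N K n × (ℕ → Fin N) => lext L x (f w.2) w.1 - lsum L x w.1 :=
    (Measurable.comp (g := fun p : ((ℕ → ℝ) × (ℕ → Fin N)) × Env Kc N K n => lext L p.1.1 (f p.1.2) p.2)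
      (f := fun w : Env Kc N K n × (ℕ → Fin N) => ((x, w.2), w.1)) (measurable_lext hfm L)
      ((measurable_const.prodMk measurable_snd).prodMk measurable_fst)).sub
    (Measurable.comp (g := fun p : (ℕ → ℝ) × Env Kc N K n => lsum L p.1 p.2)
      (f := fun w : Env Kc N K n × (ℕ → Fin N) => (x, w.1)) (measurable_lsum L)
      (measurable_const.prodMk measurable_fst))
  have hgi : Integrable (fun w : Env Kc N K n × (ℕ → Fin N) => lext L x (f w.2) w.1 - lsum L x w.1) P :=
    (integrable_const B).mono' hg.aestronglyMeasurable (ae_of_all _ fun w =>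
      abs_lext_sub (L := L) x (fun σ => hW _) w.1)
  have e1 : ∫ S, gain μ ν L c s K n x (f S) ∂siteLaw N =
      ∫ w, (lext L x (f w.2) w.1 - lsum L x w.1) ∂P := (integral_prod_symm _ hgi).symm
  rw [e1]
  have e2 : ∀ w : Env Kc N K n × (ℕ → Fin N),
      ∑' j : ℕ, ((j : ℝ) + 1)⁻¹ * defect L x (fun τ => Real.exp (-B) * W τ) (j + 1) w =
        B - (lext L x (f w.2) w.1 - lsum L x w.1) := fun w =>
    (lext_series L x hpos hW w.1 w.2).tsum_eq
  simp only [e2] at hts
  rw [hts, integral_sub (integrable_const _) hgi, integral_const, probReal_univ, one_smul]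
  ring

end Vale.Agent.P168.CavBound
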