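import Vale.Agent.P168.CavBound.Series

/-!
P168: the cavity functional of a limit array as the limit of the gains.
-/

open MeasureTheory ProbabilityTheory Filter Topology
open scoped NNReal ENNReal

noncomputable section

namespace Vale.Agent.P168.CavBound

variable {Kc K : ℕ}

/-- The replicas of the systems along a sequence converge to those of an array. -/
def RepConv (A : Arr K) (μ : Measure (Clause Kc)) (ν : Measure ℝ) (Nk : ℕ → ℕ) (ck sk : ℕ → ℝ≥0)
    (nk : ℕ → ℕ) (xk : ℕ → ℕ → ℝ) : Prop :=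
  ∀ (r M : ℕ) (g : Lvls K r → (Fin r → Fin M → Bool) → ℝ), 1 ≤ r →
    Tendsto (fun k => sysRep μ ν (Nk k) (ck k) (sk k) K (nk k) (xk k) g) atTop
      (𝓝 (A.rep fun U σ => g U fun a i => σ a i))

/-- Gains converge to the series over the replicas of the array. -/
theorem objF_tendsto {U : Type} [MeasurableSpace U] (ρ : Measure U) [IsProbabilityMeasure ρ]
    (μ : Measure (Clause Kc)) (ν : Measure ℝ) [IsProbabilityMeasure μ] [IsProbabilityMeasure ν]
    {L : ℝ} (hμ : ∀ᵐ θ ∂μ, ∀ σ, |θ σ| ≤ L) (hν : ∀ᵐ h ∂ν, |h| ≤ L) (A : Arr K)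
    (Nk : ℕ → ℕ) (ck sk : ℕ → ℝ≥0) (nk : ℕ → ℕ) (xk : ℕ → ℕ → ℝ)
    (hN : ∀ k, NeZero (Nk k)) (hn : ∀ k, NeZero (nk k)) (hx : ∀ k j, xk k j ∈ Set.Icc (1 : ℝ) 2)
    (hconv : RepConv A μ ν Nk ck sk nk xk) {W : U → (ℕ → Bool) → ℝ}
    (hWm : Measurable (Function.uncurry W)) (hpos : ∀ u τ, 0 < W u τ) {Bd : U → ℝ}
    (hBi : Integrable Bd ρ) (hWb : ∀ u τ, |Real.log (W u τ)| ≤ Bd u)
    (hdep : ∀ u, ∃ D : ℕ, ∀ τ τ', (∀ i < D, τ i = τ' i) → W u τ = W u τ') :
    Tendsto (fun k => objF (ρ.prod (siteLaw (Nk k))) μ ν (Nk k) (ck k) (sk k) K (nk k) L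
        (fun t σ => Real.log (W t.1 fun i => σ (t.2 i))) (xk k)) atTop
      (𝓝 (∫ u, (Bd u + A.logMean fun τ => Real.exp (-Bd u) * W u τ) ∂ρ)) := by
  have hu : ∀ k, IsProbabilityMeasure (siteLaw (Nk k)) := fun k => by
    have := hN k
    have : IsProbabilityMeasure (unif (Fin (Nk k))) := unif_prob
    unfold siteLaw; infer_instance
  let f : ∀ k, U × (ℕ → Fin (Nk k)) → (Fin (Nk k) → Bool) → ℝ :=
    fun k t σ => Real.log (W t.1 fun i => σ (t.2 i))
  have hfm : ∀ k σ, Measurable fun t => f k t σ := fun k σ =>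
    Real.measurable_log.comp (hWm.comp (f := fun t : U × (ℕ → Fin (Nk k)) => (t.1, fun i => σ (t.2 i)))
      (measurable_fst.prodMk (measurable_pi_lambda _ fun i =>
        (measurable_of_countable σ).comp ((measurable_pi_apply i).comp measurable_snd))))
  let Φ : ℕ → U → ℝ := fun k u =>
    ∫ S, gain μ ν L (ck k) (sk k) K (nk k) (xk k) (f k (u, S)) ∂siteLaw (Nk k)
  have hgm : ∀ k, Measurable fun t => gain μ ν L (ck k) (sk k) K (nk k) (xk k) (f k t) := fun k => by
    have := hN k; have := hn k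
    exact measurable_gain μ ν (hfm k) L _ _ _
  have e : ∀ k, objF (ρ.prod (siteLaw (Nk k))) μ ν (Nk k) (ck k) (sk k) K (nk k) L (f k) (xk k) =
      ∫ u, Φ k u ∂ρ := fun k => by
    have := hN k; have := hn k; have := hu k
    refine integral_prod (fun t => gain μ ν L (ck k) (sk k) K (nk k) (xk k) (f k t)) ?_
    exact (hBi.comp_fst _).mono' (hgm k).aestronglyMeasurable
      (ae_of_all _ fun t => abs_gain_le μ ν L _ _ _ fun σ => hWb _ _)
  simp only [show (fun k => objF (ρ.prod (siteLaw (Nk k))) μ ν (Nk k) (ck k) (sk k) K (nk k) L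
    (fun t σ => Real.log (W t.1 fun i => σ (t.2 i))) (xk k)) = fun k => ∫ u, Φ k u ∂ρ from funext e]
  refine tendsto_integral_of_dominated_convergence Bd (fun k => ?_) hBi (fun k => ?_) ?_
  · have := hu k
    exact (hgm k).stronglyMeasurable.integral_prod_right'.aestronglyMeasurable
  · have := hN k; have := hn k; have := hu k
    exact ae_of_all _ fun u => abs_mean_le fun S => abs_gain_le μ ν L _ _ _ fun σ => hWb _ _
  refine ae_of_all _ fun u => ?_
  set B := Bd u with hB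
  have hB0 : 0 ≤ B := (abs_nonneg _).trans (hWb u fun _ => true)
  set F : (ℕ → Bool) → ℝ := fun τ => Real.exp (-B) * W u τ with hFdef
  set δ := Real.exp (-(2 * B)) with hδdef
  have hδ1 : δ ≤ 1 := Real.exp_le_one_iff.2 (by linarith)
  have hF : ∀ τ, δ ≤ F τ ∧ F τ ≤ 1 := fun τ => by
    have h := abs_le.1 (hWb u τ)
    rw [hFdef]
    simp only
    rw [← Real.exp_log (hpos u τ), ← Real.exp_add]
    exact ⟨Real.exp_le_exp.2 (by linarith), Real.exp_le_one_iff.2 (by linarith)⟩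
  have hWu : Measurable (W u) := hWm.comp measurable_prodMk_left
  have hser : ∀ k, Φ k u = B - ∑' j : ℕ, ((j : ℝ) + 1)⁻¹ *
      ∫ w, defect L (xk k) F (j + 1) w
        ∂(sysLaw μ ν (Nk k) (ck k) (sk k) K (nk k)).prod (siteLaw (Nk k)) := fun k => by
    have := hN k; have := hn k
    exact gain_series μ ν (ck k) (sk k) (xk k) hWu (hpos u) (hWb u)
  simp only [hser, Arr.logMean, ← sub_eq_add_neg]
  obtain ⟨D, hD⟩ := hdep u
  have hFD : ∀ τ τ', (∀ i < D, τ i = τ' i) → F τ = F τ' := fun τ τ' h => by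
    simp only [hFdef, hD τ τ' h]
  refine Tendsto.const_sub B (tendsto_tsum_of_dominated_convergence
    (bound := fun j : ℕ => (1 - δ) * (1 - δ) ^ j) ?_ (fun j => ?_) ?_)
  · exact (summable_geometric_of_lt_one (sub_nonneg.2 hδ1)
      (by linarith [Real.exp_pos (-(2 * B))])).mul_left _
  · refine Tendsto.const_mul _ ?_
    have h := hconv (j + 1) D (fun _ τ =>
      ∏ a, (1 - F fun i => if h : i < D then τ a ⟨i, h⟩ else false)) (Nat.succ_pos j)
    convert h using 2 with k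
    · have := hN k; have := hn k
      exact defect_sysRep μ ν (ck k) (sk k) hμ hν (hx k) (hWu.const_mul _) hF hFD (j + 1)
    · exact congrArg A.rep (funext fun _ => funext fun σ => Finset.prod_congr rfl fun a _ =>
        congrArg (1 - ·) (hFD _ _ fun i hi => by rw [dif_pos hi]))
  · refine Eventually.of_forall fun k j => ?_
    have := hN k; have := hn k; have := hu k
    rw [norm_mul, Real.norm_eq_abs, Real.norm_eq_abs, ← pow_succ',
      abs_of_nonneg (by positivity : (0 : ℝ) ≤ ((j : ℝ) + 1)⁻¹)]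
    exact (mul_le_of_le_one_left (abs_nonneg _) (inv_le_one_of_one_le₀ (by
      linarith [Nat.cast_nonneg (α := ℝ) j]))).trans (abs_mean_le fun w => by
        rw [abs_of_nonneg (defect_mem L (xk k) hF _ w).1]
        exact (defect_mem L (xk k) hF _ w).2)

theorem clU_eq {M : ℕ} {L : ℝ} {u : CavU Kc M} (h1 : ∀ s j σ, |((u.1 s).2 j).1 σ| ≤ L)
    (h2 : ∀ s, |u.2 s| ≤ L) : clU L u = u := by
  refine Prod.ext (funext fun s => ?_) (funext fun s => cl_eq (abs_le.1 (h2 s)))
  have h1s := h1 s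
  show lmap (fun e : Clause Kc × Fin Kc => (clT L e.1, e.2)) (u.1 s) = u.1 s
  revert h1s
  generalize u.1 s = p
  obtain ⟨k, v⟩ := p
  intro h1s
  exact congrArg (Sigma.mk k) (funext fun j =>
    Prod.ext (funext fun σ => cl_eq (abs_le.1 (h1s j σ))) rfl)

theorem clV_eq {L : ℝ} {v : PL (Clause Kc)} (h : ∀ j σ, |v.2 j σ| ≤ L) : clV L v = v := by
  obtain ⟨k, c⟩ := v
  exact congrArg (Sigma.mk k) (funext fun j => funext fun σ => cl_eq (abs_le.1 (h j σ)))

theorem dep_cavU {M : ℕ} (u : CavU Kc M) :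
    ∃ D : ℕ, ∀ τ τ', (∀ i < D, τ i = τ' i) → cavU u τ = cavU u τ' := by
  refine ⟨∑ s : Fin M, ∑ j : Fin (u.1 s).1, ∑ p : Fin Kc, (2 * Nat.pair s (Nat.pair j p) + 1),
    fun τ τ' h => ?_⟩
  refine Finset.prod_congr rfl fun s _ => Finset.sum_congr rfl fun e _ => congrArg _
    (Finset.prod_congr rfl fun j _ => congrArg _ (congrArg _ (funext fun p => ?_)))
  refine congrArg (fun b => if p = ((u.1 s).2 j).2 then e else b) (h _ ?_)
  refine Nat.lt_of_lt_of_le (Nat.lt_succ_self _) ?_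
  exact (Finset.single_le_sum (f := fun p : Fin Kc => 2 * Nat.pair s (Nat.pair j p) + 1)
    (fun _ _ => Nat.zero_le _) (Finset.mem_univ p)).trans
    ((Finset.single_le_sum (f := fun j : Fin (u.1 s).1 =>
      ∑ p : Fin Kc, (2 * Nat.pair s (Nat.pair j p) + 1)) (fun _ _ => Nat.zero_le _)
      (Finset.mem_univ j)).trans (Finset.single_le_sum (f := fun s : Fin M =>
      ∑ j : Fin (u.1 s).1, ∑ p : Fin Kc, (2 * Nat.pair s (Nat.pair j p) + 1))
      (fun _ _ => Nat.zero_le _) (Finset.mem_univ s)))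

theorem dep_cavV (v : PL (Clause Kc)) :
    ∃ D : ℕ, ∀ τ τ', (∀ i < D, τ i = τ' i) → cavV v τ = cavV v τ' := by
  refine ⟨∑ j : Fin v.1, ∑ p : Fin Kc, (2 * Nat.pair j p + 2), fun τ τ' h => ?_⟩
  refine Finset.prod_congr rfl fun j _ => congrArg _ (congrArg _ (funext fun p => h _ ?_))
  refine Nat.lt_of_lt_of_le (Nat.lt_succ_self _) ?_
  exact (Finset.single_le_sum (f := fun p : Fin Kc => 2 * Nat.pair j p + 2)
    (fun _ _ => Nat.zero_le _) (Finset.mem_univ p)).trans (Finset.single_le_sum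
      (f := fun j : Fin v.1 => ∑ p : Fin Kc, (2 * Nat.pair j p + 2))
      (fun _ _ => Nat.zero_le _) (Finset.mem_univ j))

/-- The gains of both factors converge to the cavity functional. -/
theorem obj_tendsto {M : ℕ} [NeZero Kc] {lam L : ℝ} (hL : 0 ≤ L) (μ : Measure (Clause Kc))
    (ν : Measure ℝ) [IsProbabilityMeasure μ] [IsProbabilityMeasure ν]
    (hμ : ∀ᵐ θ ∂μ, ∀ σ, |θ σ| ≤ L) (hν : ∀ᵐ h ∂ν, |h| ≤ L) (A : Arr K) (Nk : ℕ → ℕ)
    (ck sk : ℕ → ℝ≥0) (nk : ℕ → ℕ) (xk : ℕ → ℕ → ℝ) (hN : ∀ k, NeZero (Nk k))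
    (hn : ∀ k, NeZero (nk k)) (hx : ∀ k j, xk k j ∈ Set.Icc (1 : ℝ) 2)
    (hconv : RepConv A μ ν Nk ck sk nk xk) :
    Tendsto (fun k =>
      objF ((uLaw μ ν lam M).prod (siteLaw (Nk k))) μ ν (Nk k) (ck k) (sk k) K (nk k) L (fU L) (xk k) -
      objF ((vLaw μ lam M).prod (siteLaw (Nk k))) μ ν (Nk k) (ck k) (sk k) K (nk k) L (fV L) (xk k))
      atTop (𝓝 (cavity A lam μ ν L M)) := by
  have : IsProbabilityMeasure (unif (Fin Kc)) := unif_prob
  have : IsProbabilityMeasure (uLaw μ ν lam M) := by unfold uLaw; infer_instance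
  have : IsProbabilityMeasure (vLaw μ lam M) := by unfold vLaw; infer_instance
  have hbu : Integrable (bdU (Kc := Kc) (M := M) L) (uLaw μ ν lam M) := by
    refine Integrable.comp_fst (f := fun w : Fin M → PL (Clause Kc × Fin Kc) =>
      ∑ s, (L + Real.log 2 + L * ((w s).1 : ℝ))) ?_ _
    exact integrable_finsetSum _ fun i _ => (integrable_const _).add
      (((measurePreserving_eval (μ := fun _ : Fin M => plaw ((Kc : ℝ) * lam).toNNReal
        (μ.prod (unif (Fin Kc)))) i).integrable_comp_of_integrable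
          (integrable_len _ (μ.prod (unif (Fin Kc))))).const_mul L)
  have hbv : Integrable (fun v : PL (Clause Kc) => L * (v.1 : ℝ)) (vLaw μ lam M) :=
    (integrable_len _ μ).const_mul L
  have hU := objF_tendsto (uLaw μ ν lam M) μ ν hμ hν A Nk ck sk nk xk hN hn hx hconv
    (W := fun u τ => cavU (clU L u) τ) (Bd := bdU L)
    (measurable_cavU2.comp (f := fun w : CavU Kc M × (ℕ → Bool) => (clU L w.1, w.2))
      (((measurable_clU L).comp measurable_fst).prodMk measurable_snd))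
    (fun u τ => cavU_pos _ τ) hbu (fun u τ => abs_log_cavU hL u τ) fun u => dep_cavU _
  have hV := objF_tendsto (vLaw μ lam M) μ ν hμ hν A Nk ck sk nk xk hN hn hx hconv
    (W := fun v τ => cavV (clV L v) τ) (Bd := fun v => L * (v.1 : ℝ))
    (measurable_cavV2.comp (f := fun w : PL (Clause Kc) × (ℕ → Bool) => (clV L w.1, w.2))
      (((measurable_lmap (measurable_clT L)).comp measurable_fst).prodMk measurable_snd))
    (fun v τ => cavV_pos _ τ) hbv (fun v τ => abs_log_cavV hL v τ) fun v => dep_cavV _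
  have hlim : cavity A lam μ ν L M =
      (∫ u, (bdU L u + A.logMean fun τ => Real.exp (-bdU L u) * cavU (clU L u) τ) ∂uLaw μ ν lam M) -
      ∫ v, (L * v.1 + A.logMean fun τ => Real.exp (-(L * v.1)) * cavV (clV L v) τ) ∂vLaw μ lam M := by
    unfold cavity
    congr 1
    · refine integral_congr_ae ?_
      have hc : ∀ᵐ t ∂μ.prod (unif (Fin Kc)), ∀ σ, |(t : Clause Kc × Fin Kc).1 σ| ≤ L :=
        Measure.quasiMeasurePreserving_fst.ae hμ
      have h1 : ∀ᵐ w ∂(Measure.pi fun _ : Fin M => plaw ((Kc : ℝ) * lam).toNNReal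
          (μ.prod (unif (Fin Kc)))), ∀ s j σ, |((w s).2 j).1 σ| ≤ L :=
        ae_all_iff.2 fun s => (measurePreserving_eval
          (μ := fun _ : Fin M => plaw ((Kc : ℝ) * lam).toNNReal (μ.prod (unif (Fin Kc)))) s
          ).quasiMeasurePreserving.ae (CavTrial.ae_plaw (P := fun t => ∀ σ, |t.1 σ| ≤ L) hc)
      have h2 : ∀ᵐ h ∂(Measure.pi fun _ : Fin M => ν), ∀ s, |h s| ≤ L :=
        ae_all_iff.2 fun s => (measurePreserving_eval (μ := fun _ : Fin M => ν) s).quasiMeasurePreserving.ae hν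
      filter_upwards [Measure.quasiMeasurePreserving_fst.ae h1,
        Measure.quasiMeasurePreserving_snd.ae h2] with u hu1 hu2
      rw [clU_eq hu1 hu2]
      rfl
    · refine integral_congr_ae ?_
      filter_upwards [CavTrial.ae_plaw (P := fun θ : Clause Kc => ∀ σ, |θ σ| ≤ L) hμ] with v hv
      rw [clV_eq hv]
  rw [hlim]
  exact hU.sub hV

end Vale.Agent.P168.CavBound
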