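import Vale.Agent.P168.CavBound.Lists

/-!
P168: uniform sites among old and new sites, numerical bounds for the numbers of clauses, and
independent sites read along injective maps.
-/

open MeasureTheory ProbabilityTheory Filter Topology
open scoped NNReal ENNReal

noncomputable section

namespace Vale.Agent.P168.CavBound

variable {Kc N M : ℕ}

/-- The uniform law of a finite set. -/
theorem unif_finset {S : Type*} [Fintype S] [Nonempty S] [MeasurableSpace S]
    [MeasurableSingletonClass S] (s : Finset S) :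
    unif S (s : Set S) = (((Fintype.card S : ℝ≥0)⁻¹ * s.card : ℝ≥0) : ℝ≥0∞) := by
  rw [unif, Measure.smul_apply, Measure.count_apply_finset, ENNReal.smul_def, smul_eq_mul,
    ENNReal.coe_mul, ENNReal.coe_natCast]

theorem unif_singleton {S : Type*} [Fintype S] [Nonempty S] [MeasurableSpace S]
    [MeasurableSingletonClass S] (t : S) :
    unif S {t} = (((Fintype.card S : ℝ≥0)⁻¹ : ℝ≥0) : ℝ≥0∞) := by
  simpa using unif_finset ({t} : Finset S)

/-- Independent uniform values are uniform. -/
theorem pi_unif {J S : Type*} [Fintype J] [DecidableEq J] [Fintype S] [Nonempty S]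
    [MeasurableSpace S] [MeasurableSingletonClass S] :
    Measure.pi (fun _ : J => unif S) = unif (J → S) := by
  have : IsProbabilityMeasure (unif S) := unif_prob
  refine Measure.ext_of_singleton fun t => ?_
  rw [Measure.pi_singleton, unif_singleton]
  simp [unif_singleton, ENNReal.coe_inv, ENNReal.inv_pow]

/-- The old part of a vector of sites. -/
def oldSites (s : Fin Kc → Fin N) : Fin Kc → Fin (N + M) := fun p => Fin.castAdd M (s p)

/-- A vector of sites with one new site. -/
def oneSites (x : (Fin Kc × Fin M) × (Fin Kc → Fin N)) : Fin Kc → Fin (N + M) :=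
  Function.update (oldSites x.2) x.1.1 (Fin.natAdd N x.1.2)

/-- The positions of new sites. -/
def newPos (t : Fin Kc → Fin (N + M)) : Finset (Fin Kc) :=
  Finset.univ.filter fun p => N ≤ (t p : ℕ)

theorem mem_newPos {t : Fin Kc → Fin (N + M)} {p : Fin Kc} : p ∈ newPos t ↔ N ≤ (t p : ℕ) := by
  simp [newPos]

theorem card_old (t : Fin Kc → Fin (N + M)) :
    (Finset.univ.filter fun s : Fin Kc → Fin N => oldSites (M := M) s = t).card =
      if (newPos t).card = 0 then 1 else 0 := by
  split_ifs with h
  · have h' : ∀ p, (t p : ℕ) < N := fun p => by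
      have := Finset.card_eq_zero.1 h
      by_contra hp
      have : p ∈ newPos t := by simp [newPos]; omega
      simp_all
    rw [Finset.card_eq_one]
    refine ⟨fun p => ⟨t p, h' p⟩, Finset.ext fun s => ?_⟩
    simp only [Finset.mem_filter, Finset.mem_univ, true_and, Finset.mem_singleton]
    constructor
    · rintro rfl; funext p; simp [oldSites]
    · rintro rfl; funext p; simp [oldSites]
  · refine Finset.card_eq_zero.2 (Finset.filter_eq_empty_iff.2 fun s _ hs => h ?_)
    subst hs
    refine Finset.card_eq_zero.2 (Finset.ext fun p => ?_)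
    simp only [mem_newPos, oldSites, Finset.notMem_empty, iff_false, Fin.val_castAdd, not_le]
    exact (s p).isLt

theorem card_one [NeZero N] (t : Fin Kc → Fin (N + M)) :
    (Finset.univ.filter fun x : (Fin Kc × Fin M) × (Fin Kc → Fin N) => oneSites x = t).card =
      if (newPos t).card = 1 then N else 0 := by
  split_ifs with h
  · obtain ⟨p₀, hp₀⟩ := Finset.card_eq_one.1 h
    have hn : N ≤ (t p₀ : ℕ) := by
      have : p₀ ∈ newPos t := by rw [hp₀]; simp
      simpa [newPos] using this
    have ho : ∀ p, p ≠ p₀ → (t p : ℕ) < N := fun p hp => by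
      by_contra hc
      have : p ∈ newPos t := by simp [newPos]; omega
      rw [hp₀] at this
      simp [hp] at this
    let g : Fin N → (Fin Kc × Fin M) × (Fin Kc → Fin N) := fun u =>
      ((p₀, ⟨(t p₀ : ℕ) - N, by omega⟩), fun p => if hp : p = p₀ then u else ⟨t p, ho p hp⟩)
    have hg : Function.Injective g := fun u v huv => by
      simpa [g] using congrArg (fun x => x.2 p₀) huv
    calc _ = (Finset.univ.image g).card := congrArg Finset.card (Finset.ext fun x => ?_)
      _ = N := by rw [Finset.card_image_of_injective _ hg]; simp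
    simp only [Finset.mem_filter, Finset.mem_univ, true_and, Finset.mem_image]
    constructor
    · rintro rfl
      obtain ⟨⟨p, u⟩, s⟩ := x
      have hp : p = p₀ := by
        by_contra hp
        have := ho p hp
        simp [oneSites] at this
      subst hp
      refine ⟨s p, Prod.ext (Prod.ext rfl (Fin.ext ?_)) (funext fun q => ?_)⟩
      · simp [g, oneSites]
      · by_cases hq : q = p
        · subst hq; simp [g]
        · simp [g, hq, oneSites, oldSites, Function.update_of_ne hq]
    · rintro ⟨u, rfl⟩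
      funext q
      by_cases hq : q = p₀
      · subst hq; refine Fin.ext ?_; simp [g, oneSites]; omega
      · refine Fin.ext ?_; simp [g, oneSites, oldSites, Function.update_of_ne hq, hq]
  · refine Finset.card_eq_zero.2 (Finset.filter_eq_empty_iff.2 fun x _ hx => h ?_)
    subst hx
    rw [Finset.card_eq_one]
    refine ⟨x.1.1, Finset.ext fun q => ?_⟩
    by_cases hq : q = x.1.1
    · subst hq
      simp only [mem_newPos, oneSites, Finset.mem_singleton, Function.update_self, iff_true,
        Fin.val_natAdd]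
      omega
    · simp only [mem_newPos, oneSites, oldSites, Finset.mem_singleton, Function.update_of_ne hq, hq,
        iff_false, Fin.val_castAdd, not_le]
      exact (x.2 q).isLt

/-- Vectors of sites with at least two new ones. -/
def multi : Set (Fin Kc → Fin (N + M)) := {t | 2 ≤ (newPos t).card}

/-- The mean number of clauses with old sites only. -/
def cOld (lam : ℝ) (Kc N M : ℕ) : ℝ := lam * (N + M) * ((N : ℝ) / (N + M)) ^ Kc

/-- The mean number of clauses with one new site. -/
def cOne (lam : ℝ) (Kc N M : ℕ) : ℝ :=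
  lam * (N + M) * (Kc * ((M : ℝ) / (N + M)) * ((N : ℝ) / (N + M)) ^ (Kc - 1))

/-- The decomposition of a uniform vector of sites. -/
theorem sites_split [NeZero N] [NeZero M] [NeZero Kc] {lam : ℝ} (hlam : 0 ≤ lam) :
    ((lam * (N + M)).toNNReal : ℝ≥0∞) • unif (Fin Kc → Fin (N + M)) =
      ((cOld lam Kc N M).toNNReal : ℝ≥0∞) • (unif (Fin Kc → Fin N)).map oldSites +
        ((cOne lam Kc N M).toNNReal : ℝ≥0∞) •
          (unif ((Fin Kc × Fin M) × (Fin Kc → Fin N))).map oneSites +
        ((lam * (N + M)).toNNReal : ℝ≥0∞) • (unif (Fin Kc → Fin (N + M))).restrict multi := by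
  refine Measure.ext_of_singleton fun t => ?_
  simp only [Measure.add_apply, Measure.smul_apply, smul_eq_mul,
    Measure.map_apply (measurable_of_countable _) (measurableSet_singleton t),
    Measure.restrict_apply (measurableSet_singleton t)]
  rw [show oldSites ⁻¹' {t} = ((Finset.univ.filter fun s : Fin Kc → Fin N =>
      oldSites (M := M) s = t : Finset _) : Set (Fin Kc → Fin N)) by ext s; simp,
    show oneSites ⁻¹' {t} = ((Finset.univ.filter fun x : (Fin Kc × Fin M) × (Fin Kc → Fin N) =>
      oneSites x = t : Finset _) : Set _) by ext s; simp,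
    unif_finset, unif_finset, card_old, card_one]
  have hN : (0 : ℝ) < N := by exact_mod_cast NeZero.pos N
  have hM : (0 : ℝ) < M := by exact_mod_cast NeZero.pos M
  have hK : (0 : ℝ) < Kc := by exact_mod_cast NeZero.pos Kc
  rcases lt_or_ge (newPos t).card 2 with h | h
  · have hm : ({t} : Set _) ∩ multi = ∅ := by
      ext u; simp [multi]; rintro rfl; omega
    rw [hm, measure_empty, mul_zero, add_zero, unif_singleton, ← ENNReal.coe_mul, ← ENNReal.coe_mul,
      ← ENNReal.coe_mul, ← ENNReal.coe_add, ENNReal.coe_inj, ← NNReal.coe_inj]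
    have hc : 0 ≤ cOld lam Kc N M := by unfold cOld; positivity
    have ho : 0 ≤ cOne lam Kc N M := by unfold cOne; positivity
    simp only [NNReal.coe_mul, NNReal.coe_add, NNReal.coe_inv, NNReal.coe_natCast,
      Real.coe_toNNReal _ hc, Real.coe_toNNReal _ ho,
      Real.coe_toNNReal _ (show 0 ≤ lam * ((N : ℝ) + M) by positivity), Fintype.card_fun,
      Fintype.card_fin, Fintype.card_prod, Nat.cast_pow, Nat.cast_mul, Nat.cast_add]
    obtain ⟨k, rfl⟩ := Nat.exists_eq_succ_of_ne_zero (NeZero.ne Kc)
    interval_cases (newPos t).card <;>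
      simp only [cOld, cOne, Nat.succ_sub_one, Nat.succ_eq_add_one, one_ne_zero, zero_ne_one,
        if_true, if_false, Nat.cast_zero, Nat.cast_one, div_pow] <;>
      push_cast <;> field_simp <;> ring
  · have hm : ({t} : Set _) ∩ multi = {t} := by
      ext u; simp [multi]; rintro rfl; exact h
    rw [hm, if_neg (by omega), if_neg (by omega)]
    simp

theorem one_sub_pow_bounds {q : ℝ} (h0 : 0 ≤ q) (h1 : q ≤ 1) (m : ℕ) :
    1 - m * q ≤ (1 - q) ^ m ∧ (1 - q) ^ m ≤ 1 - m * q + (m * q) ^ 2 := by
  induction m with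
  | zero => simp
  | succ m ih =>
    rw [pow_succ]
    push_cast
    constructor
    · nlinarith [mul_le_mul_of_nonneg_right ih.1 (sub_nonneg.2 h1), mul_nonneg (mul_nonneg
        (Nat.cast_nonneg (α := ℝ) m) h0) h0]
    · nlinarith [mul_le_mul_of_nonneg_right ih.2 (sub_nonneg.2 h1), mul_nonneg (mul_nonneg
        (Nat.cast_nonneg (α := ℝ) m) h0) h0, mul_nonneg (mul_nonneg (sq_nonneg ((m : ℝ) * q)) h0)
        zero_le_one]

/-- Bounds of the mean numbers of clauses. -/
theorem counts [NeZero N] {lam : ℝ} (hlam : 0 ≤ lam) (hK : 1 ≤ Kc) :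
    (0 ≤ cOld lam Kc N M ∧ cOld lam Kc N M ≤ lam * N) ∧
    (0 ≤ cOne lam Kc N M ∧ |cOne lam Kc N M - lam * Kc * M| ≤ lam * (Kc * M) ^ 2 / N) ∧
    |lam * N - cOld lam Kc N M - lam * (Kc - 1) * M| ≤ lam * (2 * (Kc * M) ^ 2) / N ∧
    lam * (N + M) - cOld lam Kc N M - cOne lam Kc N M ≤ lam * (Kc * M) ^ 2 / N := by
  obtain ⟨m, rfl⟩ := Nat.exists_eq_add_of_le hK
  have hN : (0 : ℝ) < N := by exact_mod_cast NeZero.pos N
  have hM : (0 : ℝ) ≤ M := Nat.cast_nonneg _
  set q : ℝ := (M : ℝ) / (N + M) with hq
  have hq0 : 0 ≤ q := by positivity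
  have hq1 : q ≤ 1 := (div_le_one (by positivity)).2 (by linarith)
  have hp : (N : ℝ) / (N + M) = 1 - q := by rw [hq]; field_simp; ring
  obtain ⟨b1, b2⟩ := one_sub_pow_bounds hq0 hq1 m
  obtain ⟨c1, c2⟩ := one_sub_pow_bounds hq0 hq1 (1 + m)
  have hqN : q ≤ M / N := div_le_div_of_nonneg_left hM hN (by linarith)
  have hn : (N : ℝ) * q ≤ M := by
    have := mul_le_mul_of_nonneg_left hqN hN.le
    rwa [mul_div_cancel₀ _ hN.ne'] at this
  have hNM : ((N : ℝ) + M) * q = M := by rw [hq]; field_simp
  have e1 : cOld lam (1 + m) N M = lam * N * (1 - q) ^ m := by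
    rw [cOld, hp, pow_add, pow_one]
    linear_combination -(lam * (1 - q) ^ m) * hNM
  have e2 : cOne lam (1 + m) N M = lam * (1 + m) * M * (1 - q) ^ m := by
    rw [cOne, hp, Nat.add_sub_cancel_left]
    push_cast
    linear_combination (lam * (1 + m) * (1 - q) ^ m) * hNM
  have hpow : (1 - q) ^ m ≤ 1 := pow_le_one₀ (by linarith) (by linarith)
  have hpow0 : 0 ≤ (1 - q) ^ m := pow_nonneg (by linarith) _
  have hm : (0 : ℝ) ≤ m := Nat.cast_nonneg _
  rw [e1, e2]
  push_cast
  refine ⟨⟨by positivity, mul_le_of_le_one_right (by positivity) hpow⟩, ⟨by positivity, ?_⟩, ?_, ?_⟩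
  · rw [abs_le, le_div_iff₀ hN, neg_le, le_div_iff₀ hN]
    have h1 := mul_le_mul_of_nonneg_left (show 1 - (1 - q) ^ m ≤ m * q by linarith)
      (show 0 ≤ lam * (1 + m) * M * N by positivity)
    have h2 := mul_le_mul_of_nonneg_left hn (show 0 ≤ lam * (1 + m) * M * m by positivity)
    have h3 : 0 ≤ lam * (1 + m) * M * N * (1 - (1 - q) ^ m) :=
      mul_nonneg (by positivity) (by linarith)
    constructor <;> nlinarith [mul_nonneg (mul_nonneg (mul_nonneg hlam hM) hM) (add_nonneg zero_le_one hm)]
  · rw [abs_le, le_div_iff₀ hN, neg_le, le_div_iff₀ hN]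
    have hd : (N : ℝ) * q = M - M * q := by linarith
    have h2 := mul_le_mul_of_nonneg_left hn (show 0 ≤ lam * m * M by positivity)
    have h3 := mul_le_mul_of_nonneg_left hn (show 0 ≤ lam * m * N by positivity)
    have h4 := mul_le_mul_of_nonneg_left (pow_le_pow_left₀ (by positivity) hn 2)
      (show 0 ≤ lam * m ^ 2 by positivity)
    have h5 := mul_le_mul_of_nonneg_left b1 (show 0 ≤ lam * N * N by positivity)
    have h6 := mul_le_mul_of_nonneg_left b2 (show 0 ≤ lam * N * N by positivity)
    have h7 : lam * m * N * ((N : ℝ) * q) = lam * m * N * M - lam * m * M * ((N : ℝ) * q) := by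
      rw [hd]; linear_combination (-(lam * m * M)) * hd
    have h8 : 0 ≤ lam * ((1 + m) ^ 2 * M ^ 2) := by positivity
    have h9 : lam * m * M ^ 2 ≤ lam * ((1 + m) ^ 2 * M ^ 2) := by
      nlinarith [mul_nonneg hlam (sq_nonneg (M : ℝ)), mul_nonneg (mul_nonneg hlam hm) (sq_nonneg (M : ℝ))]
    have h10 : lam * m ^ 2 * M ^ 2 ≤ lam * ((1 + m) ^ 2 * M ^ 2) := by
      nlinarith [mul_nonneg hlam (sq_nonneg (M : ℝ)), mul_nonneg (mul_nonneg hlam hm) (sq_nonneg (M : ℝ))]
    constructor <;> linarith
  · rw [le_div_iff₀ hN]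
    have h5 := mul_le_mul_of_nonneg_left b1 (show 0 ≤ lam * N * (N + (1 + m) * M) by positivity)
    have h2 := mul_le_mul_of_nonneg_left hn (show 0 ≤ lam * m * (1 + m) * M by positivity)
    have h3 := mul_le_mul_of_nonneg_left hn (show 0 ≤ lam * N * m by positivity)
    have h4 : 0 ≤ lam * (1 + m) * M ^ 2 := by positivity
    linarith

/-- Independent sites. -/
def siteLaw (N : ℕ) : Measure (ℕ → Fin N) := Measure.infinitePi fun _ => unif (Fin N)

/-- Values read along an injective map are independent. -/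
theorem infinitePi_reindex {S A : Type*} [MeasurableSpace S] {ρ : Measure S}
    [IsProbabilityMeasure ρ] {f : A → ℕ} (hf : Function.Injective f) :
    (Measure.infinitePi fun _ : ℕ => ρ).map (fun l a => l (f a)) =
      Measure.infinitePi fun _ : A => ρ := by
  classical
  refine Measure.eq_infinitePi _ fun s t ht => ?_
  rw [Measure.map_apply (measurable_pi_lambda _ fun a => measurable_pi_apply (f a))
    (MeasurableSet.pi s.countable_toSet fun i _ => ht i)]
  have e : (fun (l : ℕ → S) a => l (f a)) ⁻¹' (Set.pi (s : Set A) t)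
      = Set.pi (s.image f : Set ℕ) (Function.extend f t fun _ => Set.univ) := by
    ext l
    simp only [Set.mem_preimage, Set.mem_pi, Finset.coe_image, Set.mem_image]
    constructor
    · rintro h i ⟨k, hk, rfl⟩
      rw [hf.extend_apply]
      exact h k hk
    · intro h k hk
      have := h (f k) ⟨k, hk, rfl⟩
      rwa [hf.extend_apply] at this
  rw [e, Measure.infinitePi_pi _ fun i hi => ?_, Finset.prod_image hf.injOn]
  · simp only [hf.extend_apply]
  · obtain ⟨k, -, rfl⟩ := Finset.mem_image.1 hi
    rw [hf.extend_apply]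
    exact ht k

/-- A list with values read off a sequence. -/
def attach {T S : Type} (q : PL T × (ℕ → S)) : PL (T × S) := ⟨q.1.1, fun j => (q.1.2 j, q.2 j)⟩

theorem measurable_attach {T S : Type} [MeasurableSpace T] [MeasurableSpace S] :
    Measurable (attach (T := T) (S := S)) :=
  measurable_pl_prod fun k => (measurable_mk k).comp (measurable_pi_lambda _ fun j =>
    ((measurable_pi_apply j).comp measurable_fst).prodMk ((measurable_pi_apply (j : ℕ)).comp measurable_snd))

/-- Second coordinates of a Poisson list may be read off an independent sequence. -/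
theorem plaw_attach {T S : Type} [MeasurableSpace T] [MeasurableSpace S] (c : ℝ≥0) (τ : Measure T)
    [IsProbabilityMeasure τ] (σ : Measure S) [IsProbabilityMeasure σ] :
    ((plaw c τ).prod (Measure.infinitePi fun _ : ℕ => σ)).map attach = plaw c (τ.prod σ) := by
  unfold plaw
  rw [Measure.prod_sum_left, Measure.map_sum measurable_attach.aemeasurable]
  congr 1
  funext k
  rw [Measure.prod_smul_left, Measure.map_smul,
    ← Measure.map_id (μ := Measure.infinitePi fun _ : ℕ => σ),
    Measure.map_prod_map _ _ (measurable_mk k) measurable_id,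
    Measure.map_map measurable_attach ((measurable_mk k).prodMap measurable_id)]
  congr 1
  have hmp := (measurePreserving_arrowProdEquivProdArrow T S (Fin k) (fun _ => τ) (fun _ => σ)).symm
  rw [← hmp.map_eq, Measure.map_map (measurable_mk k) (MeasurableEquiv.measurable _),
    ← Measure.infinitePi_eq_pi (μ := fun _ : Fin k => σ),
    ← infinitePi_reindex (ρ := σ) Fin.val_injective]
  have e := Measure.map_prod_map (Measure.pi fun _ : Fin k => τ) (Measure.infinitePi fun _ : ℕ => σ)
    (f := id) (g := fun (l : ℕ → S) (a : Fin k) => l a) measurable_id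
    (measurable_pi_lambda _ fun a => measurable_pi_apply (a : ℕ))
  rw [Measure.map_id] at e
  rw [e,
    Measure.map_map
      (g := Sigma.mk (β := fun j => Fin j → T × S) k ∘
        ⇑(MeasurableEquiv.arrowProdEquivProdArrow T S (Fin k)).symm)
      (f := Prod.map id fun (l : ℕ → S) (a : Fin k) => l a)
      ((measurable_mk k).comp (MeasurableEquiv.measurable _))
      (measurable_id.prodMap (measurable_pi_lambda _ fun a => measurable_pi_apply (a : ℕ)))]
  rfl

/-- The sites of the clauses of the new sites. -/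
def sitesU (Kc M : ℕ) {N : ℕ} (S : ℕ → Fin N) : Fin M → ℕ → Fin Kc → Fin N :=
  fun s j p => S (2 * Nat.pair s (Nat.pair j p))

/-- The sites of the clauses of the second cavity factor. -/
def sitesV (Kc : ℕ) {N : ℕ} (S : ℕ → Fin N) : ℕ → Fin Kc → Fin N :=
  fun j p => S (2 * Nat.pair j p + 1)

theorem measurable_sitesU : Measurable (sitesU Kc M (N := N)) :=
  measurable_pi_lambda _ fun _ => measurable_pi_lambda _ fun _ => measurable_pi_lambda _ fun _ =>
    measurable_pi_apply _

theorem measurable_sitesV : Measurable (sitesV Kc (N := N)) :=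
  measurable_pi_lambda _ fun _ => measurable_pi_lambda _ fun _ => measurable_pi_apply _

theorem sitesV_law [NeZero N] : (siteLaw N).map (sitesV Kc) =
    Measure.infinitePi fun _ : ℕ => unif (Fin Kc → Fin N) := by
  have : IsProbabilityMeasure (unif (Fin N)) := unif_prob
  have hf : Function.Injective fun a : ℕ × Fin Kc => 2 * Nat.pair a.1 a.2 + 1 := fun a b h => by
    have := (Nat.pair_eq_pair.1 (by simpa using h : Nat.pair a.1 a.2 = Nat.pair b.1 b.2))
    exact Prod.ext this.1 (Fin.ext this.2)
  have h := congrArg (fun m => m.map (MeasurableEquiv.curry ℕ (Fin Kc) (Fin N)))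
    (infinitePi_reindex (ρ := unif (Fin N)) hf)
  simp only [Measure.infinitePi_map_curry (fun (_ : ℕ) (_ : Fin Kc) => unif (Fin N)),
    Measure.infinitePi_eq_pi, pi_unif] at h
  rw [← h, Measure.map_map (g := MeasurableEquiv.curry ℕ (Fin Kc) (Fin N))
    (f := fun (l : ℕ → Fin N) (a : ℕ × Fin Kc) => l (2 * Nat.pair a.1 a.2 + 1))
    (MeasurableEquiv.measurable _) (measurable_pi_lambda _ fun a => measurable_pi_apply _)]
  rfl

theorem sitesU_law [NeZero N] : (siteLaw N).map (sitesU Kc M) =
    Measure.pi fun _ : Fin M => Measure.infinitePi fun _ : ℕ => unif (Fin Kc → Fin N) := by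
  have : IsProbabilityMeasure (unif (Fin N)) := unif_prob
  have : IsProbabilityMeasure (unif (Fin Kc → Fin N)) := unif_prob
  have hf : Function.Injective fun a : Fin M × (ℕ × Fin Kc) =>
      2 * Nat.pair a.1 (Nat.pair a.2.1 a.2.2) := fun a b h => by
    have h1 := Nat.pair_eq_pair.1 (by simpa using h : Nat.pair (a.1 : ℕ) (Nat.pair a.2.1 a.2.2) =
      Nat.pair (b.1 : ℕ) (Nat.pair b.2.1 b.2.2))
    have h2 := Nat.pair_eq_pair.1 h1.2
    exact Prod.ext (Fin.ext h1.1) (Prod.ext h2.1 (Fin.ext h2.2))
  have h := congrArg (fun m => (m.map (MeasurableEquiv.curry (Fin M) (ℕ × Fin Kc) (Fin N))).map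
      fun f s => MeasurableEquiv.curry ℕ (Fin Kc) (Fin N) (f s))
    (infinitePi_reindex (ρ := unif (Fin N)) hf)
  simp only [Measure.infinitePi_map_curry (fun (_ : Fin M) (_ : ℕ × Fin Kc) => unif (Fin N))] at h
  rw [Measure.infinitePi_map_pi (μ := fun _ : Fin M => Measure.infinitePi fun _ : ℕ × Fin Kc =>
    unif (Fin N)) (f := fun _ => MeasurableEquiv.curry ℕ (Fin Kc) (Fin N))
    fun _ => MeasurableEquiv.measurable _] at h
  simp only [Measure.infinitePi_map_curry (fun (_ : ℕ) (_ : Fin Kc) => unif (Fin N)),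
    Measure.infinitePi_eq_pi, pi_unif] at h
  rw [← h, Measure.map_map (g := MeasurableEquiv.curry (Fin M) (ℕ × Fin Kc) (Fin N))
    (f := fun (l : ℕ → Fin N) (a : Fin M × (ℕ × Fin Kc)) =>
      l (2 * Nat.pair a.1 (Nat.pair a.2.1 a.2.2)))
    (MeasurableEquiv.measurable _)
    (measurable_pi_lambda _ fun a => measurable_pi_apply _), Measure.map_map
    (g := fun (f : Fin M → ℕ × Fin Kc → Fin N) s => MeasurableEquiv.curry ℕ (Fin Kc) (Fin N) (f s))
    (f := ⇑(MeasurableEquiv.curry (Fin M) (ℕ × Fin Kc) (Fin N)) ∘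
      fun (l : ℕ → Fin N) (a : Fin M × (ℕ × Fin Kc)) => l (2 * Nat.pair a.1 (Nat.pair a.2.1 a.2.2)))
    (measurable_pi_lambda _ fun s => (MeasurableEquiv.measurable _).comp (measurable_pi_apply s))
    ((MeasurableEquiv.measurable _).comp (measurable_pi_lambda _ fun a => measurable_pi_apply _))]
  rfl

/-- Fields of old and new sites. -/
theorem pi_append {X : Type*} [MeasurableSpace X] (ν : Measure X) [IsProbabilityMeasure ν] :
    MeasurePreserving (fun q : (Fin N → X) × (Fin M → X) => Fin.append q.1 q.2)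
      ((Measure.pi fun _ => ν).prod (Measure.pi fun _ => ν)) (Measure.pi fun _ => ν) := by
  have hm : Measurable fun q : (Fin N → X) × (Fin M → X) => Fin.append q.1 q.2 :=
    measurable_pi_lambda _ fun i => by
      induction i using Fin.addCases with
      | left a => simp only [Fin.append_left]; exact (measurable_pi_apply a).comp measurable_fst
      | right a => simp only [Fin.append_right]; exact (measurable_pi_apply a).comp measurable_snd
  refine ⟨hm, (Measure.pi_eq fun s hs => ?_).symm⟩
  rw [Measure.map_apply hm (MeasurableSet.univ_pi hs), Fin.prod_univ_add]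
  have e : (fun q : (Fin N → X) × (Fin M → X) => Fin.append q.1 q.2) ⁻¹' Set.univ.pi s =
      (Set.univ.pi fun i => s (Fin.castAdd M i)) ×ˢ Set.univ.pi fun i => s (Fin.natAdd N i) := by
    ext q
    simp [Fin.forall_fin_add]
  rw [e, Measure.prod_prod, Measure.pi_pi, Measure.pi_pi]

/-- The gain of the strength of the perturbation. -/
theorem pertS_diff (N M : ℕ) [NeZero N] :
    |((N : ℝ) + M) ^ (3 / 4 : ℝ) * ((N : ℝ) / (N + M)) ^ 0 - (N : ℝ) ^ (3 / 4 : ℝ)| ≤
      M / (N : ℝ) ^ (1 / 4 : ℝ) := by
  have hN : (0 : ℝ) < N := by exact_mod_cast NeZero.pos N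
  have hM : (0 : ℝ) ≤ M := Nat.cast_nonneg _
  have h1 : (N : ℝ) ^ (3 / 4 : ℝ) * (N : ℝ) ^ (1 / 4 : ℝ) = N := by
    rw [← Real.rpow_add hN]; norm_num
  have h2 : ((N : ℝ) + M) ^ (3 / 4 : ℝ) * ((N : ℝ) + M) ^ (1 / 4 : ℝ) = N + M := by
    rw [← Real.rpow_add (by positivity)]; norm_num
  have h3 : (N : ℝ) ^ (3 / 4 : ℝ) ≤ ((N : ℝ) + M) ^ (3 / 4 : ℝ) :=
    Real.rpow_le_rpow hN.le (by linarith) (by norm_num)
  have h4 : (N : ℝ) ^ (1 / 4 : ℝ) ≤ ((N : ℝ) + M) ^ (1 / 4 : ℝ) :=
    Real.rpow_le_rpow hN.le (by linarith) (by norm_num)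
  rw [pow_zero, mul_one, abs_of_nonneg (by linarith), le_div_iff₀ (by positivity)]
  nlinarith [mul_le_mul_of_nonneg_left h4 (show 0 ≤ ((N : ℝ) + M) ^ (3 / 4 : ℝ) by positivity)]

end Vale.Agent.P168.CavBound
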