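import Vale.Agent.P168.CavBound.PertStep
import Vale.Agent.P168.CavBound.DecV

/-!
P168: the larger system with clauses at no or one new site is the smaller system with the first
cavity factor.
-/

open MeasureTheory ProbabilityTheory Filter Topology
open scoped NNReal ENNReal

noncomputable section

namespace Vale.Agent.P168.CavBound

open P157.Casc (mlev Node Leaf casW casX path wgt)

variable {Kc N K n M : ℕ}

/-- A clause with one new site. -/
abbrev TU (Kc N M : ℕ) : Type := Fin M × ((Clause Kc × Fin Kc) × (Fin Kc → Fin N))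

/-- The clause in the larger system. -/
def oneT (t : TU Kc N M) : Term Kc (N + M) := (t.2.1.1, oneSites ((t.2.1.2, t.1), t.2.2))

/-- An old clause in the larger system. -/
def oldT (M : ℕ) {N : ℕ} (t : Term Kc N) : Term Kc (N + M) := (t.1, oldSites t.2)

theorem measurable_oneT : Measurable (oneT (Kc := Kc) (N := N) (M := M)) :=
  (measurable_fst.comp (measurable_fst.comp measurable_snd)).prodMk
    ((measurable_of_countable oneSites).comp
      (((measurable_snd.comp (measurable_fst.comp measurable_snd)).prodMk measurable_fst).prodMk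
        (measurable_snd.comp measurable_snd)))

theorem measurable_oldT : Measurable (oldT (Kc := Kc) M (N := N)) :=
  measurable_fst.prodMk ((measurable_of_countable oldSites).comp measurable_snd)

/-- The energy of a clause with one new site. -/
def oneE (L : ℝ) (t : TU Kc N M) (e : Fin M → Bool) (σ : Fin N → Bool) : ℝ :=
  cl (-L) L (t.2.1.1 fun p => if p = t.2.1.2 then e t.1 else σ (t.2.2 p))

/-- The factor of the new sites. -/
def fT (L : ℝ) (q : PL (TU Kc N M)) (h : Fin M → ℝ) (σ : Fin N → Bool) : ℝ :=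
  Real.log (∑ e : Fin M → Bool,
    Real.exp ((∑ s, cl (-L) L (h s) * sgn (e s)) + ∑ j, oneE L (q.2 j) e σ))

theorem measurable_oneE (L : ℝ) (e : Fin M → Bool) (σ : Fin N → Bool) :
    Measurable fun t : TU Kc N M => oneE L t e σ := by
  have hc : Measurable (cl (-L) L) := by unfold cl; fun_prop
  have h1 : Measurable fun u : Clause Kc × (Fin M × Fin Kc × (Fin Kc → Fin N)) =>
      u.1 fun p => if p = u.2.2.1 then e u.2.1 else σ (u.2.2.2 p) :=
    measurable_from_prod_countable_left fun w =>
      measurable_pi_apply (X := fun _ : Fin Kc → Bool => ℝ)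
        fun p => if p = w.2.1 then e w.1 else σ (w.2.2 p)
  exact hc.comp (h1.comp (f := fun t : TU Kc N M => (t.2.1.1, (t.1, t.2.1.2, t.2.2)))
    ((measurable_fst.comp (measurable_fst.comp measurable_snd)).prodMk
      (measurable_fst.prodMk ((measurable_snd.comp (measurable_fst.comp measurable_snd)).prodMk
        (measurable_snd.comp measurable_snd)))))

theorem measurable_fT (L : ℝ) (σ : Fin N → Bool) :
    Measurable fun a : PL (TU Kc N M) × (Fin M → ℝ) => fT L a.1 a.2 σ := by
  have hc : Measurable (cl (-L) L) := by unfold cl; fun_prop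
  refine Real.measurable_log.comp (Finset.measurable_sum Finset.univ fun e _ =>
    Real.measurable_exp.comp ((Finset.measurable_sum Finset.univ
      (f := fun (s : Fin M) (a : PL (TU Kc N M) × (Fin M → ℝ)) => cl (-L) L (a.2 s) * sgn (e s))
      fun s _ => ((hc.comp ((measurable_pi_apply s).comp measurable_snd)).mul_const _)).add ?_))
  refine (measurable_pl (f := fun q : PL (TU Kc N M) => ∑ j, oneE L (q.2 j) e σ) fun k => ?_).comp
    measurable_fst
  show Measurable fun v : Fin k → TU Kc N M => ∑ j : Fin k, oneE L (v j) e σ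
  exact Finset.measurable_sum Finset.univ (f := fun (j : Fin k) (v : Fin k → TU Kc N M) => oneE L (v j) e σ)
    fun j _ => (measurable_oneE L e σ).comp (measurable_pi_apply j)

/-- The bound of the factor of the new sites. -/
def bdT (L : ℝ) (M k : ℕ) : ℝ := M * (L + Real.log 2) + L * k

theorem abs_fT {L : ℝ} (hL : 0 ≤ L) (q : PL (TU Kc N M)) (h : Fin M → ℝ) (σ : Fin N → Bool) :
    |fT L q h σ| ≤ bdT L M q.1 := by
  refine (abs_log_sum_exp_le (B := L * M + L * q.1) fun e => (abs_add_le _ _).trans (add_le_add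
    ((Finset.abs_sum_le_sum_abs _ _).trans ((Finset.sum_le_sum (g := fun _ => L) fun s _ => ?_).trans_eq
      (show ∑ _s : Fin M, L = L * M by simp [mul_comm])))
    ((Finset.abs_sum_le_sum_abs _ _).trans ((Finset.sum_le_sum (g := fun _ => L) fun j _ => abs_cl hL _).trans_eq
      (show ∑ _j : Fin q.1, L = L * q.1 by simp [mul_comm]))))).trans_eq ?_
  · rw [abs_mul, show |sgn (e s)| = 1 by cases e s <;> simp [sgn], mul_one]
    exact abs_cl hL _
  · simp [bdT, Real.log_pow]
    ring

/-- Fields, perturbing clauses and the rest of the larger system. -/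
def psiR (M : ℕ) {N : ℕ} (u : (Fin M → ℝ) × Rst N K n) : Rst (N + M) K n :=
  ((Fin.append u.2.1.1 u.1, lmap (liftP M) u.2.1.2), u.2.2)

theorem psiR_mp (ν : Measure ℝ) [IsProbabilityMeasure ν] [NeZero N] (s : ℝ≥0) :
    MeasurePreserving (psiR (K := K) (n := n) M (N := N))
      ((Measure.pi fun _ : Fin M => ν).prod (rstLaw ν (kindLaw.prod (unif (Fin N))) s K n))
      (rstLaw ν (pertOld N M) s K n) := by
  have : IsProbabilityMeasure (unif (Fin N)) := unif_prob
  have : IsProbabilityMeasure (pertOld N M) := by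
    unfold pertOld; exact Measure.isProbabilityMeasure_map measurable_liftP.aemeasurable
  have hp : MeasurePreserving (lmap (liftP M (N := N))) (plaw s (kindLaw.prod (unif (Fin N))))
      (plaw s (pertOld N M)) := ⟨measurable_lmap measurable_liftP, (plaw_map measurable_liftP s _).symm⟩
  have h1 := (measurePreserving_prodAssoc (Measure.pi fun _ : Fin M => ν)
    ((Measure.pi fun _ : Fin N => ν).prod (plaw s (kindLaw.prod (unif (Fin N)))))
    ((casW (mlev K) n).prod (casX K n labLaw))).symm
  have h2 := (measurePreserving_prodAssoc (Measure.pi fun _ : Fin M => ν)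
    (Measure.pi fun _ : Fin N => ν) (plaw s (kindLaw.prod (unif (Fin N))))).symm
  have h3 := ((pi_append (N := N) (M := M) ν).comp Measure.measurePreserving_swap).prod hp
  exact ((h3.comp h2).prod (MeasurePreserving.id _)).comp h1

theorem pertE_liftP (x : ℕ → ℝ) (p : Pert N) (y : Fin K → Lab) (σ : Fin N → Bool)
    (e : Fin M → Bool) :
    pertE x (lmap (liftP M) p) y (Fin.append σ e) = pertE x p y σ := by
  obtain ⟨k, v⟩ := p
  simp [pertE, lmap, liftP]
  rfl

theorem ham_one (L : ℝ) (t : TU Kc N M) (σ : Fin N → Bool) (e : Fin M → Bool) :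
    cl (-L) L ((oneT t).1 fun p => Fin.append σ e ((oneT t).2 p)) = oneE L t e σ := by
  refine congrArg (cl (-L) L) (congrArg _ (funext fun p => ?_))
  by_cases hp : p = t.2.1.2
  · subst hp; simp [oneT, oneSites]
  · simp [oneT, oneSites, oldSites, Function.update_of_ne hp, hp]

theorem ham_old (L : ℝ) (t : Term Kc N) (σ : Fin N → Bool) (e : Fin M → Bool) :
    cl (-L) L ((oldT M t).1 fun p => Fin.append σ e ((oldT M t).2 p)) =
      cl (-L) L (t.1 fun p => σ (t.2 p)) := by
  simp [oldT, oldSites]

theorem add_rot (A B H G P : ℝ) : A + B + (H + G) + P = A + H + P + (G + B) := by ring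

/-- The larger system at a leaf and a configuration. -/
theorem sysY_full (L : ℝ) (x : ℕ → ℝ) (p : PL (Term Kc N)) (q : PL (TU Kc N M)) (h : Fin M → ℝ)
    (r : Rst N K n) (y : Fin K → Lab) (σ : Fin N → Bool) (e : Fin M → Bool) :
    sysY (clX x) (clZ L ((PL.app (lmap (oldT M) p) (lmap oneT q), Fin.append r.1.1 h),
        lmap (liftP M) r.1.2)) y (Fin.append σ e) =
      sysY (clX x) (clZ L ((p, r.1.1), r.1.2)) y σ *
        Real.exp ((∑ s, cl (-L) L (h s) * sgn (e s)) + ∑ j, oneE L (q.2 j) e σ) := by
  simp only [sysY, clZ, clB, ← Real.exp_add, pertE_liftP]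
  congr 1
  simp only [ham, Fin.sum_univ_add, Fin.append_left, Fin.append_right]
  erw [sum_app (fun _ (t : Term Kc (N + M)) =>
    cl (-L) L (t.1 fun l => Fin.append σ e (t.2 l))) (lmap (oldT M) p) (lmap oneT q)]
  obtain ⟨i, v⟩ := p
  obtain ⟨j, u⟩ := q
  simp only [lmap, Function.comp, ham_old, ham_one]
  exact add_rot (∑ a : Fin i, cl (-L) L ((v a).1 fun p => σ ((v a).2 p))) (∑ a : Fin j, oneE L (u a) e σ)
    _ _ _

theorem lsum_full (L : ℝ) (x : ℕ → ℝ) (p : PL (Term Kc N)) (q : PL (TU Kc N M)) (h : Fin M → ℝ)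
    (r : Rst N K n) :
    lsum L x (mkEnv (PL.app (lmap (oldT M) p) (lmap oneT q), psiR M (h, r))) =
      lext L x (fT L q h) (mkEnv (p, r)) := by
  refine congrArg Real.log ?_
  rw [Fintype.sum_prod_type, Fintype.sum_prod_type]
  refine Finset.sum_congr rfl fun α _ => ?_
  rw [← (Fin.appendEquiv N M).sum_comp fun τ => sW L x
    (mkEnv (PL.app (lmap (oldT M) p) (lmap oneT q), psiR M (h, r))) (α, τ), Fintype.sum_prod_type]
  refine Finset.sum_congr rfl fun σ _ => ?_
  rw [fT, Real.exp_log (Finset.sum_pos (fun e _ => Real.exp_pos _) Finset.univ_nonempty), Finset.mul_sum]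
  refine Finset.sum_congr rfl fun e _ => ?_
  simp only [sW, sysW, mkEnv, psiR, mul_assoc]
  exact congrArg (wgt (mlev K) (posW r.2.1) α * ·) (sysY_full L x p q h r _ σ e)

end Vale.Agent.P168.CavBound
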